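import Claimed.Agent.R256.Nm.Base
import Claimed.Agent.R256.Soft.Cond

/-!
# Row 256 (S0496), unit NM, block PRO (Y0, Y1), file 1: MONOTONICITY, CONDITIONING OF THE FINAL LAW      (architect helper156; prefix `nm_pro_`)

* `nm_pro_fine_mono`, `nm_pro_X_mono` : `Fine`, `nmX` are monotone in the tolerance (and in the rigidity exponent).
* `nm_pro_A_uf` = `nm_A_uf` of `Nm/Grid.lean`.
* `nm_pro_restr` = `nm_restr` of `Nm/Contract.lean`.
* `D.cndT E` = TOTAL version of `D.cnd E h0` (the configuration itself, up to equality of laws, if `E` is null): rows, labels, rays, `Conn` are DEFINITIONALLY those of `D`, so every observation of `D` is an observation of `D.cndT E`.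
-/

set_option autoImplicit false

namespace Claimed.Agent.R256

open Claimed.Agent.R255
open Claimed.Agent.R255.FLaw (pair)
open Filter Topology
open Classical

noncomputable section

theorem nm_pro_anti {s x y : ℝ} (hs : 0 < s ∧ s < 1) (h : x ≤ y) : s ^ y ≤ s ^ x :=
  Real.rpow_le_rpow_of_exponent_ge hs.1 hs.2.le h

/-- cost rigidity is monotone in the tolerance and antitone in the rigidity exponent -/
theorem nm_pro_minc_mono (D : SfDoc) (π : SfPar) (τ κ0 κ0' t t' : ℝ) (hs : 0 < D.s ∧ D.s < 1) (ht : 0 < t) (htt : t ≤ t')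
    (hk : κ0' ≤ κ0) (h : D.MinC π τ κ0 t) : D.MinC π τ κ0' t' := by
  intro i hi j hj hij htk ι _ Sb Ub sg h1 h2 h3 h4 h5 h6 h7
  have hd : 0 < j - i := by linarith
  have hkk : κ0' * (j - i) ≤ κ0 * (j - i) := mul_le_mul_of_nonneg_right hk hd.le
  have hinv : 1 / t' ≤ 1 / t := one_div_le_one_div_of_le ht htt
  refine (h i hi j hj hij (by linarith) ι Sb Ub sg h1 h2 (fun ρ => (h3 ρ).trans (nm_pro_anti hs (by linarith)))
    (fun lam => (h4 lam).trans (nm_pro_anti hs (by linarith))) (fun b => (h5 b).trans (nm_pro_anti hs (by linarith))) h6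
    (fun hc b ρ' hU => ⟨((h7 hc b ρ' hU).1).trans (nm_pro_anti hs (by linarith)), (h7 hc b ρ' hU).2⟩)).trans
    (nm_pro_anti hs hkk)

/-- cost rigidity is void for a nonpositive rigidity exponent -/
theorem nm_pro_minc_neg (D : SfDoc) (π : SfPar) (τ κ0 t : ℝ) (ht : 0 < t) (hk : κ0 ≤ 0) : D.MinC π τ κ0 t := by
  intro i _ j _ hij htk
  have : κ0 * (j - i) ≤ 0 := mul_nonpos_of_nonpos_of_nonneg hk (by linarith)
  exact absurd htk (by linarith)

theorem nm_pro_ok_mono (D : SfDoc) (π : SfPar) (C0 τ κ0 κ0' t t' : ℝ) (ht : 0 < t) (htt : t ≤ t') (hk : κ0' ≤ κ0)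
    (h : D.Ok π C0 τ κ0 t) : D.Ok π C0 τ κ0' t' := by
  have hs := h.core.hs
  have ha := h.aff
  refine ⟨sf_mono_aux_core D π C0 t t' ht htt h.core, SfDoc.sf_aff_of D π τ κ0' t'
    (sf_affp_mono D π t t' hs htt ⟨ha.hr, ha.hf, ha.cmpA, ha.cmpB, ha.eqK, ha.stK, ha.linP⟩)
    (nm_pro_minc_mono D π τ κ0 κ0' t t' hs ht htt hk ha.mincost)
    (fun hh => sf_spg_mono D π τ τ κ0 κ0' t t' hs ht htt le_rfl hk (ha.spg hh))⟩

/-- `Fine` is monotone -/
theorem nm_pro_fine_mono {D : SfDoc} {π : SfPar} {C0 τ κ0 κ0' t t' : ℝ} (h : D.Fine π C0 τ κ0 t) (htt : t ≤ t') (hk : κ0' ≤ κ0) :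
    D.Fine π C0 τ κ0' t' :=
  ⟨h.pos.trans_le htt, nm_pro_ok_mono D π C0 τ κ0 κ0' t t' h.pos htt hk h.ok, h.sm.trans htt, fun a h0 h1 => by
    obtain ⟨i, hi, hia⟩ := h.mesh a h0 h1
    exact ⟨i, hi, hia.trans htt⟩⟩

/-- halving the rigidity exponent -/
theorem nm_pro_fine_half {D : SfDoc} {π : SfPar} {C0 τ κ0 t t' : ℝ} (h : D.Fine π C0 τ κ0 t) (htt : t ≤ t') :
    D.Fine π C0 τ (κ0 / 2) t' := by
  rcases le_total 0 κ0 with hk | hk
  · exact nm_pro_fine_mono h htt (by linarith)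
  · have h1 := nm_pro_fine_mono h htt le_rfl
    have ha := h1.ok.aff
    exact ⟨h1.pos, ⟨h1.ok.core, SfDoc.sf_aff_of D π τ (κ0 / 2) t' ⟨ha.hr, ha.hf, ha.cmpA, ha.cmpB, ha.eqK, ha.stK, ha.linP⟩
      (nm_pro_minc_neg D π τ (κ0 / 2) t' h1.pos (by linarith))
      (fun _ => sf_spg_neg D π τ (κ0 / 2) t' h1.pos (by linarith))⟩, h1.sm, h1.mesh⟩

/-- `nmX` is monotone -/
theorem nm_pro_X_mono {D : SfDoc} {π : SfPar} {t t' : ℝ} (hs : 0 < D.s ∧ D.s < 1) (h : nmX π D t) (htt : t ≤ t') : nmX π D t' := by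
  have hp : ∀ x : ℝ, 0 ≤ D.s ^ x := fun x => (Real.rpow_pos_of_pos hs.1 x).le
  have hle : D.s ^ (-t) ≤ D.s ^ (-t') := nm_pro_anti hs (by linarith)
  refine ⟨fun i hi j hj h0 hij R c hc => (h.1 i hi j hj h0 hij R c hc).trans (mul_le_mul_of_nonneg_right hle (hp _)),
    fun hh i hi j hj h0 hij R Z c gs hc hg => (h.2 hh i hi j hj h0 hij R Z c gs hc hg).trans
      (mul_le_mul_of_nonneg_right hle (hp _))⟩

/-- scales of a sequence -/
theorem nm_pro_hs {π : SfPar} {C0 : ℝ} {κ : ℝ → ℝ} (S : NmSeq π C0 κ) (n : ℕ) : 0 < (S.D n).s ∧ (S.D n).s < 1 :=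
  (S.fine n 1 one_pos).ok.core.hs

/-- **`nm_A_uf`** (statement of `Nm/Grid.lean`) -/
theorem nm_pro_A_uf {π : SfPar} {C0 : ℝ} {κ : ℝ → ℝ} (S : NmSeq π C0 κ) (hX : S.HasX) (τ : ℝ) (hτ : 0 < τ) (Φ : ℝ → SfDoc → Prop)
    (h : NmA π C0 τ (κ τ) Φ) (acc : ℝ) (hacc : 0 < acc) : ∀ᶠ n in uf, Φ acc (S.D n) := by
  obtain ⟨t0, ht0, H⟩ := h acc hacc
  filter_upwards [S.lim.eventually (gt_mem_nhds ht0)] with n hn
  exact H (S.D n) (nm_pro_fine_mono (S.fine n τ hτ) hn.le le_rfl) (nm_pro_X_mono (nm_pro_hs S n) (hX n) hn.le)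

end

end Claimed.Agent.R256
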