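import Claimed.Agent.R256.Nm.Mem.Uf

/-!
# Row 256 (S0496), unit NM, block PRO, file CELL: PROFILES OF CELLS OF POLYNOMIALLY BOUNDED REALS      (helper128; prefix `nm_pc_`)

PAPER-FREE.   Lies BELOW `Nm/Contract.lean` (imports `Nm/Mem/Uf`).
* one scale: `nm_pc_ref` (refinement identity `H(A'|Y) - H(A|Y) = H(A'|A,Y)`), `nm_pc_ref_le`, `nm_pc_ref_anti`, `nm_pc_side` (change of the side by a refinement), `nm_pc_nval` (a cell of depth `x` contains `≤ 7 s^(x-x')` cells of depth `x'`).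
* sequences: `S.pc v x` = the cells of depth `x` of the reals `v n`;   `nm_pc_incr` (increments in `[0, x' - x]`, ANY side), `nm_pc_anti` (values and increments decrease under a finer side), `nm_pc_lip` (`1`-Lipschitz in the depth of a cell in the side).
* bounds on final rows: `nm_pc_bd_X`, `nm_pc_bd_P`, `nm_pc_bd_be`.
* exits: `nm_pc_Rj`, `nm_pc_U`, `nm_pc_HP`, `nm_pc_HP_HM`, `nm_pc_HM`  (= `nm_Rj_basic`, `nm_U_basic`, `ac_HP_basic`, `nm_HP_HM`, `nm_HM_basic`).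
-/

set_option autoImplicit false

namespace Claimed.Agent.R256

open Claimed.Agent.R255
open Claimed.Agent.R255.FLaw (pair)
open Filter Topology
open Classical

noncomputable section

/-! ## 1. One scale -/

section one

variable {Ω : Type} [Fintype Ω] {α α' β β' γ : Type}

/-- refinement identity: `A` is a function of `A'` -/
theorem nm_pc_ref (P : FLaw Ω) (A : Ω → α) (A' : Ω → α') (Y : Ω → β) (h : ∀ ω ω', A' ω = A' ω' → A ω = A ω') :
    P.entC A' Y - P.entC A Y = P.entC A' (pair A Y) := by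
  have h1 := ent_entC_chain P A A' Y
  have h2 : P.entC (pair A A') Y = P.entC A' Y := by
    refine ent_entC_congr P _ _ _ _ (fun _ _ _ _ => Iff.rfl) fun ω ω' _ _ _ => ?_
    simp only [FLaw.pair, Prod.mk.injEq]
    exact ⟨fun hh => hh.2, fun hh => ⟨h _ _ hh, hh⟩⟩
  linarith

/-- the increment is at most the logarithm of the number of refinements -/
theorem nm_pc_ref_le (P : FLaw Ω) (A : Ω → α) (A' : Ω → α') (Y : Ω → β) {N : ℝ} (hN : P.NVal (fun _ => True) A' A N) :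
    P.entC A' (pair A Y) ≤ Real.log N :=
  (ent_entC_anti P A' (pair A Y) A fun _ _ _ _ hh => congrArg Prod.fst hh).trans (ent_entC_le_log_nval P A' A hN)

/-- the increment decreases under a finer side -/
theorem nm_pc_ref_anti (P : FLaw Ω) (A : Ω → α) (A' : Ω → α') (Y : Ω → β) (Y' : Ω → β') (h : ∀ ω ω', Y' ω = Y' ω' → Y ω = Y ω') :
    P.entC A' (pair A Y') ≤ P.entC A' (pair A Y) := by
  refine ent_entC_anti P A' (pair A Y') (pair A Y) fun ω ω' _ _ hh => ?_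
  simp only [FLaw.pair, Prod.mk.injEq] at hh ⊢
  exact ⟨hh.1, h _ _ hh.2⟩

/-- change of the side by a refinement `B'` of `B` -/
theorem nm_pc_side (P : FLaw Ω) (A : Ω → α) (B : Ω → β) (B' : Ω → β') (Z : Ω → γ) (h : ∀ ω ω', B' ω = B' ω' → B ω = B ω') :
    P.entC A (pair B' Z) ≤ P.entC A (pair B Z) ∧ P.entC A (pair B Z) ≤ P.entC A (pair B' Z) + P.entC B' (pair B Z) := by
  constructor
  · refine ent_entC_anti P A (pair B' Z) (pair B Z) fun ω ω' _ _ hh => ?_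
    simp only [FLaw.pair, Prod.mk.injEq] at hh ⊢
    exact ⟨h _ _ hh.1, hh.2⟩
  · have h1 := ent_entC_chain P B' A (pair B Z)
    have h2 : P.entC A (pair B Z) ≤ P.entC (pair B' A) (pair B Z) :=
      ent_entC_mono P (pair B' A) A (pair B Z) fun _ _ _ _ hh _ => congrArg Prod.snd hh
    have h3 : P.entC A (pair B' (pair B Z)) = P.entC A (pair B' Z) := by
      refine ent_entC_congr P _ _ _ _ (fun ω ω' _ _ => ?_) fun _ _ _ _ _ => Iff.rfl
      simp only [FLaw.pair, Prod.mk.injEq]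
      exact ⟨fun hh => ⟨hh.1, hh.2.2⟩, fun hh => ⟨hh.1, h _ _ hh.1, hh.2⟩⟩
    linarith

/-- a cell of depth `x` contains at most `7 s^(x - x')` cells of depth `x' ≥ x` -/
theorem nm_pc_nval (P : FLaw Ω) (v : Ω → ℝ) {s : ℝ} (h0 : 0 < s) (h1 : s < 1) {x x' : ℝ} (h : x ≤ x') :
    P.NVal (fun _ => True) (fun ω => nmCell s x' (v ω)) (fun ω => nmCell s x (v ω)) (7 * s ^ (-(x' - x))) := by
  have h2 := nm_me_nval_close P (fun _ => True) (fun ω => nmCell s x (v ω)) v h0 h1 x x' (K := 1) zero_le_one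
    (fun ω ω' _ _ _ _ hh => by rw [one_mul]; exact nm_close_of_cell h0 h1 hh)
  have h3 : (1 : ℝ) ≤ s ^ (-(x' - x)) := Real.one_le_rpow_of_pos_of_le_one_of_nonpos h0 h1.le (by linarith)
  intro ω₀
  obtain ⟨T, hT, hmem⟩ := h2 ω₀
  exact ⟨T, hT.trans (by linarith), hmem⟩

/-- the increment of the entropy of a cell, any side -/
theorem nm_pc_cell (P : FLaw Ω) (v : Ω → ℝ) {s : ℝ} (h0 : 0 < s) (h1 : s < 1) {x x' : ℝ} (h : x ≤ x') (Y : Ω → β) :
    P.entC (fun ω => nmCell s x' (v ω)) (pair (fun ω => nmCell s x (v ω)) Y) ≤ Real.log 7 + (x' - x) * lg s := by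
  refine (nm_pc_ref_le P _ _ Y (nm_pc_nval P v h0 h1 h)).trans (le_of_eq ?_)
  rw [Real.log_mul (by norm_num) (Real.rpow_pos_of_pos h0 _).ne', Real.log_rpow h0]
  unfold lg
  rw [one_div, Real.log_inv]
  ring

end one

/-! ## 2. Sequences -/

section seq

variable {π : SfPar} {C0 : ℝ} {κ : ℝ → ℝ} (S : NmSeq π C0 κ)

/-- the cells of depth `x` of a sequence of real observations -/
def NmSeq.pc (v : ∀ n, (S.D n).Row 1 → ℝ) (x : ℝ) : S.Obs (fun _ => ℤ) := fun n ω => nmCell (S.D n).s x (v n ω)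

/-- polynomially bounded on the charged rows -/
def NmSeq.PBd (v : ∀ n, (S.D n).Row 1 → ℝ) : Prop :=
  ∃ C K : ℝ, 0 ≤ K ∧ ∀ᶠ n in uf, ∀ ω, ((S.D n).P 1).p ω ≠ 0 → |v n ω| ≤ K * (S.D n).s ^ (-C)

/-- the sequence whose ultralimit is `S.HC X Y` -/
def NmSeq.hc {α β : ℕ → Type} (X : S.Obs α) (Y : S.Obs β) : ℕ → ℝ := fun n => ((S.D n).P 1).entC (X n) (Y n) / (S.D n).lgs

theorem nm_pc_HC {α β : ℕ → Type} (X : S.Obs α) (Y : S.Obs β) : S.HC X Y = ulim (S.hc X Y) := rfl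

theorem nm_pc_ubdd {v : ∀ n, (S.D n).Row 1 → ℝ} (hv : S.PBd v) (x : ℝ) {β : ℕ → Type} (Y : S.Obs β) : UBdd (S.hc (S.pc v x) Y) := by
  obtain ⟨C, K, hK, h⟩ := hv
  exact nm_me_ubdd S v x C K hK h Y

/-- `c / log (1/s) → 0` -/
theorem nm_pc_small (c e : ℝ) (he : 0 < e) : ∀ᶠ n in uf, c / (S.D n).lgs ≤ e := by
  filter_upwards [nm_me_lgs_top S (c / e)] with n hn
  rw [div_le_iff₀ (nm_me_lgs_pos S n)]
  rwa [div_le_iff₀ he, mul_comm] at hn

/-- comparison of two profiles -/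
theorem nm_pc_HC_le {α β α' β' : ℕ → Type} (X : S.Obs α) (Y : S.Obs β) (X' : S.Obs α') (Y' : S.Obs β') (hb : UBdd (S.hc X Y)) (hb' : UBdd (S.hc X' Y'))
    (h : ∀ n, ((S.D n).P 1).entC (X n) (Y n) ≤ ((S.D n).P 1).entC (X' n) (Y' n)) : S.HC X Y ≤ S.HC X' Y' :=
  ulim_le _ _ hb hb' (Eventually.of_forall fun n => div_le_div_of_nonneg_right (h n) (nm_me_lgs_pos S n).le)

theorem nm_pc_HC_congr {α β α' β' : ℕ → Type} (X : S.Obs α) (Y : S.Obs β) (X' : S.Obs α') (Y' : S.Obs β')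
    (h : ∀ n, ((S.D n).P 1).entC (X n) (Y n) = ((S.D n).P 1).entC (X' n) (Y' n)) : S.HC X Y = S.HC X' Y' := by
  unfold NmSeq.HC
  congr 1
  funext n
  rw [h n]

/-- **increments in the depth**: in `[0, x' - x]`, for ANY side -/
theorem nm_pc_incr {v : ∀ n, (S.D n).Row 1 → ℝ} (hv : S.PBd v) {β : ℕ → Type} (Y : S.Obs β) {x x' : ℝ} (h : x ≤ x') :
    0 ≤ S.HC (S.pc v x') Y - S.HC (S.pc v x) Y ∧ S.HC (S.pc v x') Y - S.HC (S.pc v x) Y ≤ x' - x := by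
  have hb := nm_pc_ubdd S hv x Y
  have hb' := nm_pc_ubdd S hv x' Y
  rw [nm_pc_HC, nm_pc_HC, ← ulim_sub _ _ hb' hb]
  have key : ∀ n, S.hc (S.pc v x') Y n - S.hc (S.pc v x) Y n
      = ((S.D n).P 1).entC (S.pc v x' n) (pair (S.pc v x n) (Y n)) / (S.D n).lgs := by
    intro n
    obtain ⟨h0, h1⟩ := nm_me_s S n
    unfold NmSeq.hc
    rw [← sub_div, nm_pc_ref ((S.D n).P 1) (S.pc v x n) (S.pc v x' n) (Y n) fun ω ω' hh => nm_cell_nest h0 h1 h hh]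
  constructor
  · refine const_le_ulim _ 0 (hb'.sub hb) (Eventually.of_forall fun n => ?_)
    rw [key n]
    exact div_nonneg (ent_entC_nonneg _ _ _) (nm_me_lgs_pos S n).le
  · refine nm_me_ulim_le _ _ (hb'.sub hb) fun e he => ?_
    filter_upwards [nm_pc_small S (Real.log 7) e he] with n hn
    obtain ⟨h0, h1⟩ := nm_me_s S n
    have hpos := nm_me_lgs_pos S n
    rw [key n]
    have h2 := nm_pc_cell ((S.D n).P 1) (v n) h0 h1 h (Y n)
    have h3 : ((S.D n).P 1).entC (S.pc v x' n) (pair (S.pc v x n) (Y n)) / (S.D n).lgs ≤ (Real.log 7 + (x' - x) * (S.D n).lgs) / (S.D n).lgs :=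
      div_le_div_of_nonneg_right h2 hpos.le
    rw [add_div, mul_div_assoc, div_self hpos.ne', mul_one] at h3
    linarith

/-- **finer side**: the values and the increments decrease -/
theorem nm_pc_anti {v : ∀ n, (S.D n).Row 1 → ℝ} (hv : S.PBd v) {β β' : ℕ → Type} (Y : S.Obs β) (Y' : S.Obs β')
    (hY : ∀ n ω ω', Y' n ω = Y' n ω' → Y n ω = Y n ω') :
    (∀ x, S.HC (S.pc v x) Y' ≤ S.HC (S.pc v x) Y) ∧
    ∀ x x', x ≤ x' → S.HC (S.pc v x') Y' - S.HC (S.pc v x) Y' ≤ S.HC (S.pc v x') Y - S.HC (S.pc v x) Y := by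
  constructor
  · intro x
    exact nm_pc_HC_le S _ _ _ _ (nm_pc_ubdd S hv x Y') (nm_pc_ubdd S hv x Y) fun n =>
      ent_entC_anti _ _ _ _ fun ω ω' _ _ hh => hY n ω ω' hh
  · intro x x' h
    have a := nm_pc_ubdd S hv x Y
    have a' := nm_pc_ubdd S hv x' Y
    have b := nm_pc_ubdd S hv x Y'
    have b' := nm_pc_ubdd S hv x' Y'
    rw [nm_pc_HC, nm_pc_HC, nm_pc_HC, nm_pc_HC, ← ulim_sub _ _ b' b, ← ulim_sub _ _ a' a]
    refine ulim_le _ _ (b'.sub b) (a'.sub a) (Eventually.of_forall fun n => ?_)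
    obtain ⟨h0, h1⟩ := nm_me_s S n
    unfold NmSeq.hc
    rw [← sub_div, ← sub_div, nm_pc_ref ((S.D n).P 1) (S.pc v x n) (S.pc v x' n) (Y n) fun ω ω' hh => nm_cell_nest h0 h1 h hh,
      nm_pc_ref ((S.D n).P 1) (S.pc v x n) (S.pc v x' n) (Y' n) fun ω ω' hh => nm_cell_nest h0 h1 h hh]
    exact div_le_div_of_nonneg_right (nm_pc_ref_anti _ _ _ _ _ (hY n)) (nm_me_lgs_pos S n).le

/-- **a cell in the side**: nonincreasing and `1`-Lipschitz in its depth -/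
theorem nm_pc_lip {α γ : ℕ → Type} (X : S.Obs α) (w : ∀ n, (S.D n).Row 1 → ℝ) (Z : S.Obs γ)
    (hb : ∀ z, UBdd (S.hc X (S.pr2 (S.pc w z) Z))) {z z' : ℝ} (h : z ≤ z') :
    0 ≤ S.HC X (S.pr2 (S.pc w z) Z) - S.HC X (S.pr2 (S.pc w z') Z) ∧ S.HC X (S.pr2 (S.pc w z) Z) - S.HC X (S.pr2 (S.pc w z') Z) ≤ z' - z := by
  rw [nm_pc_HC, nm_pc_HC, ← ulim_sub _ _ (hb z) (hb z')]
  have key : ∀ n, 0 ≤ S.hc X (S.pr2 (S.pc w z) Z) n - S.hc X (S.pr2 (S.pc w z') Z) n ∧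
      S.hc X (S.pr2 (S.pc w z) Z) n - S.hc X (S.pr2 (S.pc w z') Z) n ≤ Real.log 7 / (S.D n).lgs + (z' - z) := by
    intro n
    obtain ⟨h0, h1⟩ := nm_me_s S n
    have hpos := nm_me_lgs_pos S n
    obtain ⟨a1, a2⟩ := nm_pc_side ((S.D n).P 1) (X n) (S.pc w z n) (S.pc w z' n) (Z n) fun ω ω' hh => nm_cell_nest h0 h1 h hh
    have a3 := nm_pc_cell ((S.D n).P 1) (w n) h0 h1 h (Z n)
    unfold NmSeq.hc
    rw [← sub_div]
    constructor
    · exact div_nonneg (sub_nonneg.2 a1) hpos.le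
    · have e : lg (S.D n).s = (S.D n).lgs := rfl
      rw [e] at a3
      have a4 : ((S.D n).P 1).entC (X n) (S.pr2 (S.pc w z) Z n) - ((S.D n).P 1).entC (X n) (S.pr2 (S.pc w z') Z n) ≤ Real.log 7 + (z' - z) * (S.D n).lgs := by
        have : ((S.D n).P 1).entC (X n) (pair (S.pc w z n) (Z n)) ≤ ((S.D n).P 1).entC (X n) (pair (S.pc w z' n) (Z n)) + (Real.log 7 + (z' - z) * (S.D n).lgs) :=
          a2.trans (add_le_add le_rfl a3)
        show ((S.D n).P 1).entC (X n) (pair (S.pc w z n) (Z n)) - ((S.D n).P 1).entC (X n) (pair (S.pc w z' n) (Z n)) ≤ _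
        linarith
      have a5 := div_le_div_of_nonneg_right a4 hpos.le
      rwa [add_div, mul_div_assoc, div_self hpos.ne', mul_one] at a5
  constructor
  · exact const_le_ulim _ 0 ((hb z).sub (hb z')) (Eventually.of_forall fun n => (key n).1)
  · refine nm_me_ulim_le _ _ ((hb z).sub (hb z')) fun e he => ?_
    filter_upwards [nm_pc_small S (Real.log 7) e he] with n hn
    have := (key n).2
    linarith

end seq

/-! ## 3. Bounds on the final rows -/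

section bd

variable {D : SfDoc} {π : SfPar} {C0 t : ℝ}

theorem nm_pc_gt_mem (hc : D.Core π C0 t) (i : ℝ) : D.gt i ∈ D.G := by
  have hne : D.G.Nonempty := ⟨1, hc.gate.1⟩
  unfold SfDoc.gt
  rw [dif_pos hne]
  exact (D.G.exists_min_image (fun j => |j - i|) hne).choose_spec.1

theorem nm_pc_test_abs (Q : SfTest) : |Q.x| ≤ Q.size ∧ |Q.b| ≤ Q.size ∧ |Q.al| ≤ Q.size ∧ |Q.be| ≤ Q.size ∧ |Q.K| ≤ Q.size := by
  unfold SfTest.size
  refine ⟨le_max_left _ _, ?_, ?_, ?_, ?_⟩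
  · exact le_max_of_le_right (le_max_left _ _)
  · exact le_max_of_le_right (le_max_of_le_right (le_max_of_le_right (le_max_of_le_right (le_max_of_le_right (le_max_left _ _)))))
  · exact le_max_of_le_right (le_max_of_le_right (le_max_of_le_right (le_max_of_le_right (le_max_of_le_right (le_max_of_le_right (le_max_left _ _))))))
  · exact le_max_of_le_right (le_max_of_le_right (le_max_of_le_right (le_max_of_le_right (le_max_of_le_right (le_max_of_le_right (le_max_right _ _))))))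

theorem nm_pc_ray_abs (z : SfRay) : |z.X| ≤ z.size ∧ |z.B| ≤ z.size := by
  unfold SfRay.size
  exact ⟨le_max_left _ _, le_max_of_le_right (le_max_left _ _)⟩

/-- a label of a gate: polynomial size, time in `[0,1]` -/
theorem nm_pc_lab_gate (hc : D.Core π C0 t) {i : ℝ} (hi : i ∈ D.G) (ρ : D.Row i) :
    (D.lab i ρ).size ≤ D.s ^ (-C0) ∧ 0 ≤ (D.lab i ρ).T ∧ (D.lab i ρ).T ≤ 1 := by
  obtain ⟨_, _, _, h4, h5⟩ := hc.own i hi ρ
  have hl : 0 < D.len i := lt_of_lt_of_le (Real.rpow_pos_of_pos hc.hs.1 _) (hc.hlen.2 i hi).1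
  have e : D.T i ρ = (D.lab i ρ).T := rfl
  rw [e] at h4 h5
  exact ⟨(hc.bdd i hi ρ).2, h4, by linarith⟩

/-- the label met at any depth: polynomial size, time in `[0,1]` -/
theorem nm_pc_labAt (hc : D.Core π C0 t) (i : ℝ) (ω : D.Row 1) :
    (D.labAt i ω).size ≤ D.s ^ (-C0) ∧ 0 ≤ (D.labAt i ω).T ∧ (D.labAt i ω).T ≤ 1 := by
  unfold SfDoc.labAt
  split_ifs with h1 h2
  · exact nm_pc_lab_gate hc hc.gate.1 ω
  · exact nm_pc_lab_gate hc (nm_pc_gt_mem hc i) _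
  · refine ⟨?_, le_rfl, zero_le_one⟩
    have : sfZero.size = 0 := by simp [sfZero, SfTest.size]
    rw [this]
    exact (Real.rpow_pos_of_pos hc.hs.1 _).le

/-- the common polynomial bound: `A = s^(-|C0|)`, `E = s^(-|b|)` -/
theorem nm_pc_kbar (hc : D.Core π C0 t) (ds : NmDs) (ω : D.Row 1) :
    |D.kbar π ds ω| ≤ D.s ^ (-|C0|) + D.s ^ (-|π.b2 ds.De - ds.De|) := by
  obtain ⟨h0, h1⟩ := hc.hs
  have hA : D.s ^ (-C0) ≤ D.s ^ (-|C0|) := nm_me_anti h0 h1 (neg_le_neg (le_abs_self C0))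
  have hE : D.s ^ (π.b2 ds.De - ds.De) ≤ D.s ^ (-|π.b2 ds.De - ds.De|) := nm_me_anti h0 h1 (neg_abs_le _)
  have hp1 : 0 < D.s ^ (-|C0|) := Real.rpow_pos_of_pos h0 _
  have hp2 : 0 < D.s ^ (-|π.b2 ds.De - ds.De|) := Real.rpow_pos_of_pos h0 _
  unfold SfDoc.kbar
  split_ifs
  · have a1 := nm_rep_abs h0 h1 (π.b2 ds.De - ds.De) (D.labAt ds.De ω).K
    have a2 := (nm_pc_test_abs (D.labAt ds.De ω)).2.2.2.2.trans (nm_pc_labAt hc ds.De ω).1
    have a3 : |nmRep D.s (π.b2 ds.De - ds.De) (D.labAt ds.De ω).K| ≤ |(D.labAt ds.De ω).K| + |(D.labAt ds.De ω).K - nmRep D.s (π.b2 ds.De - ds.De) (D.labAt ds.De ω).K| := by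
      have := abs_sub_abs_le_abs_sub (nmRep D.s (π.b2 ds.De - ds.De) (D.labAt ds.De ω).K) (D.labAt ds.De ω).K
      rw [abs_sub_comm] at this
      linarith
    linarith
  · rw [abs_zero]
    positivity

/-- elementary: all the polynomial expressions below are `≤ 11 A² E` -/
theorem nm_pc_num {A E al be K x b X B T kb : ℝ} (hA : 1 ≤ A) (hE : 1 ≤ E) (h1 : |al| ≤ A) (h2 : |be| ≤ A) (h3 : |K| ≤ A) (h4 : |x| ≤ A) (h5 : |b| ≤ A)
    (h6 : |X| ≤ A) (h7 : |B| ≤ A) (h8 : 0 ≤ T) (h9 : T ≤ 1) (h10 : |kb| ≤ A + E) :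
    |al + 2 * be * x - 2 * K * b + 2 * kb * B| ≤ 11 * (A ^ 2 * E) ∧ |al + 2 * be * X - 2 * K * (B + T * X) + 2 * kb * B| ≤ 11 * (A ^ 2 * E) ∧
      |be - kb * T| ≤ 11 * (A ^ 2 * E) := by
  have hAE : A ≤ A ^ 2 * E := by nlinarith [mul_le_mul hA hE zero_le_one (by linarith : (0 : ℝ) ≤ A)]
  have hA2 : A ^ 2 ≤ A ^ 2 * E := by nlinarith [sq_nonneg A]
  have hAEE : A * E ≤ A ^ 2 * E := by nlinarith [mul_nonneg (by linarith : (0 : ℝ) ≤ A) (by linarith : (0 : ℝ) ≤ E)]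
  have hEE : E ≤ A ^ 2 * E := by nlinarith [sq_nonneg A]
  have m : ∀ u w : ℝ, |u| ≤ A → |w| ≤ A → |u * w| ≤ A ^ 2 := by
    intro u w hu hw
    rw [abs_mul, sq]
    exact mul_le_mul hu hw (abs_nonneg _) (by linarith)
  have mk : ∀ w : ℝ, |w| ≤ A → |kb * w| ≤ A ^ 2 + A * E := by
    intro w hw
    rw [abs_mul]
    calc |kb| * |w| ≤ (A + E) * A := mul_le_mul h10 hw (abs_nonneg _) (by linarith)
      _ = _ := by ring
  have hT : |T| ≤ 1 := abs_le.2 ⟨by linarith, h9⟩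
  have hTX : |T * X| ≤ A := by
    rw [abs_mul]
    calc |T| * |X| ≤ 1 * A := mul_le_mul hT h6 (abs_nonneg _) zero_le_one
      _ = A := one_mul A
  have hKT : |K * (T * X)| ≤ A ^ 2 := m _ _ h3 hTX
  have hkT : |kb * T| ≤ A + E := by
    rw [abs_mul]
    calc |kb| * |T| ≤ (A + E) * 1 := mul_le_mul h10 hT (abs_nonneg _) (by linarith)
      _ = _ := mul_one _
  have b1 := m be x h2 h4
  have b2 := m K b h3 h5
  have b3 := mk B h7
  have b4 := m be X h2 h6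
  have b5 := m K B h3 h7
  refine ⟨?_, ?_, ?_⟩
  · rw [abs_le] at *
    constructor <;> nlinarith
  · rw [abs_le] at *
    constructor <;> nlinarith
  · rw [abs_le] at *
    constructor <;> nlinarith

/-- the raw derivative and the raw curvature of a display are polynomially bounded -/
theorem nm_pc_raw (hc : D.Core π C0 t) (ds : NmDs) (ω : D.Row 1) :
    |(D.raw π ds ω).P| ≤ 11 * D.s ^ (-(2 * |C0| + |π.b2 ds.De - ds.De|)) ∧ |(D.raw π ds ω).be| ≤ 11 * D.s ^ (-(2 * |C0| + |π.b2 ds.De - ds.De|)) := by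
  obtain ⟨h0, h1⟩ := hc.hs
  have hA : D.s ^ (-C0) ≤ D.s ^ (-|C0|) := nm_me_anti h0 h1 (neg_le_neg (le_abs_self C0))
  have hA1 : (1 : ℝ) ≤ D.s ^ (-|C0|) := Real.one_le_rpow_of_pos_of_le_one_of_nonpos h0 h1.le (neg_nonpos.2 (abs_nonneg _))
  have hE1 : (1 : ℝ) ≤ D.s ^ (-|π.b2 ds.De - ds.De|) := Real.one_le_rpow_of_pos_of_le_one_of_nonpos h0 h1.le (neg_nonpos.2 (abs_nonneg _))
  have e : D.s ^ (-(2 * |C0| + |π.b2 ds.De - ds.De|)) = (D.s ^ (-|C0|)) ^ 2 * D.s ^ (-|π.b2 ds.De - ds.De|) := by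
    rw [sq, ← Real.rpow_add h0, ← Real.rpow_add h0]
    congr 1
    ring
  rw [e]
  obtain ⟨l1, l2, l3⟩ := nm_pc_labAt hc ds.De ω
  obtain ⟨q1, q2, q3, q4, q5⟩ := nm_pc_test_abs (D.labAt ds.De ω)
  obtain ⟨r1, r2⟩ := nm_pc_ray_abs (D.ray 1 ω)
  have hr := (hc.bdd 1 hc.gate.1 ω).1
  obtain ⟨n1, n2, n3⟩ := nm_pc_num hA1 hE1 (q3.trans (l1.trans hA)) (q4.trans (l1.trans hA)) (q5.trans (l1.trans hA)) (q1.trans (l1.trans hA))
    (q2.trans (l1.trans hA)) (r1.trans (hr.trans hA)) (r2.trans (hr.trans hA)) l2 l3 (nm_pc_kbar hc ds ω)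
  refine ⟨?_, n3⟩
  show |(match ds.cut with
    | NmCut.none => (D.labAt ds.De ω).Pc
    | _ => (D.labAt ds.De ω).Pd (D.ray 1 ω)) + 2 * D.kbar π ds ω * (D.ray 1 ω).B| ≤ _
  cases ds.cut
  · exact n2
  · exact n2
  · exact n1

end bd

section exits

variable {π : SfPar} {C0 : ℝ} {κ : ℝ → ℝ} (S : NmSeq π C0 κ)

theorem nm_pc_bd_X : S.PBd fun n ω => ((S.D n).ray 1 ω).X := by
  refine ⟨C0, 1, zero_le_one, Eventually.of_forall fun n ω _ => ?_⟩
  have hc := (S.fine n 1 one_pos).ok.core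
  rw [one_mul]
  exact (nm_pc_ray_abs _).1.trans (hc.bdd 1 hc.gate.1 ω).1

theorem nm_pc_bd_P (ds : NmDs) : S.PBd fun n ω => ((S.D n).raw π ds ω).P :=
  ⟨_, 11, by norm_num, Eventually.of_forall fun n ω _ => (nm_pc_raw (S.fine n 1 one_pos).ok.core ds ω).1⟩

theorem nm_pc_bd_be (ds : NmDs) : S.PBd fun n ω => ((S.D n).raw π ds ω).be :=
  ⟨_, 11, by norm_num, Eventually.of_forall fun n ω _ => (nm_pc_raw (S.fine n 1 one_pos).ok.core ds ω).2⟩

/-- **`R_j` is nondecreasing and `1`-Lipschitz** -/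
theorem nm_pc_Rj (j x x' : ℝ) (h : x ≤ x') : 0 ≤ S.Rj j x' - S.Rj j x ∧ S.Rj j x' - S.Rj j x ≤ x' - x :=
  nm_pc_incr S (nm_pc_bd_X S) (S.lab j) h

/-- **the angular score**: it vanishes at the depth of the name, increments in `[0, x' - x]` -/
theorem nm_pc_U (q : NmQ) (a v : ℝ) :
    S.U q v a v = 0 ∧ ∀ x x' : ℝ, x ≤ x' → 0 ≤ S.U q x' a v - S.U q x a v ∧ S.U q x' a v - S.U q x a v ≤ x' - x := by
  refine ⟨?_, fun x x' h => nm_pc_incr S (nm_pc_bd_X S) (S.nm q a v) h⟩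
  have h0 : ∀ n, ((S.D n).P 1).entC (S.Xc v n) (S.nm q a v n) = 0 := fun n =>
    ent_entC_eq_zero _ _ _ fun ω ω' _ _ hh => congrArg NmNm.X hh
  unfold NmSeq.U NmSeq.HC
  simp only [h0, zero_div]
  exact ulim_const 0

/-- **the mixed profile `HP`** -/
theorem nm_pc_HP (ds : NmDs) :
    (∀ z x x' : ℝ, x ≤ x' → 0 ≤ S.HP ds x' z - S.HP ds x z ∧ S.HP ds x' z - S.HP ds x z ≤ x' - x) ∧
    (∀ z z' x x' : ℝ, z ≤ z' → x ≤ x' → S.HP ds x' z' - S.HP ds x z' ≤ S.HP ds x' z - S.HP ds x z) ∧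
    (∀ x z z' : ℝ, z ≤ z' → S.HP ds x z' ≤ S.HP ds x z) := by
  have hY : ∀ z z' : ℝ, z ≤ z' → ∀ n ω ω', S.pr2 S.y0 (S.tc z') n ω = S.pr2 S.y0 (S.tc z') n ω' → S.pr2 S.y0 (S.tc z) n ω = S.pr2 S.y0 (S.tc z) n ω' := by
    intro z z' h n ω ω' hh
    obtain ⟨h0, h1⟩ := nm_me_s S n
    simp only [NmSeq.pr2, FLaw.pair, Prod.mk.injEq] at hh ⊢
    exact ⟨hh.1, nm_cell_nest h0 h1 h hh.2⟩
  refine ⟨fun z x x' h => nm_pc_incr S (nm_pc_bd_P S ds) _ h, fun z z' x x' hz hx => ?_, fun x z z' hz => ?_⟩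
  · exact (nm_pc_anti S (nm_pc_bd_P S ds) _ _ (hY z z' hz)).2 x x' hx
  · exact (nm_pc_anti S (nm_pc_bd_P S ds) _ _ (hY z z' hz)).1 x

/-- the mixed profile `HM` of a cell of a real, in the language of this file -/
theorem nm_pc_HM_eq (V : ℝ → NmAt) (v : ∀ n, (S.D n).Row 1 → ℝ)
    (hV : ∀ x n ω, (S.D n).atq π (V x) ω = Sum.inr (Sum.inl (nmCell (S.D n).s x (v n ω)))) (Sd : List NmAt) (x z : ℝ) :
    S.HM V Sd x z = S.HC (S.pc v x) (S.pr2 (S.pc (fun n ω => (S.D n).T 1 ω) z) (S.ats Sd)) := by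
  unfold NmSeq.HM
  refine nm_pc_HC_congr S _ _ _ _ fun n => ?_
  refine ent_entC_congr _ _ _ _ _ (fun ω ω' _ _ => ?_) fun ω ω' _ _ _ => ?_
  · simp only [NmSeq.ats, SfDoc.ats, List.map_cons, List.cons.injEq, SfDoc.atq, Sum.inr.injEq, Sum.inl.injEq, NmSeq.pr2, FLaw.pair, Prod.mk.injEq]
    rfl
  · simp only [NmSeq.ats, SfDoc.ats, List.map_cons, List.map_nil, List.cons.injEq, and_true, hV, Sum.inr.injEq, Sum.inl.injEq]
    rfl

/-- **`HP` is the mixed profile with the static side `y_0`** -/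
theorem nm_pc_HP_HM (ds : NmDs) (x z : ℝ) : S.HP ds x z = S.HM (NmAt.Pc ds) [NmAt.y0] x z := by
  rw [nm_pc_HM_eq S (NmAt.Pc ds) (fun n ω => ((S.D n).raw π ds ω).P) (fun _ _ _ => rfl)]
  unfold NmSeq.HP
  refine nm_pc_HC_congr S _ _ _ _ fun n => ?_
  refine ent_entC_congr _ _ _ _ _ (fun ω ω' _ _ => ?_) fun ω ω' _ _ _ => Iff.rfl
  simp only [NmSeq.ats, SfDoc.ats, List.map_cons, List.map_nil, List.cons.injEq, and_true, SfDoc.atq, Sum.inr.injEq, NmSeq.pr2, FLaw.pair, Prod.mk.injEq]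
  exact and_comm

/-- the mixed profile of a cell of a polynomially bounded real, any static side -/
theorem nm_pc_HM_gen (V : ℝ → NmAt) (v : ∀ n, (S.D n).Row 1 → ℝ) (hv : S.PBd v)
    (hV : ∀ x n ω, (S.D n).atq π (V x) ω = Sum.inr (Sum.inl (nmCell (S.D n).s x (v n ω)))) (Sd : List NmAt) :
    (∀ z x x' : ℝ, x ≤ x' → 0 ≤ S.HM V Sd x' z - S.HM V Sd x z ∧ S.HM V Sd x' z - S.HM V Sd x z ≤ x' - x) ∧
    (∀ z z' x x' : ℝ, z ≤ z' → x ≤ x' → S.HM V Sd x' z' - S.HM V Sd x z' ≤ S.HM V Sd x' z - S.HM V Sd x z) ∧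
    ∀ x z z' : ℝ, |S.HM V Sd x z - S.HM V Sd x z'| ≤ |z - z'| := by
  have e := nm_pc_HM_eq S V v hV Sd
  have hY : ∀ z z' : ℝ, z ≤ z' → ∀ n ω ω', S.pr2 (S.pc (fun n ω => (S.D n).T 1 ω) z') (S.ats Sd) n ω = S.pr2 (S.pc (fun n ω => (S.D n).T 1 ω) z') (S.ats Sd) n ω' →
      S.pr2 (S.pc (fun n ω => (S.D n).T 1 ω) z) (S.ats Sd) n ω = S.pr2 (S.pc (fun n ω => (S.D n).T 1 ω) z) (S.ats Sd) n ω' := by
    intro z z' h n ω ω' hh
    obtain ⟨h0, h1⟩ := nm_me_s S n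
    simp only [NmSeq.pr2, FLaw.pair, Prod.mk.injEq] at hh ⊢
    exact ⟨nm_cell_nest h0 h1 h hh.1, hh.2⟩
  have hl : ∀ x z z' : ℝ, z ≤ z' → |S.HM V Sd x z - S.HM V Sd x z'| ≤ |z - z'| := by
    intro x z z' h
    obtain ⟨a1, a2⟩ := nm_pc_lip S (S.pc v x) (fun n ω => (S.D n).T 1 ω) (S.ats Sd) (fun z => nm_pc_ubdd S hv x _) h
    rw [e, e, abs_of_nonneg a1, abs_sub_comm, abs_of_nonneg (sub_nonneg.2 h)]
    exact a2
  refine ⟨fun z x x' h => ?_, fun z z' x x' hz hx => ?_, fun x z z' => ?_⟩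
  · rw [e, e]
    exact nm_pc_incr S hv _ h
  · rw [e, e, e, e]
    exact (nm_pc_anti S hv _ _ (hY z z' hz)).2 x x' hx
  · rcases le_total z z' with h | h
    · exact hl x z z' h
    · rw [abs_sub_comm, abs_sub_comm z z']
      exact hl x z' z h

/-- **the mixed profiles `HM`** of the derivative and of the curvature of a display -/
theorem nm_pc_HM (ds : NmDs) (V : ℝ → NmAt) (hV : V = NmAt.Pc ds ∨ V = NmAt.bc ds) (Sd : List NmAt) :
    (∀ z x x' : ℝ, x ≤ x' → 0 ≤ S.HM V Sd x' z - S.HM V Sd x z ∧ S.HM V Sd x' z - S.HM V Sd x z ≤ x' - x) ∧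
    (∀ z z' x x' : ℝ, z ≤ z' → x ≤ x' → S.HM V Sd x' z' - S.HM V Sd x z' ≤ S.HM V Sd x' z - S.HM V Sd x z) ∧
    ∀ x z z' : ℝ, |S.HM V Sd x z - S.HM V Sd x z'| ≤ |z - z'| := by
  rcases hV with rfl | rfl
  · exact nm_pc_HM_gen S _ _ (nm_pc_bd_P S ds) (fun _ _ _ => rfl) Sd
  · exact nm_pc_HM_gen S _ _ (nm_pc_bd_be S ds) (fun _ _ _ => rfl) Sd

end exits

end

end Claimed.Agent.R256
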