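import Claimed.Agent.R256.Nm.Pro.Prof
import Claimed.Agent.R256.Nm.Mem.Abs

/-!
# Row 256 (S0496), unit NM, block PRO, file 17: THE EXCESS (`nm_E_nonneg`, `nm_E_zero`)      (architect helper156; prefix `nm_pro_`)

The exits X2 `nm_canon`, X3 `nm_equal` live in `Nm/Contract.lean` (ABOVE this file): they enter as HYPOTHESES `hcan`, `heq` (cost improvement `τ = 1`, rigidity `κ 1`); the chief instantiates them.
`S.E q a v = S.H q a v - S.D0 - q.Z π a v`,  `S.H q a v = S.Hn (S.nm q a v) = ulim ent / lgs`,  `S.D0 = ulim log ek / lgs`.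

LEAF L-256-NM-PRO-EX1 (`nm_pro_D0_tendsto`, `nm_pro_E_core`, `nm_pro_E_le`).
* `nm_pro_D0_tendsto`: `ulim_tendsto`, `UBdd.of_le (-C0) C0`: `(nm_pro_core S n).hek : s^C0 ≤ ek ∧ ek ≤ s^(-C0)`, `Real.log_le_log`, `Real.log_rpow`, `lgs = - log s` (see the end of `nm_pro_ent_le`, `Nm/Pro/Alph.lean`).
* `nm_pro_E_core`: `nm_pro_A_uf S hX 1 one_pos _ hcan acc hacc` (`Nm/Pro/Mono.lean`).   FINITE: `N = ek * s^(-Z + acc)`, `ε = s^(acc/2) ≤ 1`: `log N * (1 - ε) ≤ ent (nm)`: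
  `1 ≤ N`: `nm_me_ent_lb` (`Nm/Mem/Abs.lean`) with the trivial condition `C = fun _ => ()` and `ent_entC_const`;  `N < 1`: `log N ≤ 0 ≤ ent`.   `log N = log ek + (Z - acc) lgs`.
  LIMIT: `s^(acc/2) → 0` (`S.nm_pro_s_lim`, `Filter.Tendsto.rpow_const`), `nm_pro_Hn_tendsto (nm_pro_pa_nm q a v)`, `nm_pro_D0_tendsto`: `D0 + Z - acc ≤ H` (`le_of_tendsto_of_tendsto'`, `uf_neBot`); `acc → 0`: `le_of_forall_pos_le_add`.
* `nm_pro_E_le`: `ent ≤ log card ≤ log ek + (Z + acc) lgs` (`ent_le_log_card`; the list is nonempty: `ent_exists_supp`).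

LEAF L-256-NM-PRO-EX2 (`nm_pro_w_scale`, `nm_pro_Z_lip`, `nm_pro_E_nonneg`, `nm_pro_E_zero`).   Real arithmetic + glue.
* `nm_pro_w_scale`: unfold `NmQ.Fam`, three families; in the hybrid case ALWAYS `q.ds.b a = β (a - 1)` with `β = c2 > 0`, resp. `β = 1` (`nmDsStr π 1`: `b0 = π.b2 1 = 0`), pure linear: `w = b1 a + v`, `b1 a = (q - J)(a - 1)`, `q - J = c1 > 0` by `hπ.fam`; `clip` has `π.Cr = q - J > 0`.
  `w ((1-ε) a) ((1-ε) v) ≤ (1-ε) w a v - ε min (β, q - J)`.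
* `nm_pro_Z_lip`: `Z = (p+d) a + (3+η) v + (1-η)(w - g)`; `w` is a `min` of affine functions (`abs_min_sub_min_le_max`).
* `nm_pro_E_nonneg`: `hyb = false`: `Dom` holds, `nm_pro_E_core`.   `hyb = true`: for `0 < ε ≤ 1` the point `((1-ε) a, (1-ε) v)` is in `Dom`; `nm_pro_H_lip`, `nm_pro_Z_lip`: `- C ε (|a| + |v|) ≤ E a v`; `ε → 0`.
* `nm_pro_E_zero`: `≤` = `nm_pro_E_le`; `≥` = `nm_pro_E_nonneg`: at an equality point `0 ≤ a ≤ De`, `0 ≤ v` (`v = 0` or `v = π.u a = J (1 - a)`, `hπ.J0`; `glob = false` forces `De = 1`, `glob = true` forces `ds = nmDsStr π De`, `0 < De ≤ 1`), hybrid only in the first alternative `(a, v) = (1, 0)`, `De = 1`: `w = 0`.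
-/

set_option autoImplicit false

namespace Claimed.Agent.R256

open Claimed.Agent.R255
open Claimed.Agent.R255.FLaw (pair)
open Filter Topology
open Classical

noncomputable section

variable {π : SfPar} {C0 : ℝ} {κ : ℝ → ℝ} (S : NmSeq π C0 κ)

/-- `log (s^x) = - x log (1/s)` -/
theorem nm_pro_D0_tendsto_log (D : SfDoc) (h0 : 0 < D.s) (x : ℝ) : Real.log (D.s ^ x) = -x * D.lgs := by
  unfold SfDoc.lgs lg
  rw [Real.log_rpow h0, one_div, Real.log_inv]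
  ring

theorem nm_pro_D0_tendsto : Tendsto (fun n => Real.log (S.D n).ek / (S.D n).lgs) uf (𝓝 S.D0) := by
  refine ulim_tendsto _ (UBdd.of_le (-C0) C0 (Eventually.of_forall fun n => ?_))
  obtain ⟨h0, h1⟩ := nm_pro_hs S n
  have hl := nm_pro_lgs_pos S n
  obtain ⟨e1, e2⟩ := (nm_pro_core S n).hek
  have p1 : 0 < (S.D n).s ^ C0 := Real.rpow_pos_of_pos h0 _
  have l1 := Real.log_le_log p1 e1
  have l2 := Real.log_le_log (p1.trans_le e1) e2
  rw [nm_pro_D0_tendsto_log _ h0] at l1 l2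
  rw [le_div_iff₀ hl, div_le_iff₀ hl]
  constructor <;> linarith

/-- (canon) at one point gives `E ≥ 0` there -/
theorem nm_pro_E_core (hX : S.HasX) (q : NmQ) (a v : ℝ)
    (hcan : NmA π C0 1 (κ 1) fun acc D => ∀ LL : Finset NmNm, (LL.card : ℝ) ≤ D.ek * D.s ^ (-(q.Z π a v) + acc) →
      (D.P 1).pr (fun ω => D.nm π q a v ω ∈ LL) ≤ D.s ^ (acc / 2)) : 0 ≤ S.E q a v := by
  have := uf_neBot
  have key : ∀ acc : ℝ, 0 < acc → S.D0 + q.Z π a v ≤ S.H q a v + acc := by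
    intro acc hacc
    have hev := nm_pro_A_uf S hX 1 one_pos _ hcan acc hacc
    have tH : Tendsto (fun n => ((S.D n).P 1).ent (S.nm q a v n) / (S.D n).lgs) uf (𝓝 (S.H q a v)) :=
      nm_pro_Hn_tendsto (nm_pro_pa_nm (S := S) q a v)
    have tε : Tendsto (fun n => (S.D n).s ^ (acc / 2)) uf (𝓝 0) := by
      have h := S.nm_pro_s_lim.rpow_const (p := acc / 2) (Or.inr (by positivity))
      rwa [Real.zero_rpow (by positivity)] at h
    have tL : Tendsto (fun n => (Real.log (S.D n).ek / (S.D n).lgs + (q.Z π a v - acc)) * (1 - (S.D n).s ^ (acc / 2))) uf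
        (𝓝 ((S.D0 + (q.Z π a v - acc)) * (1 - 0))) :=
      ((nm_pro_D0_tendsto S).add_const _).mul (tε.const_sub 1)
    have hle := le_of_tendsto_of_tendsto tL tH ?_
    · linarith
    filter_upwards [hev] with n hn
    obtain ⟨h0, h1⟩ := nm_pro_hs S n
    have hl := nm_pro_lgs_pos S n
    have hek : 0 < (S.D n).ek := (Real.rpow_pos_of_pos h0 _).trans_le (nm_pro_core S n).hek.1
    obtain ⟨N, hN⟩ : ∃ N, N = (S.D n).ek * (S.D n).s ^ (-(q.Z π a v) + acc) := ⟨_, rfl⟩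
    have hN0 : 0 < N := by rw [hN]; exact mul_pos hek (Real.rpow_pos_of_pos h0 _)
    have hε1 : (S.D n).s ^ (acc / 2) ≤ 1 := Real.rpow_le_one h0.le h1.le (by positivity)
    have hlogN : Real.log N = Real.log (S.D n).ek + (q.Z π a v - acc) * (S.D n).lgs := by
      rw [hN, Real.log_mul hek.ne' (Real.rpow_pos_of_pos h0 _).ne', nm_pro_D0_tendsto_log _ h0]
      ring
    have fin : Real.log N * (1 - (S.D n).s ^ (acc / 2)) ≤ ((S.D n).P 1).ent (S.nm q a v n) := by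
      rcases le_or_gt 1 N with h | h
      · have h2 := nm_me_ent_lb ((S.D n).P 1) (S.nm q a v n) (fun _ => ()) (N := N) (ε := (S.D n).s ^ (acc / 2)) h
          (fun c hc => hn (c ()) (by rw [← hN]; exact hc ()))
        rwa [ent_entC_const] at h2
      · have h2 : Real.log N ≤ 0 := Real.log_nonpos hN0.le h.le
        have h3 : Real.log N * (1 - (S.D n).s ^ (acc / 2)) ≤ 0 := mul_nonpos_of_nonpos_of_nonneg h2 (by linarith)
        exact h3.trans (ent_nonneg _ _)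
    rw [le_div_iff₀ hl]
    refine le_trans (le_of_eq ?_) fin
    rw [hlogN]
    field_simp
  have h2 : S.D0 + q.Z π a v ≤ S.H q a v := le_of_forall_pos_le_add key
  unfold NmSeq.E
  linarith

/-- the count at one point gives `E ≤ 0` there -/
theorem nm_pro_E_le (hX : S.HasX) (q : NmQ) (a v : ℝ)
    (heq : NmA π C0 1 (κ 1) fun acc D => ∃ T : Finset NmNm, (T.card : ℝ) ≤ D.ek * D.s ^ (-(q.Z π a v) - acc) ∧
      ∀ ω, (D.P 1).p ω ≠ 0 → D.nm π q a v ω ∈ T) : S.E q a v ≤ 0 := by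
  have key : ∀ acc : ℝ, 0 < acc → S.H q a v ≤ S.D0 + q.Z π a v + acc := by
    intro acc hacc
    have hev := nm_pro_A_uf S hX 1 one_pos _ heq acc hacc
    have tH : Tendsto (fun n => ((S.D n).P 1).ent (S.nm q a v n) / (S.D n).lgs) uf (𝓝 (S.H q a v)) :=
      nm_pro_Hn_tendsto (nm_pro_pa_nm (S := S) q a v)
    have h := nm_pro_lim_le (q.Z π a v + acc) 0 tH (nm_pro_D0_tendsto S) ?_
    · linarith
    filter_upwards [hev] with n hn
    obtain ⟨T, hT, hm⟩ := hn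
    obtain ⟨h0, h1⟩ := nm_pro_hs S n
    have hek : 0 < (S.D n).ek := (Real.rpow_pos_of_pos h0 _).trans_le (nm_pro_core S n).hek.1
    obtain ⟨ω₁, hω₁⟩ := ent_exists_supp ((S.D n).P 1)
    have hc : (0 : ℝ) < T.card := by
      have : 0 < T.card := Finset.card_pos.2 ⟨_, hm ω₁ hω₁⟩
      exact_mod_cast this
    have h2 := (ent_le_log_card ((S.D n).P 1) (S.nm q a v n) T hm).trans (Real.log_le_log hc hT)
    rw [Real.log_mul hek.ne' (Real.rpow_pos_of_pos h0 _).ne', nm_pro_D0_tendsto_log _ h0] at h2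
    linarith
  have h2 : S.H q a v ≤ S.D0 + q.Z π a v := le_of_forall_pos_le_add key
  unfold NmSeq.E
  linarith

/-- scaling of an affine function vanishing at `(1, 0)` -/
theorem nm_pro_ex_aff (β k a v ε : ℝ) :
    β * ((1 - ε) * a - 1) + k * ((1 - ε) * v) = (1 - ε) * (β * (a - 1) + k * v) - ε * β := by
  ring

/-- the abstract scaling: quadratic template -/
theorem nm_pro_ex_sc_quad (β a v ε : ℝ) (hβ : 0 < β) (h0 : 0 < ε) (h1 : ε ≤ 1) (hw : β * (a - 1) + 2 * v ≤ 0) :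
    β * ((1 - ε) * a - 1) + 2 * ((1 - ε) * v) < 0 := by
  rw [nm_pro_ex_aff]
  have := mul_nonneg (sub_nonneg.2 h1) (neg_nonneg.2 hw)
  have := mul_pos h0 hβ
  nlinarith

/-- the abstract scaling: clipped template -/
theorem nm_pro_ex_sc_clip (β γ a v ε : ℝ) (hβ : 0 < β) (hγ : 0 < γ) (h0 : 0 < ε) (h1 : ε ≤ 1)
    (hw : min (β * (a - 1) + v) (γ * (a - 1)) + v ≤ 0) :
    min (β * ((1 - ε) * a - 1) + (1 - ε) * v) (γ * ((1 - ε) * a - 1)) + (1 - ε) * v < 0 := by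
  have e1 := nm_pro_ex_aff β 2 a v ε
  have e2 := nm_pro_ex_aff γ 1 a v ε
  have p1 := mul_pos h0 hβ
  have p2 := mul_pos h0 hγ
  rcases le_total (β * (a - 1) + v) (γ * (a - 1)) with h | h
  · rw [min_eq_left h] at hw
    have := mul_nonneg (sub_nonneg.2 h1) (neg_nonneg.2 hw)
    have := min_le_left (β * ((1 - ε) * a - 1) + (1 - ε) * v) (γ * ((1 - ε) * a - 1))
    nlinarith
  · rw [min_eq_right h] at hw
    have := mul_nonneg (sub_nonneg.2 h1) (neg_nonneg.2 hw)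
    have := min_le_right (β * ((1 - ε) * a - 1) + (1 - ε) * v) (γ * ((1 - ε) * a - 1))
    nlinarith

/-- the abstract scaling: pure linear template -/
theorem nm_pro_ex_sc_plin (γ a v ε : ℝ) (hγ : 0 < γ) (h0 : 0 < ε) (h1 : ε ≤ 1) (hw : γ * (a - 1) + v ≤ 0) :
    γ * ((1 - ε) * a - 1) + (1 - ε) * v < 0 := by
  have e2 := nm_pro_ex_aff γ 1 a v ε
  have := mul_nonneg (sub_nonneg.2 h1) (neg_nonneg.2 hw)
  have := mul_pos h0 hγ
  nlinarith

/-- hybrid families: the closed condition `w ≤ 0` becomes strict after the contraction `(a, v) ↦ (1-ε)(a, v)` -/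
theorem nm_pro_w_scale (hπ : π.Valid) (q : NmQ) (hq : q.Fam π) (hh : π.hyb = true) (a v ε : ℝ) (h0 : 0 < ε) (h1 : ε ≤ 1)
    (hw : q.w π a v ≤ 0) : q.w π ((1 - ε) * a) ((1 - ε) * v) < 0 := by
  obtain ⟨ds, tp, g⟩ := q
  obtain ⟨-, hcl, hf⟩ := hq
  -- the display is `β (a - 1)`, `β > 0`, unless the template is pure linear
  have hb : tp ≠ NmTp.plin → ∃ β : ℝ, 0 < β ∧ ∀ x, ds.b x = β * (x - 1) := by
    intro hne
    rcases hf with ⟨f1, f2, f3, f4⟩ | ⟨f1, f2, f3, f4⟩ | ⟨f1, f2, f4, De, d1, d2, d3, f3⟩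
    · have f3' : ds = nmDsEq π := f3
      refine ⟨π.c2, f1, fun x => ?_⟩
      rw [f3']
      simp [NmDs.b, nmDsEq]
    · exact absurd f4 hne
    · have f3' : ds = nmDsStr π De := f3
      refine ⟨1, one_pos, fun x => ?_⟩
      rw [f3', d3 hh]
      simp [NmDs.b, nmDsStr, SfPar.b2]
  cases tp with
  | quad =>
    obtain ⟨β, hβ, hbx⟩ := hb (by intro h; cases h)
    have hw' : ds.b a + 2 * v ≤ 0 := hw
    show ds.b ((1 - ε) * a) + 2 * ((1 - ε) * v) < 0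
    rw [hbx] at hw' ⊢
    exact nm_pro_ex_sc_quad β a v ε hβ h0 h1 hw'
  | clip =>
    obtain ⟨β, hβ, hbx⟩ := hb (by intro h; cases h)
    have hγ : 0 < π.q - π.J := hcl rfl
    have hw' : min (ds.b a + v) (π.b1 a) + v ≤ 0 := hw
    show min (ds.b ((1 - ε) * a) + (1 - ε) * v) (π.b1 ((1 - ε) * a)) + (1 - ε) * v < 0
    rw [hbx] at hw' ⊢
    exact nm_pro_ex_sc_clip β (π.q - π.J) a v ε hβ hγ h0 h1 hw'
  | plin =>
    have hγ : 0 < π.q - π.J := by
      rcases hf with ⟨f1, f2, f3, f4⟩ | ⟨f1, f2, f3, f4⟩ | ⟨f1, f2, f4, De, d1, d2, d3, f3⟩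
      · exact absurd rfl f4
      · rcases hπ.fam with ⟨g1, -⟩ | ⟨g1, -⟩ | ⟨-, -, g3⟩
        · rw [f1] at g1; exact absurd g1 (lt_irrefl _)
        · rw [f1] at g1; norm_num at g1
        · rw [g3]; linarith
      · exact absurd rfl f4
    have hw' : π.b1 a + v ≤ 0 := hw
    show π.b1 ((1 - ε) * a) + (1 - ε) * v < 0
    exact nm_pro_ex_sc_plin (π.q - π.J) a v ε hγ h0 h1 hw'

/-- `w(a,v)` is Lipschitz -/
theorem nm_pro_ex_w_lip (π : SfPar) (q : NmQ) (a a' v v' : ℝ) :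
    |q.w π a v - q.w π a' v'| ≤ (|q.ds.bs| + |π.q - π.J| + 2) * (|a - a'| + |v - v'|) := by
  have hb : q.ds.b a - q.ds.b a' = q.ds.bs * (a - a') := by
    unfold NmDs.b
    ring
  have hb1 : π.b1 a - π.b1 a' = (π.q - π.J) * (a - a') := by
    unfold SfPar.b1
    ring
  have k1 : |q.ds.b a - q.ds.b a'| = |q.ds.bs| * |a - a'| := by rw [hb, abs_mul]
  have k2 : |π.b1 a - π.b1 a'| = |π.q - π.J| * |a - a'| := by rw [hb1, abs_mul]
  have n1 := abs_nonneg q.ds.bs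
  have n2 := abs_nonneg (π.q - π.J)
  have n3 := abs_nonneg (a - a')
  have n4 := abs_nonneg (v - v')
  have p1 := mul_nonneg n1 n3
  have p2 := mul_nonneg n2 n3
  have p3 := mul_nonneg n1 n4
  have p4 := mul_nonneg n2 n4
  have e0 : (|q.ds.bs| + |π.q - π.J| + 2) * (|a - a'| + |v - v'|) = |q.ds.bs| * |a - a'| + |π.q - π.J| * |a - a'| + 2 * |a - a'|
      + |q.ds.bs| * |v - v'| + |π.q - π.J| * |v - v'| + 2 * |v - v'| := by ring
  rw [e0]
  obtain ⟨ds, tp, g⟩ := q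
  cases tp with
  | quad =>
    show |(ds.b a + 2 * v) - (ds.b a' + 2 * v')| ≤ _
    have e : (ds.b a + 2 * v) - (ds.b a' + 2 * v') = (ds.b a - ds.b a') + 2 * (v - v') := by ring
    have t1 := abs_add_le (ds.b a - ds.b a') (2 * (v - v'))
    have t2 : |2 * (v - v')| = 2 * |v - v'| := by rw [abs_mul, abs_two]
    rw [e]
    linarith
  | clip =>
    show |(min (ds.b a + v) (π.b1 a) + v) - (min (ds.b a' + v') (π.b1 a') + v')| ≤ _
    have e : (min (ds.b a + v) (π.b1 a) + v) - (min (ds.b a' + v') (π.b1 a') + v')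
        = (min (ds.b a + v) (π.b1 a) - min (ds.b a' + v') (π.b1 a')) + (v - v') := by ring
    have t1 := abs_add_le (min (ds.b a + v) (π.b1 a) - min (ds.b a' + v') (π.b1 a')) (v - v')
    have t2 := abs_min_sub_min_le_max (ds.b a + v) (π.b1 a) (ds.b a' + v') (π.b1 a')
    have t3 : |ds.b a + v - (ds.b a' + v')| ≤ |ds.b a - ds.b a'| + |v - v'| := by
      have : ds.b a + v - (ds.b a' + v') = (ds.b a - ds.b a') + (v - v') := by ring
      rw [this]
      exact abs_add_le _ _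
    have t4 : max |ds.b a + v - (ds.b a' + v')| |π.b1 a - π.b1 a'| ≤ |ds.b a - ds.b a'| + |v - v'| + |π.b1 a - π.b1 a'| :=
      max_le (by linarith [abs_nonneg (π.b1 a - π.b1 a')]) (by linarith [abs_nonneg (ds.b a - ds.b a')])
    rw [e]
    linarith
  | plin =>
    show |(π.b1 a + v) - (π.b1 a' + v')| ≤ _
    have e : (π.b1 a + v) - (π.b1 a' + v') = (π.b1 a - π.b1 a') + (v - v') := by ring
    have t1 := abs_add_le (π.b1 a - π.b1 a') (v - v')
    rw [e]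
    linarith

theorem nm_pro_Z_lip (π : SfPar) (q : NmQ) : ∃ C : ℝ, ∀ a a' v v' : ℝ, |q.Z π a v - q.Z π a' v'| ≤ C * (|a - a'| + |v - v'|) := by
  refine ⟨|π.p + π.d| + |3 + π.η| + |1 - π.η| * (|q.ds.bs| + |π.q - π.J| + 2), fun a a' v v' => ?_⟩
  have e : q.Z π a v - q.Z π a' v' = (π.p + π.d) * (a - a') + (3 + π.η) * (v - v') + (1 - π.η) * (q.w π a v - q.w π a' v') := by
    unfold NmQ.Z NmQ.W
    ring
  have t1 := abs_add_le ((π.p + π.d) * (a - a') + (3 + π.η) * (v - v')) ((1 - π.η) * (q.w π a v - q.w π a' v'))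
  have t2 := abs_add_le ((π.p + π.d) * (a - a')) ((3 + π.η) * (v - v'))
  rw [abs_mul] at t1
  rw [abs_mul, abs_mul] at t2
  have t3 := mul_le_mul_of_nonneg_left (nm_pro_ex_w_lip π q a a' v v') (abs_nonneg (1 - π.η))
  have n3 := abs_nonneg (a - a')
  have n4 := abs_nonneg (v - v')
  have p1 := mul_nonneg (abs_nonneg (π.p + π.d)) n4
  have p2 := mul_nonneg (abs_nonneg (3 + π.η)) n3
  rw [e]
  nlinarith

/-- **Y1** (canon); hybrid: also on the closure `w ≤ 0` -/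
theorem nm_pro_E_nonneg (hπ : π.Valid) (hX : S.HasX) (q : NmQ) (hq : q.Fam π)
    (hcan : ∀ a v : ℝ, q.Dom π a v → NmA π C0 1 (κ 1) fun acc D => ∀ LL : Finset NmNm, (LL.card : ℝ) ≤ D.ek * D.s ^ (-(q.Z π a v) + acc) →
      (D.P 1).pr (fun ω => D.nm π q a v ω ∈ LL) ≤ D.s ^ (acc / 2))
    (a v : ℝ) (ha : 0 ≤ a ∧ a ≤ q.ds.De) (hv : 0 ≤ v) (hh : π.hyb = true → q.g = 0 ∧ q.w π a v ≤ 0) : 0 ≤ S.E q a v := by
  cases hy : π.hyb with
  | false =>
    exact nm_pro_E_core S hX q a v (hcan a v ⟨ha.1, ha.2, hv, fun h => by rw [hy] at h; cases h⟩)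
  | true =>
    obtain ⟨hg, hw⟩ := hh hy
    obtain ⟨C1, h1⟩ := nm_pro_H_lip S hπ q hq
    obtain ⟨C2, h2⟩ := nm_pro_Z_lip π q
    -- the contracted points
    have key : ∀ ε : ℝ, 0 < ε → ε ≤ 1 → -((|C1| + |C2|) * (|a| + |v|)) * ε ≤ S.E q a v := by
      intro ε e0 e1
      have hD : q.Dom π ((1 - ε) * a) ((1 - ε) * v) := by
        refine ⟨mul_nonneg (by linarith) ha.1, ?_, mul_nonneg (by linarith) hv, fun _ => ⟨hg, nm_pro_w_scale hπ q hq hy a v ε e0 e1 hw⟩⟩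
        have : (1 - ε) * a ≤ 1 * a := mul_le_mul_of_nonneg_right (by linarith) ha.1
        linarith [ha.2]
      have hE := nm_pro_E_core S hX q _ _ (hcan _ _ hD)
      have d1 : |a - (1 - ε) * a| = ε * |a| := by
        rw [show a - (1 - ε) * a = ε * a by ring, abs_mul, abs_of_pos e0]
      have d2 : |v - (1 - ε) * v| = ε * |v| := by
        rw [show v - (1 - ε) * v = ε * v by ring, abs_mul, abs_of_pos e0]
      have b1 := h1 a ((1 - ε) * a) v ((1 - ε) * v)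
      have b2 := h2 a ((1 - ε) * a) v ((1 - ε) * v)
      rw [d1, d2] at b1 b2
      have n : 0 ≤ ε * |a| + ε * |v| := by positivity
      have c1 : C1 * (ε * |a| + ε * |v|) ≤ |C1| * (ε * |a| + ε * |v|) := mul_le_mul_of_nonneg_right (le_abs_self _) n
      have c2 : C2 * (ε * |a| + ε * |v|) ≤ |C2| * (ε * |a| + ε * |v|) := mul_le_mul_of_nonneg_right (le_abs_self _) n
      have b1' := (abs_le.1 b1).1
      have b2' := (abs_le.1 b2).2
      unfold NmSeq.E at hE ⊢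
      nlinarith
    set M : ℝ := (|C1| + |C2|) * (|a| + |v|) with hM
    have hM0 : 0 ≤ M := by positivity
    by_contra hneg
    have hneg := not_le.1 hneg
    -- choose `ε` small
    have hpos : 0 < -S.E q a v := by linarith
    set ε : ℝ := min 1 (-S.E q a v / (2 * (M + 1))) with hε
    have e0 : 0 < ε := lt_min one_pos (by positivity)
    have e1 : ε ≤ 1 := min_le_left _ _
    have e2 : ε ≤ -S.E q a v / (2 * (M + 1)) := min_le_right _ _
    have k := key ε e0 e1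
    have e3 : ε * (2 * (M + 1)) ≤ -S.E q a v := by
      rwa [le_div_iff₀ (by positivity)] at e2
    nlinarith

/-- **Y1** equality points -/
theorem nm_pro_E_zero (hπ : π.Valid) (hX : S.HasX) (q : NmQ) (hq : q.Fam π)
    (hcan : ∀ a v : ℝ, q.Dom π a v → NmA π C0 1 (κ 1) fun acc D => ∀ LL : Finset NmNm, (LL.card : ℝ) ≤ D.ek * D.s ^ (-(q.Z π a v) + acc) →
      (D.P 1).pr (fun ω => D.nm π q a v ω ∈ LL) ≤ D.s ^ (acc / 2))
    (a v : ℝ) (he : q.EqPt π a v)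
    (heq : NmA π C0 1 (κ 1) fun acc D => ∃ T : Finset NmNm, (T.card : ℝ) ≤ D.ek * D.s ^ (-(q.Z π a v) - acc) ∧
      ∀ ω, (D.P 1).p ω ≠ 0 → D.nm π q a v ω ∈ T) : S.E q a v = 0 := by
  refine le_antisymm (nm_pro_E_le S hX q a v heq) ?_
  obtain ⟨hg, hl, hc⟩ := he
  have hJ := hπ.J0
  -- the endpoint of the display
  have hDe : 0 < q.ds.De ∧ q.ds.De ≤ 1 ∧ (q.ds.glob = false → q.ds.De = 1) := by
    obtain ⟨-, -, hf⟩ := hq
    rcases hf with ⟨f1, f2, f3, f4⟩ | ⟨f1, f2, f3, f4⟩ | ⟨f1, f2, f4, De, d1, d2, d3, f3⟩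
    · rw [f3]; simp [nmDsEq]
    · rw [f3]; simp [nmDsLin]
    · rw [f3]; simp only [nmDsStr]; exact ⟨d1, d2, fun h => by cases h⟩
  rcases hc with ⟨c1, c2, c3⟩ | ⟨c1, c2, c3, c4, c5, c6⟩ | ⟨c1, c2, c3, c4⟩
  · subst c2 c3
    refine nm_pro_E_nonneg S hπ hX q hq hcan 1 0 ⟨zero_le_one, c1.ge⟩ le_rfl fun hy => ⟨hg, ?_⟩
    -- `w = l + v`, `l = b1 1 = 0`
    have hb1 : π.b1 1 = 0 := by simp [SfPar.b1]
    have hwl : q.w π 1 0 = q.l π 1 0 := by
      obtain ⟨ds, tp, g⟩ := q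
      cases tp <;> simp [NmQ.w, NmQ.l]
    rw [hwl, hl, hb1]
  · refine nm_pro_E_nonneg S hπ hX q hq hcan a v ⟨c4.le, by rw [hDe.2.2 c2]; exact c5⟩ ?_ fun hy => by rw [c1] at hy; cases hy
    rw [c6, SfPar.u]
    exact mul_nonneg hJ (by linarith)
  · refine nm_pro_E_nonneg S hπ hX q hq hcan a v ⟨by rw [c3]; exact hDe.1.le, c3.le⟩ ?_ fun hy => by rw [c1] at hy; cases hy
    rw [c4, SfPar.u, c3]
    exact mul_nonneg hJ (by linarith [hDe.2.1])

end

end Claimed.Agent.R256
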