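import Claimed.Agent.R256.Nm.Pro.Amb

/-!
# Row 256 (S0496), unit NM, block PRO, file 6: RATIONAL QUERIES      (architect helper156; prefix `nm_pro_`)

* `NmAt.IsQ` : all real parameters (enlargement, depths) are rational.   The displays are those of the family with endpoints in `Ds`.
* `nm_pro_approx`, `nm_pro_approx_list` : admissible rational queries are dense in the admissible ones (`NmAt.Close`).
* `nm_pro_countable`, `nm_pro_enum` : for countable `Ds` the pairs of lists of admissible rational queries can be enumerated.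
-/

set_option autoImplicit false

namespace Claimed.Agent.R256

open Claimed.Agent.R255
open Claimed.Agent.R255.FLaw (pair)
open Filter Topology
open Classical

noncomputable section

/-- rational parameters -/
def NmAt.IsQ : NmAt → Prop
  | NmAt.nm q a v => (∃ r : ℚ, (r : ℝ) = q.g) ∧ (∃ r : ℚ, (r : ℝ) = a) ∧ (∃ r : ℚ, (r : ℝ) = v)
  | NmAt.Xc x => ∃ r : ℚ, (r : ℝ) = x
  | NmAt.tc x => ∃ r : ℚ, (r : ℝ) = x
  | NmAt.Pc _ x => ∃ r : ℚ, (r : ℝ) = x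
  | NmAt.bc _ x => ∃ r : ℚ, (r : ℝ) = x
  | NmAt.y0 => True

theorem nm_pro_gk_of_ok {π : SfPar} (hπ : π.Valid) {Ds : Set ℝ} {x : NmAt} (hx : x.Ok π Ds) : x.Gk π := by
  cases x with
  | nm q a v => exact nm_fam_ok π hπ q hx.1
  | _ => trivial

/-- admissible rational queries are dense -/
theorem nm_pro_approx (π : SfPar) (Ds : Set ℝ) (x : NmAt) (hx : x.Ok π Ds) (ν : ℝ) (hν : 0 < ν) :
    ∃ x' : NmAt, x'.Ok π Ds ∧ x'.IsQ ∧ x.Close ν x' ∧ (x ≠ NmAt.y0 → x' ≠ NmAt.y0) := by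
  cases x with
  | nm q a v =>
    obtain ⟨⟨hg, hcl, hf⟩, hD, ha0, ha1, hv⟩ := hx
    obtain ⟨g', g1, -, g3⟩ := dc_hx_rat q.g ν hν
    obtain ⟨a', a1, a2, a3⟩ := dc_hx_rat_seg a q.ds.De ν ha0 ha1 hν
    obtain ⟨v', v1, -, v3⟩ := dc_hx_rat v ν hν
    refine ⟨NmAt.nm ⟨q.ds, q.tp, g'⟩ a' v', ⟨⟨by show (0 : ℝ) ≤ g'; linarith, hcl, hf⟩, hD, a1, a2, by linarith⟩,
      ⟨⟨g', rfl⟩, ⟨a', rfl⟩, ⟨v', rfl⟩⟩, ⟨rfl, rfl, g3, a3, v3⟩, fun _ h => by cases h⟩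
  | Xc x =>
    obtain ⟨r, -, -, h3⟩ := dc_hx_rat x ν hν
    exact ⟨NmAt.Xc r, trivial, ⟨r, rfl⟩, h3, fun _ h => by cases h⟩
  | tc x =>
    obtain ⟨r, -, -, h3⟩ := dc_hx_rat x ν hν
    exact ⟨NmAt.tc r, trivial, ⟨r, rfl⟩, h3, fun _ h => by cases h⟩
  | Pc ds x =>
    obtain ⟨r, -, -, h3⟩ := dc_hx_rat x ν hν
    exact ⟨NmAt.Pc ds r, hx, ⟨r, rfl⟩, ⟨rfl, h3⟩, fun _ h => by cases h⟩
  | bc ds x =>
    obtain ⟨r, -, -, h3⟩ := dc_hx_rat x ν hν
    exact ⟨NmAt.bc ds r, hx, ⟨r, rfl⟩, ⟨rfl, h3⟩, fun _ h => by cases h⟩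
  | y0 => exact ⟨NmAt.y0, trivial, trivial, trivial, fun h => h⟩

theorem nm_pro_approx_list (π : SfPar) (Ds : Set ℝ) (ν : ℝ) (hν : 0 < ν) (L : List NmAt) (h : ∀ x ∈ L, x.Ok π Ds) :
    ∃ L' : List NmAt, (∀ x ∈ L', x.Ok π Ds ∧ x.IsQ) ∧ List.Forall₂ (NmAt.Close ν) L L' ∧
      ((∀ x ∈ L, x ≠ NmAt.y0) → ∀ x ∈ L', x ≠ NmAt.y0) := by
  induction L with
  | nil => exact ⟨[], by simp, List.Forall₂.nil, by simp⟩
  | cons x L ih =>
    obtain ⟨L', h1, h2, h3⟩ := ih fun z hz => h z (List.mem_cons_of_mem _ hz)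
    obtain ⟨x', a1, a2, a3, a4⟩ := nm_pro_approx π Ds x (h x List.mem_cons_self) ν hν
    refine ⟨x' :: L', fun z hz => ?_, List.Forall₂.cons a3 h2, fun hy z hz => ?_⟩
    · rcases List.mem_cons.1 hz with rfl | hz
      · exact ⟨a1, a2⟩
      · exact h1 z hz
    · rcases List.mem_cons.1 hz with rfl | hz
      · exact a4 (hy x List.mem_cons_self)
      · exact h3 (fun y hy' => hy y (List.mem_cons_of_mem _ hy')) z hz

/-! ## countability -/

/-- the displays of the family with endpoints in `Ds` -/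
def nmDsSet (π : SfPar) (Ds : Set ℝ) : Set NmDs := {nmDsEq π, nmDsLin} ∪ (nmDsStr π '' Ds)

theorem nm_pro_dsSet_countable (π : SfPar) {Ds : Set ℝ} (hDs : Ds.Countable) : (nmDsSet π Ds).Countable :=
  ((Set.countable_singleton _).insert _).union (hDs.image _)

theorem nm_pro_ds_mem {π : SfPar} {Ds : Set ℝ} {ds : NmDs} (hD : ds.De ∈ Ds) (h : (∃ q : NmQ, q.Fam π ∧ q.ds = ds) ∨ ds = nmDsEq π) :
    ds ∈ nmDsSet π Ds := by
  rcases h with ⟨q, ⟨-, -, hf⟩, rfl⟩ | rfl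
  · rcases hf with ⟨-, -, h3, -⟩ | ⟨-, -, h3, -⟩ | ⟨-, -, -, De, -, -, -, h3⟩
    · rw [h3]; exact Or.inl (Or.inl rfl)
    · rw [h3]; exact Or.inl (Or.inr rfl)
    · rw [h3] at hD ⊢
      exact Or.inr ⟨De, hD, rfl⟩
  · exact Or.inl (Or.inl rfl)

/-- the templates -/
def nmTpOf : Fin 3 → NmTp := ![NmTp.quad, NmTp.clip, NmTp.plin]

theorem nm_pro_tp_surj (tp : NmTp) : ∃ i, nmTpOf i = tp := by
  cases tp
  · exact ⟨0, rfl⟩
  · exact ⟨1, rfl⟩
  · exact ⟨2, rfl⟩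

theorem nm_pro_countable (π : SfPar) {Ds : Set ℝ} (hDs : Ds.Countable) : {x : NmAt | x.Ok π Ds ∧ x.IsQ}.Countable := by
  have hDS := nm_pro_dsSet_countable π hDs
  have h1 : (⋃ ds ∈ nmDsSet π Ds, ⋃ i : Fin 3, Set.range (fun r : ℚ × ℚ × ℚ => NmAt.nm ⟨ds, nmTpOf i, r.1⟩ r.2.1 r.2.2)).Countable :=
    hDS.biUnion fun ds _ => Set.countable_iUnion fun i => Set.countable_range _
  have h2 : (Set.range (fun r : ℚ => NmAt.Xc r)).Countable := Set.countable_range _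
  have h3 : (Set.range (fun r : ℚ => NmAt.tc r)).Countable := Set.countable_range _
  have h4 : (⋃ ds ∈ nmDsSet π Ds, Set.range (fun r : ℚ => NmAt.Pc ds r)).Countable := hDS.biUnion fun ds _ => Set.countable_range _
  have h5 : (⋃ ds ∈ nmDsSet π Ds, Set.range (fun r : ℚ => NmAt.bc ds r)).Countable := hDS.biUnion fun ds _ => Set.countable_range _
  have h6 : ({NmAt.y0} : Set NmAt).Countable := Set.countable_singleton _
  refine (((((h1.union h2).union h3).union h4).union h5).union h6).mono ?_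
  rintro x ⟨hx, hq⟩
  cases x with
  | nm q a v =>
    obtain ⟨⟨g, hg⟩, ⟨a', ha⟩, ⟨v', hv⟩⟩ := hq
    obtain ⟨i, hi⟩ := nm_pro_tp_surj q.tp
    refine Or.inl (Or.inl (Or.inl (Or.inl (Or.inl ?_))))
    refine Set.mem_biUnion (nm_pro_ds_mem hx.2.1 (Or.inl ⟨q, hx.1, rfl⟩)) (Set.mem_iUnion.2 ⟨i, (g, a', v'), ?_⟩)
    simp only [hi, hg, ha, hv]
  | Xc x =>
    obtain ⟨r, hr⟩ := hq
    exact Or.inl (Or.inl (Or.inl (Or.inl (Or.inr ⟨r, by simp only [hr]⟩))))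
  | tc x =>
    obtain ⟨r, hr⟩ := hq
    exact Or.inl (Or.inl (Or.inl (Or.inr ⟨r, by simp only [hr]⟩)))
  | Pc ds x =>
    obtain ⟨r, hr⟩ := hq
    exact Or.inl (Or.inl (Or.inr (Set.mem_biUnion (nm_pro_ds_mem hx.1 hx.2) ⟨r, by simp only [hr]⟩)))
  | bc ds x =>
    obtain ⟨r, hr⟩ := hq
    exact Or.inl (Or.inr (Set.mem_biUnion (nm_pro_ds_mem hx.1 hx.2) ⟨r, by simp only [hr]⟩))
  | y0 => exact Or.inr rfl

theorem nm_pro_lift_list {α : Type} (p : α → Prop) (L : List α) (h : ∀ x ∈ L, p x) : ∃ l : List {x // p x}, l.map Subtype.val = L := by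
  induction L with
  | nil => exact ⟨[], rfl⟩
  | cons x L ih =>
    obtain ⟨l, hl⟩ := ih fun z hz => h z (List.mem_cons_of_mem _ hz)
    exact ⟨⟨x, h x List.mem_cons_self⟩ :: l, by rw [List.map_cons, hl]⟩

/-- enumeration of the pairs of lists (children without the particle) in a countable set of queries -/
theorem nm_pro_enum (A : Set NmAt) (hA : A.Countable) : ∃ e : ℕ → List NmAt × List NmAt,
    (∀ j, (∀ x ∈ (e j).1, x ∈ A ∧ x ≠ NmAt.y0) ∧ ∀ x ∈ (e j).2, x ∈ A) ∧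
    ∀ L L' : List NmAt, (∀ x ∈ L, x ∈ A ∧ x ≠ NmAt.y0) → (∀ x ∈ L', x ∈ A) → ∃ j, e j = (L, L') := by
  have c1 : Countable {x // x ∈ A ∧ x ≠ NmAt.y0} := (hA.mono fun x hx => hx.1 : {x | x ∈ A ∧ x ≠ NmAt.y0}.Countable).to_subtype
  have c2 : Countable {x // x ∈ A} := hA.to_subtype
  obtain ⟨g, hg⟩ := exists_surjective_nat (List {x // x ∈ A ∧ x ≠ NmAt.y0} × List {x // x ∈ A})
  refine ⟨fun j => ((g j).1.map Subtype.val, (g j).2.map Subtype.val), fun j => ⟨fun x hx => ?_, fun x hx => ?_⟩, fun L L' h h' => ?_⟩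
  · obtain ⟨y, -, rfl⟩ := List.mem_map.1 hx
    exact y.2
  · obtain ⟨y, -, rfl⟩ := List.mem_map.1 hx
    exact y.2
  · obtain ⟨l, hl⟩ := nm_pro_lift_list _ L h
    obtain ⟨l', hl'⟩ := nm_pro_lift_list _ L' h'
    obtain ⟨j, hj⟩ := hg (l, l')
    exact ⟨j, by simp only [hj, hl, hl']⟩

theorem nm_pro_appr_eqns_cite : True := by
  have := @NmAt.IsQ.eq_1; have := @nmDsSet.eq_1; have := @nmTpOf.eq_1
  trivial

end

end Claimed.Agent.R256
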