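import Claimed.Agent.R256.Nm.Pro.Fw

/-!
# Row 256 (S0496), unit NM, block PRO, file 12: FROM RATIONAL TO REAL PARAMETERS, POWER-SMALL FORM      (architect helper156; prefix `nm_pro_`)

LEAF L-256-NM-PRO-EXT.   COPY the proof of `dc_hx_seq` (`R255/Cl/Dich/MExt/Hom.lean`, l.139-211).   Homogeneity and `d = ulim (Q.seqHC Y X)`: `dc_hx_seq` itself (drop the sharpness from `hap`), `d` is unique (`tendsto_nhds_unique`, `uf_neBot`).
Power-small part, `e > 0`: `hap (e / 32)` gives `Y', X', d'`, `|d - d'| ≤ 2 (e/32)` (steps A, C of `dc_hx_seq`).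
`dc_hx_surC` with `t = e/4 * lg`: `pr (2 (log N + e/4 lg) < |sur - sur'|) ≤ 4 exp (- e/4 lg) = 4 ε^(e/4)`;   sharpness with `τ = e/4`, `η = e/8`: `pr (e/4 + e/8 < |sur'/lg - d'|) ≤ 2 ε^(e/4)`.
Deviation: `2 (e/32 + e/4) + (e/4 + e/8) + 2 e/32 = e`.   Probability: `6 ε^(e/4) ≤ ε^(e/8)` as soon as `6 ε^(e/8) ≤ 1` (`Q.lim`; `Real.rpow_add`, continuity of `x ↦ x^(e/8)` at `0`: `Real.continuousAt_rpow_const` or `(Q.lim.rpow_const ..)`).
-/

set_option autoImplicit false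

namespace Claimed.Agent.R256

open Claimed.Agent.R255
open Claimed.Agent.R255.FLaw (pair)
open Filter Topology
open Classical

noncomputable section

/-- an observation which is approximated, with mutual ambiguity `ε^{-ν}` for every `ν > 0`, by sharply homogeneous ones is homogeneous off power-small sets, exponent `e / 8` -/
theorem nm_pro_sharp_ext (Q : CSeq) {α β : ℕ → Type} (Y : Q.Obs α) (X : Q.Obs β)
    (hap : ∀ ν : ℝ, 0 < ν → ∃ (α' β' : ℕ → Type) (Y' : Q.Obs α') (X' : Q.Obs β') (d : ℝ), Q.Homog Y' X' d ∧ nmSharp Q Y' X' d ∧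
      ∀ᶠ n in uf, ∃ N : ℝ, 0 < N ∧ Real.log N ≤ ν * lg (Q.ε n) ∧ dc_hx_Amb (Q.S n).P (Y n) (X n) (Y' n) (X' n) N) :
    ∃ d, Q.Homog Y X d ∧ ∀ e : ℝ, 0 < e → ∀ᶠ n in uf,
      (Q.S n).P.pr (fun ω => e < |(Q.S n).P.surC (Y n) (X n) ω / lg (Q.ε n) - d|) ≤ (Q.ε n) ^ (1 / 8 * e) := by
  have := uf_neBot
  obtain ⟨d, hd⟩ := dc_hx_seq Q Y X (fun ν hν => by
    obtain ⟨α', β', Y', X', d', hH, -, hN⟩ := hap ν hν
    exact ⟨α', β', Y', X', d', hH, hN⟩)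
  refine ⟨d, hd, fun e he => ?_⟩
  obtain ⟨α', β', Y', X', d', hH, hS, hN⟩ := hap (e / 32) (by positivity)
  -- step A
  have hA : ∀ᶠ n in uf, |Q.seqHC Y X n - Q.seqHC Y' X' n| ≤ 2 * (e / 32) := by
    filter_upwards [hN] with n hn
    obtain ⟨N, hN, hlog, a1, a2, a3, a4⟩ := hn
    have hl := dc_hx_lg_pos Q n
    have h1 := dc_hx_entC (Q.S n).P (Y n) (X n) (Y' n) (X' n) a1 a2 a3 a4
    unfold CSeq.seqHC
    rw [← sub_div, abs_div, abs_of_pos hl, div_le_iff₀ hl]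
    nlinarith
  -- step C
  have hC : |d - d'| ≤ 2 * (e / 32) := le_of_tendsto ((hd.1.sub hH.1).abs) hA
  have hsm : ∀ᶠ n in uf, (Q.ε n) ^ (e / 8) < 1 / 6 := by
    have h1 := Q.lim.rpow_const (p := e / 8) (Or.inr (by positivity))
    rw [Real.zero_rpow (by positivity)] at h1
    exact h1.eventually (gt_mem_nhds (by norm_num))
  filter_upwards [hN, hS (e / 4) (e / 8) (by positivity) (by positivity), hsm] with n hn hs6 h6
  obtain ⟨N, hN0, hlog, a1, a2, a3, a4⟩ := hn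
  have hl := dc_hx_lg_pos Q n
  have hε := (Q.pos n).1
  have h1 := dc_hx_surC (Q.S n).P (Y n) (X n) (Y' n) (X' n) hN0 a1 a2 a3 a4 (e / 4 * lg (Q.ε n))
  have hexp : Real.exp (-(e / 4 * lg (Q.ε n))) = (Q.ε n) ^ (e / 4) := by
    rw [Real.rpow_def_of_pos hε]
    congr 1
    unfold lg
    rw [one_div, Real.log_inv]
    ring
  rw [hexp] at h1
  have h2 := ent_pr_or_le (Q.S n).P
    (fun ω => 2 * (Real.log N + e / 4 * lg (Q.ε n)) < |(Q.S n).P.surC (Y n) (X n) ω - (Q.S n).P.surC (Y' n) (X' n) ω|)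
    (fun ω => e / 4 + e / 8 < |(Q.S n).P.surC (Y' n) (X' n) ω / lg (Q.ε n) - d'|)
  have hfin : 4 * (Q.ε n) ^ (e / 4) + 2 * (Q.ε n) ^ (e / 4) ≤ (Q.ε n) ^ (1 / 8 * e) := by
    have e1 : (Q.ε n) ^ (e / 4) = (Q.ε n) ^ (e / 8) * (Q.ε n) ^ (e / 8) := by
      rw [← Real.rpow_add hε]; congr 1; ring
    have e2 : (1 / 8 * e : ℝ) = e / 8 := by ring
    have hp : 0 < (Q.ε n) ^ (e / 8) := Real.rpow_pos_of_pos hε _
    rw [e1, e2]
    nlinarith
  refine le_trans (le_trans (ent_pr_mono _ fun ω _ hω => ?_) (h2.trans (add_le_add h1 hs6))) hfin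
  by_contra hc
  push Not at hc
  obtain ⟨c1, c2⟩ := hc
  have c3 : |(Q.S n).P.surC (Y n) (X n) ω / lg (Q.ε n) - (Q.S n).P.surC (Y' n) (X' n) ω / lg (Q.ε n)| ≤ 2 * (e / 32 + e / 4) := by
    rw [← sub_div, abs_div, abs_of_pos hl, div_le_iff₀ hl]
    nlinarith
  have e' : (Q.S n).P.surC (Y n) (X n) ω / lg (Q.ε n) - d =
      ((Q.S n).P.surC (Y n) (X n) ω / lg (Q.ε n) - (Q.S n).P.surC (Y' n) (X' n) ω / lg (Q.ε n)) +
        ((Q.S n).P.surC (Y' n) (X' n) ω / lg (Q.ε n) - d') + -(d - d') := by ring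
  rw [e'] at hω
  have := abs_add_three ((Q.S n).P.surC (Y n) (X n) ω / lg (Q.ε n) - (Q.S n).P.surC (Y' n) (X' n) ω / lg (Q.ε n))
    ((Q.S n).P.surC (Y' n) (X' n) ω / lg (Q.ε n) - d') (-(d - d'))
  rw [abs_neg] at this
  linarith

end

end Claimed.Agent.R256
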