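import Claimed.Agent.R256.Nm.Pro.Kit

/-!
# Row 256 (S0496), unit NM, block PRO, file 14: PROFILES AT CLOSE LISTS OF QUERIES      (architect helper156; prefix `nm_pro_`)

LEAF L-256-NM-PRO-NEAR.   `nm_pro_amb` (`Nm/Pro/Amb.lean`) gives `dc_hx_Amb` with `N = exp (C (ν lgs + 1))`, `C = nmCstL π L + nmCstL π M`; `dc_hx_entC`: `|entC - entC'| ≤ 2 log N = 2 C ν lgs + 2 C`.
Limits: `nm_pro_HC_tendsto (nm_pro_pa_ats L hL0)`, `nm_pro_lim_le` (`Nm/Pro/Kit.lean`), twice.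
-/

set_option autoImplicit false

namespace Claimed.Agent.R256

open Claimed.Agent.R255
open Claimed.Agent.R255.FLaw (pair)
open Filter Topology
open Classical

noncomputable section

theorem nm_pro_HC_near {π : SfPar} {C0 : ℝ} {κ : ℝ → ℝ} (S : NmSeq π C0 κ) (ν : ℝ) (hν : 0 ≤ ν) (L L₁ M M₁ : List NmAt)
    (hL : ∀ x ∈ L, x.Gk π) (hM : ∀ x ∈ M, x.Gk π) (hL0 : ∀ x ∈ L, x ≠ NmAt.y0) (hL1 : ∀ x ∈ L₁, x ≠ NmAt.y0)
    (h : List.Forall₂ (NmAt.Close ν) L L₁) (h' : List.Forall₂ (NmAt.Close ν) M M₁) :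
    |S.HC (S.ats L) (S.ats M) - S.HC (S.ats L₁) (S.ats M₁)| ≤ 2 * (nmCstL π L + nmCstL π M) * ν := by
  have hfin : ∀ n, |((S.D n).P 1).entC (S.ats L n) (S.ats M n) - ((S.D n).P 1).entC (S.ats L₁ n) (S.ats M₁ n)|
      ≤ 2 * (nmCstL π L + nmCstL π M) * ν * (S.D n).lgs + 2 * (nmCstL π L + nmCstL π M) := by
    intro n
    obtain ⟨a1, a2, a3, a4⟩ := nm_pro_amb (S.D n) (S.fine n 1 one_pos).ok.core.hs π ν hν L L₁ M M₁ hL hM h h'
    have key := dc_hx_entC _ _ _ _ _ a1 a2 a3 a4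
    rw [Real.log_exp] at key
    refine key.trans (le_of_eq ?_)
    ring
  have t1 := nm_pro_HC_tendsto (nm_pro_pa_ats (S := S) L hL0) (S.ats M)
  have t2 := nm_pro_HC_tendsto (nm_pro_pa_ats (S := S) L₁ hL1) (S.ats M₁)
  rw [abs_le]
  constructor
  · have := nm_pro_lim_le (2 * (nmCstL π L + nmCstL π M) * ν) (2 * (nmCstL π L + nmCstL π M)) t2 t1
      (Eventually.of_forall fun n => by
        have := (abs_le.1 (hfin n)).1
        linarith)
    linarith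
  · have := nm_pro_lim_le (2 * (nmCstL π L + nmCstL π M) * ν) (2 * (nmCstL π L + nmCstL π M)) t1 t2
      (Eventually.of_forall fun n => by
        have := (abs_le.1 (hfin n)).2
        linarith)
    linarith

end

end Claimed.Agent.R256
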