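import Claimed.Agent.R256.Nm.Pro.Cq

/-!
# Row 256 (S0496), unit NM, block PRO, file 13: THE INITIAL SEQUENCE; THE WRAPPER OF A CONDITIONING      (architect helper156; prefix `nm_pro_`)

LEAF L-256-NM-PRO-SEQ0.
* `nm_pro_seq0`: `t n = 1 / (n + 2)`; apply `NmEntry` with `F n = (Finset.range (n + 3)).image (fun k => k / (n + 2))` (points of `[0,1]`), `t = s0 = t n`; `choose`.   `Fine`: `pos`, `ok` (all `τ`), `sm : D.s ≤ t` (from `D.s < s0`),
  `mesh`: for `a ∈ [0,1]` the point `⌊a (n+2)⌋₊ / (n+2) ∈ F n ⊆ D.G` is within `1/(n+2)`.   `lim`: `tendsto_one_div_add_atTop_nhds_zero_nat`-like, then `.mono_left uf_le_atTop`.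
* `nm_pro_wrap`: COPY the second half of the proof of `nm_pro_engine` (`Nm/Pro/Cq.lean`): `t0 n = 2 * max (S.t n) (x n)`, `good n = (0 < pr ∧ s^(x n) ≤ pr ∧ t0 n ≤ 1)`, `G n = if good n then G0 n else fun _ => True`, `t' n = if good n then t0 n else S.t n`;
  `CndOk` = `Or.inr ⟨t ≤ t0/2, t0 ≤ 1, 0 < pr, s^(t0/2) ≤ pr⟩` (`nm_pro_anti`: `s^(t0/2) ≤ s^(x n)`), resp. `Or.inl ⟨rfl, le_rfl⟩`.
-/

set_option autoImplicit false

namespace Claimed.Agent.R256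

open Claimed.Agent.R255
open Claimed.Agent.R255.FLaw (pair)
open Filter Topology
open Classical

noncomputable section

/-- the entry gives a sequence of fine configurations -/
theorem nm_pro_seq0 (π : SfPar) (C0 : ℝ) (κ : ℝ → ℝ) (h : NmEntry π C0 κ) : ∃ S : NmSeq π C0 κ, S.HasX := by
  have ht : ∀ n : ℕ, (0 : ℝ) < 1 / ((n : ℝ) + 2) := fun n => by positivity
  have hF : ∀ n : ℕ, ∀ i ∈ (Finset.range (n + 3)).image (fun k : ℕ => (k : ℝ) / ((n : ℝ) + 2)), 0 ≤ i ∧ i ≤ 1 := by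
    intro n i hi
    obtain ⟨k, hk, rfl⟩ := Finset.mem_image.1 hi
    have hk' : k ≤ n + 2 := by have := Finset.mem_range.1 hk; omega
    have hk'' : (k : ℝ) ≤ (n : ℝ) + 2 := by exact_mod_cast hk'
    exact ⟨by positivity, (div_le_one (by positivity)).2 hk''⟩
  choose D hD using fun n : ℕ => h _ (hF n) (1 / ((n : ℝ) + 2)) (1 / ((n : ℝ) + 2)) (ht n) (ht n)
  refine ⟨⟨D, fun n => 1 / ((n : ℝ) + 2), fun n τ hτ => ⟨ht n, (hD n).2.2.1 τ hτ, (hD n).1.le, fun a a0 a1 => ?_⟩, ?_⟩, fun n => (hD n).2.2.2⟩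
  · have hN : (0 : ℝ) < (n : ℝ) + 2 := by positivity
    have hfl : (⌊a * ((n : ℝ) + 2)⌋₊ : ℝ) ≤ a * ((n : ℝ) + 2) := Nat.floor_le (by positivity)
    have hfl2 : a * ((n : ℝ) + 2) < (⌊a * ((n : ℝ) + 2)⌋₊ : ℝ) + 1 := Nat.lt_floor_add_one _
    refine ⟨(⌊a * ((n : ℝ) + 2)⌋₊ : ℝ) / ((n : ℝ) + 2), (hD n).2.1 (Finset.mem_image.2 ⟨⌊a * ((n : ℝ) + 2)⌋₊, ?_, rfl⟩), ?_⟩
    · rw [Finset.mem_range]
      have h1 : (⌊a * ((n : ℝ) + 2)⌋₊ : ℝ) ≤ ((n + 2 : ℕ) : ℝ) := by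
        push_cast
        nlinarith
      have h2 : ⌊a * ((n : ℝ) + 2)⌋₊ ≤ n + 2 := by exact_mod_cast h1
      omega
    · have e : (⌊a * ((n : ℝ) + 2)⌋₊ : ℝ) / ((n : ℝ) + 2) - a = ((⌊a * ((n : ℝ) + 2)⌋₊ : ℝ) - a * ((n : ℝ) + 2)) / ((n : ℝ) + 2) := by
        field_simp
      rw [e, abs_div, abs_of_pos hN]
      refine div_le_div_of_nonneg_right ?_ hN.le
      rw [abs_le]
      constructor <;> linarith
  · have h1 : Tendsto (fun n : ℕ => 1 / ((n : ℝ) + 2)) atTop (𝓝 0) := by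
      have h2 : Tendsto (fun n : ℕ => (n : ℝ) + 2) atTop atTop := tendsto_atTop_add_const_right _ _ tendsto_natCast_atTop_atTop
      refine h2.inv_tendsto_atTop.congr fun n => ?_
      rw [Pi.inv_apply, one_div]
    exact h1.mono_left uf_le_atTop

/-- events of mass `≥ s^(x n)`, `x n → 0`, may be used for a conditioning -/
theorem nm_pro_wrap {π : SfPar} {C0 : ℝ} {κ : ℝ → ℝ} (S : NmSeq π C0 κ) (G0 : ∀ n, (S.D n).Row 1 → Prop) (x : ℕ → ℝ) (hx : Tendsto x uf (𝓝 0))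
    (hG : ∀ᶠ n in uf, 0 < ((S.D n).P 1).pr (G0 n) ∧ (S.D n).s ^ (x n) ≤ ((S.D n).P 1).pr (G0 n)) :
    ∃ (G : ∀ n, (S.D n).Row 1 → Prop) (t' : ℕ → ℝ), (∀ n, (S.D n).CndOk (G n) (S.t n) (t' n)) ∧ Tendsto t' uf (𝓝 0) ∧ ∀ᶠ n in uf, G n = G0 n := by
  let t0 : ℕ → ℝ := fun n => 2 * max (S.t n) (x n)
  let good : ℕ → Prop := fun n => 0 < ((S.D n).P 1).pr (G0 n) ∧ (S.D n).s ^ (x n) ≤ ((S.D n).P 1).pr (G0 n) ∧ t0 n ≤ 1
  have ht0 : Tendsto t0 uf (𝓝 0) := by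
    have h2 := (S.lim.max hx).const_mul 2
    rw [max_self, mul_zero] at h2
    exact h2
  have hgood : ∀ᶠ n in uf, good n := by
    filter_upwards [hG, ht0.eventually (gt_mem_nhds one_pos)] with n hn h1
    exact ⟨hn.1, hn.2, h1.le⟩
  refine ⟨fun n => if good n then G0 n else fun _ => True, fun n => if good n then t0 n else S.t n, fun n => ?_, ?_, ?_⟩
  · by_cases hg : good n
    · simp only [if_pos hg]
      have e : t0 n / 2 = max (S.t n) (x n) := by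
        show 2 * max _ _ / 2 = _
        rw [mul_div_cancel_left₀ _ (two_ne_zero)]
      refine Or.inr ⟨?_, hg.2.2, hg.1, ?_⟩
      · rw [e]
        exact le_max_left _ _
      · rw [e]
        exact (nm_pro_anti (nm_pro_hs S n) (le_max_right _ _)).trans hg.2.1
    · simp only [if_neg hg]
      exact Or.inl ⟨rfl, le_rfl⟩
  · refine ht0.congr' ?_
    filter_upwards [hgood] with n hn
    rw [if_pos hn]
  · filter_upwards [hgood] with n hn
    rw [if_pos hn]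

end

end Claimed.Agent.R256
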