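import Claimed.Agent.R256.Nm.Pro.Shp
import Claimed.Agent.R256.Nm.Pro.Ext
import Claimed.Agent.R256.Nm.Pro.Seq0
import Claimed.Agent.R256.Nm.Pro.Near
import Claimed.Agent.R256.Nm.Pro.Appr
import Claimed.Agent.R256.Nm.FlatP

/-!
# Row 256 (S0496), unit NM, block PRO, file 18: FLAT SEQUENCES (Y0)      (architect helper156; prefix `nm_pro_`)

`nm_pro_seq`, `nm_pro_reflat` = the exits `nm_seq`, `nm_reflat` with the conjunct `FlatP (1/8)` (power-small flatness, asked by helper279) and, for `nm_reflat`, the hypothesis `Ds.Countable`.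
* `nm_pro_flat_of_sharp` : sharp homogeneity at the RATIONAL admissible lists gives `Flat` and `FlatP (1/8)`  (`nm_pro_sharp_ext`, `nm_pro_approx_list`, `nm_pro_amb`).
* `nm_pro_finish` : after a first conditioning `E` (the engine), ONE more conditioning on typical events `F` sharpens a countable list; `(P|E)|F = P|(E ∧ F)`, so the result is again `S.cnd _` (rigidity `κ / 2`).
-/

set_option autoImplicit false

namespace Claimed.Agent.R256

open Claimed.Agent.R255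
open Claimed.Agent.R255.FLaw (pair)
open Filter Topology
open Classical

noncomputable section

variable {π : SfPar} {C0 : ℝ} {κ : ℝ → ℝ}

/-- homogeneity and sharpness for a family of laws on the final rows of `S` -/
def NmSeq.HS (S : NmSeq π C0 κ) (P : ∀ n, FLaw ((S.D n).Row 1)) {α β : ℕ → Type} (Y : S.Obs α) (X : S.Obs β) (d : ℝ) : Prop :=
  Tendsto (fun n => (P n).entC (Y n) (X n) / (S.D n).lgs) uf (𝓝 d) ∧
  (∀ η : ℝ, 0 < η → Tendsto (fun n => (P n).pr (fun ω => η < |(P n).surC (Y n) (X n) ω / (S.D n).lgs - d|)) uf (𝓝 0)) ∧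
  ∀ τ η : ℝ, 0 < τ → 0 < η → ∀ᶠ n in uf, (P n).pr (fun ω => τ + η < |(P n).surC (Y n) (X n) ω / (S.D n).lgs - d|) ≤ 2 * (S.D n).s ^ τ

theorem nm_pro_HS_congr (S : NmSeq π C0 κ) (P P' : ∀ n, FLaw ((S.D n).Row 1)) (hP : ∀ᶠ n in uf, P' n = P n) {α β : ℕ → Type}
    (Y : S.Obs α) (X : S.Obs β) (d : ℝ) (H : S.HS P Y X d) : S.HS P' Y X d := by
  refine ⟨H.1.congr' ?_, fun η hη => (H.2.1 η hη).congr' ?_, fun τ η hτ hη => ?_⟩
  · filter_upwards [hP] with n hn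
    rw [hn]
  · filter_upwards [hP] with n hn
    rw [hn]
  · filter_upwards [hP, H.2.2 τ η hτ hη] with n hn h
    rw [hn]
    exact h

/-- the family form for a conditioned sequence -/
theorem nm_pro_HS_cnd (S : NmSeq π C0 κ) (hX : S.HasX) (G : ∀ n, (S.D n).Row 1 → Prop) (t' : ℕ → ℝ) (h : ∀ n, (S.D n).CndOk (G n) (S.t n) (t' n))
    (hl : Tendsto t' uf (𝓝 0)) {α β : ℕ → Type} (Y : S.Obs α) (X : S.Obs β) (d : ℝ)
    (H : S.HS (fun n => ((S.D n).P 1).cnd (G n)) Y X d) :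
    (S.cnd G t' h hX hl).cq.Homog Y X d ∧ nmSharp (S.cnd G t' h hX hl).cq Y X d := by
  have e : ∀ n, ((S.cnd G t' h hX hl).cq.S n).P = ((S.D n).P 1).cnd (G n) := fun n => nm_pro_cndT_P (S.D n) (G n)
  refine ⟨⟨?_, fun η hη => ?_⟩, fun τ η hτ hη => ?_⟩
  · refine H.1.congr fun n => ?_
    show _ = ((S.cnd G t' h hX hl).cq.S n).P.entC (Y n) (X n) / _
    rw [e n]
    rfl
  · refine (H.2.1 η hη).congr fun n => ?_
    show _ = ((S.cnd G t' h hX hl).cq.S n).P.pr (fun ω => η < |((S.cnd G t' h hX hl).cq.S n).P.surC (Y n) (X n) ω / _ - d|)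
    rw [e n]
    rfl
  · filter_upwards [H.2.2 τ η hτ hη] with n hn
    show ((S.cnd G t' h hX hl).cq.S n).P.pr (fun ω => τ + η < |((S.cnd G t' h hX hl).cq.S n).P.surC (Y n) (X n) ω / _ - d|) ≤ _
    rw [e n]
    exact hn

/-- **the second conditioning**: typical events inside countably many prescribed typical sequences; the countable list becomes sharply homogeneous with the same exponents -/
theorem nm_pro_finish (S : NmSeq π C0 κ) (hX : S.HasX) (E : ∀ n, (S.D n).Row 1 → Prop) (t' : ℕ → ℝ)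
    (h : ∀ n, (S.D n).CndOk (E n) (S.t n) (t' n)) (hl : Tendsto t' uf (𝓝 0))
    (α β : ℕ → ℕ → Type) (Y : ∀ j, S.Obs (α j)) (X : ∀ j, S.Obs (β j)) (d : ℕ → ℝ)
    (hH : ∀ j, (S.cnd E t' h hX hl).cq.Homog (Y j) (X j) (d j))
    (Gd : ℕ → ∀ n, (S.D n).Row 1 → Prop) (hGd : ∀ i, (S.cnd E t' h hX hl).cq.Typ (Gd i)) :
    ∃ (G : ∀ n, (S.D n).Row 1 → Prop) (t'' : ℕ → ℝ) (h'' : ∀ n, (S.D n).CndOk (G n) (S.t n) (t'' n)) (hl'' : Tendsto t'' uf (𝓝 0)),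
      (∀ j, (S.cnd G t'' h'' hX hl'').cq.Homog (Y j) (X j) (d j) ∧ nmSharp (S.cnd G t'' h'' hX hl'').cq (Y j) (X j) (d j)) ∧
      ∀ i, ∀ᶠ n in uf, ∀ ω, (((S.cnd G t'' h'' hX hl'').D n).P 1).p ω ≠ 0 → Gd i n ω := by
  obtain ⟨F, hF, hsub, hHS⟩ : ∃ F : ∀ n, (S.D n).Row 1 → Prop, (S.cnd E t' h hX hl).cq.Typ F ∧
      (∀ i, ∀ᶠ n in uf, ∀ ω, F n ω → Gd i n ω) ∧
      ∀ j, ((S.cnd E t' h hX hl).cq.condOn F).Homog (Y j) (X j) (d j) ∧ nmSharp ((S.cnd E t' h hX hl).cq.condOn F) (Y j) (X j) (d j) :=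
    nm_pro_sharpen (S.cnd E t' h hX hl).cq α β Y X d hH Gd hGd
  have e1 : ∀ n, ((S.cnd E t' h hX hl).cq.S n).P = ((S.D n).P 1).cnd (E n) := fun n => nm_pro_cndT_P (S.D n) (E n)
  have hE : ∀ n, 0 < ((S.D n).P 1).pr (E n) ∧ (S.D n).s ^ (t' n / 2) ≤ ((S.D n).P 1).pr (E n) := by
    intro n
    have hs := nm_pro_hs S n
    rcases h n with ⟨h1, h2⟩ | ⟨-, -, h3, h4⟩
    · rw [h1, ent_pr_true]
      have ht : 0 < S.t n := (S.fine n 1 one_pos).pos
      exact ⟨one_pos, Real.rpow_le_one hs.1.le hs.2.le (by linarith)⟩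
    · exact ⟨h3, h4⟩
  have hhalf : ∀ᶠ n in uf, 1 / 2 < ((S.D n).P 1).pr (fun ω => E n ω ∧ F n ω) / ((S.D n).P 1).pr (E n) := by
    have h1 : ∀ᶠ n in uf, 1 / 2 < ((S.cnd E t' h hX hl).cq.S n).P.pr (F n) := hF.eventually (lt_mem_nhds (by norm_num))
    filter_upwards [h1] with n hn
    have hn' : 1 / 2 < (((S.D n).P 1).cnd (E n)).pr (F n) :=
      lt_of_lt_of_eq hn (congrArg (fun P : FLaw ((S.D n).Row 1) => P.pr (F n)) (e1 n))
    rwa [ent_cnd_pr _ _ (hE n).1] at hn'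
  have hx : Tendsto (fun n => t' n / 2 + Real.log 2 / (S.D n).lgs) uf (𝓝 0) := by
    simpa using (hl.div_const 2).add (nm_pro_div_lgs S (Real.log 2))
  have hG : ∀ᶠ n in uf, 0 < ((S.D n).P 1).pr (fun ω => E n ω ∧ F n ω) ∧
      (S.D n).s ^ (t' n / 2 + Real.log 2 / (S.D n).lgs) ≤ ((S.D n).P 1).pr (fun ω => E n ω ∧ F n ω) := by
    filter_upwards [hhalf] with n hn
    have hs := nm_pro_hs S n
    have hlg := nm_pro_lgs_pos S n
    rw [lt_div_iff₀ (hE n).1] at hn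
    refine ⟨lt_trans (by have := (hE n).1; positivity) hn, ?_⟩
    have e2 : (S.D n).s ^ (Real.log 2 / (S.D n).lgs) = 1 / 2 := by
      have := nm_pro_rpow_exp hs (-(Real.log 2 / (S.D n).lgs))
      rw [neg_neg] at this
      rw [this]
      have e3 : -(Real.log 2 / (S.D n).lgs) * lg (S.D n).s = - Real.log 2 := by
        show -(Real.log 2 / (S.D n).lgs) * (S.D n).lgs = _
        field_simp
      rw [e3, Real.exp_neg, Real.exp_log (by norm_num), one_div]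
    rw [Real.rpow_add hs.1, e2]
    have := (hE n).2
    linarith
  obtain ⟨G, t'', h'', hl'', hGG⟩ := nm_pro_wrap S (fun n ω => E n ω ∧ F n ω) _ hx hG
  have hlaw : ∀ᶠ n in uf, ((S.D n).P 1).cnd (G n) = (((S.cnd E t' h hX hl).cq.condOn F).S n).P := by
    filter_upwards [hGG, hG] with n hn hp
    rw [hn, ← ent_cnd_cnd _ _ _ hp.1, ← e1 n]
    rfl
  refine ⟨G, t'', h'', hl'', fun j => ?_, fun i => ?_⟩
  · refine nm_pro_HS_cnd S hX G t'' h'' hl'' (Y j) (X j) (d j) ?_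
    refine nm_pro_HS_congr S (fun n => (((S.cnd E t' h hX hl).cq.condOn F).S n).P) _ hlaw _ _ _ ?_
    exact ⟨(hHS j).1.1, (hHS j).1.2, (hHS j).2⟩
  · filter_upwards [hGG, hG, hsub i] with n hn hp hs ω hω
    have e3 : ((S.cnd G t'' h'' hX hl'').D n).P 1 = ((S.D n).P 1).cnd (G n) := nm_pro_cndT_P (S.D n) (G n)
    rw [e3, hn] at hω
    exact hs ω ((ent_cnd_supp _ _ hp.1).1 hω).1.2

/-- **from the rational lists to all lists** -/
theorem nm_pro_flat_of_sharp (hπ : π.Valid) (S : NmSeq π C0 κ) (Ds : Set ℝ)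
    (H : ∀ L L' : List NmAt, (∀ x ∈ L, (x.Ok π Ds ∧ x.IsQ) ∧ x ≠ NmAt.y0) → (∀ x ∈ L', x.Ok π Ds ∧ x.IsQ) →
      ∃ d, S.cq.Homog (S.ats L) (S.ats L') d ∧ nmSharp S.cq (S.ats L) (S.ats L') d) :
    S.Flat Ds ∧ S.FlatP (1 / 8) Ds := by
  have key : ∀ L L' : List NmAt, (∀ x ∈ L, x ≠ NmAt.y0 ∧ x.Ok π Ds) → (∀ x ∈ L', x.Ok π Ds) →
      ∃ d, S.cq.Homog (S.ats L) (S.ats L') d ∧ ∀ e : ℝ, 0 < e → ∀ᶠ n in uf,
        (S.cq.S n).P.pr (fun ω => e < |(S.cq.S n).P.surC (S.ats L n) (S.ats L' n) ω / lg (S.cq.ε n) - d|) ≤ (S.cq.ε n) ^ (1 / 8 * e) := by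
    intro L L' hL hL'
    have gL : ∀ x ∈ L, x.Gk π := fun x hx => nm_pro_gk_of_ok hπ (hL x hx).2
    have gL' : ∀ x ∈ L', x.Gk π := fun x hx => nm_pro_gk_of_ok hπ (hL' x hx)
    have hCt : 0 ≤ nmCstL π L + nmCstL π L' := add_nonneg (nm_pro_cstL_nonneg gL) (nm_pro_cstL_nonneg gL')
    refine nm_pro_sharp_ext S.cq (S.ats L) (S.ats L') fun ν hν => ?_
    obtain ⟨Ct, hCtd⟩ : ∃ Ct : ℝ, Ct = nmCstL π L + nmCstL π L' := ⟨_, rfl⟩
    rw [← hCtd] at hCt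
    have hν' : 0 < ν / (2 * (Ct + 1)) := by positivity
    obtain ⟨L₁, a1, a2, a3⟩ := nm_pro_approx_list π Ds _ hν' L (fun x hx => (hL x hx).2)
    obtain ⟨L₁', b1, b2, -⟩ := nm_pro_approx_list π Ds _ hν' L' hL'
    obtain ⟨d, hd1, hd2⟩ := H L₁ L₁' (fun x hx => ⟨a1 x hx, a3 (fun y hy => (hL y hy).1) x hx⟩) b1
    refine ⟨_, _, S.ats L₁, S.ats L₁', d, hd1, hd2, ?_⟩
    filter_upwards [(nm_pro_lgs_atTop S).eventually_ge_atTop (2 * Ct / ν)] with n hn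
    refine ⟨Real.exp ((nmCstL π L + nmCstL π L') * (ν / (2 * (Ct + 1)) * (S.D n).lgs + 1)), Real.exp_pos _, ?_,
      nm_pro_amb (S.D n) (nm_pro_hs S n) π _ hν'.le L L₁ L' L₁' gL gL' a2 b2⟩
    rw [Real.log_exp, ← hCtd]
    show Ct * (ν / (2 * (Ct + 1)) * (S.D n).lgs + 1) ≤ ν * (S.D n).lgs
    have hlg := nm_pro_lgs_pos S n
    have h1 : Ct * (ν / (2 * (Ct + 1))) ≤ ν / 2 := by
      rw [mul_div_assoc', div_le_div_iff₀ (by positivity) (by norm_num)]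
      nlinarith
    have h2 : Ct ≤ ν / 2 * (S.D n).lgs := by
      rw [div_le_iff₀ hν] at hn
      linarith
    have h3 : Ct * (ν / (2 * (Ct + 1))) * (S.D n).lgs ≤ ν / 2 * (S.D n).lgs := mul_le_mul_of_nonneg_right h1 hlg.le
    nlinarith
  refine ⟨fun L L' hL hL' => ?_, fun L L' hL hL' => ?_⟩
  · obtain ⟨d, hd, -⟩ := key L L' hL hL'
    exact (nm_pro_hom_of_homog S _ _ d hd).1
  · obtain ⟨d, hd, hp⟩ := key L L' hL hL'
    intro e he
    rw [(nm_pro_hom_of_homog S _ _ d hd).2]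
    exact hp e he

/-- constants are homogeneous -/
theorem nm_pro_homog_triv (S : NmSeq π C0 κ) :
    S.cq.Homog (α := fun _ => Unit) (β := fun _ => Unit) (fun _ _ => ()) (fun _ _ => ()) 0 := by
  refine ⟨?_, fun η hη => ?_⟩
  · refine tendsto_const_nhds.congr fun n => ?_
    show (0 : ℝ) = (S.cq.S n).P.entC (fun _ => ()) (fun _ => ()) / _
    rw [ent_entC_eq_zero _ _ _ (fun _ _ _ _ _ => rfl), zero_div]
  · refine tendsto_const_nhds.congr fun n => ?_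
    refine (ent_pr_eq_zero _ fun ω _ => ?_).symm
    have h1 : (S.cq.S n).P.surC (fun _ => ()) (fun _ => ()) ω = 0 := by
      unfold FLaw.surC FLaw.fib FLaw.pair
      simp [ent_pr_true]
    rw [h1]
    simp
    exact hη.le

theorem nm_pro_atok_mono {Ds Ds' : Set ℝ} (h : Ds ⊆ Ds') {x : NmAt} (hx : x.Ok π Ds) : x.Ok π Ds' := by
  cases x with
  | nm q a v => exact ⟨hx.1, h hx.2.1, hx.2.2⟩
  | Xc x => trivial
  | tc x => trivial
  | Pc ds x => exact ⟨h hx.1, hx.2⟩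
  | bc ds x => exact ⟨h hx.1, hx.2⟩
  | y0 => trivial

/-- typical: the whole space -/
theorem nm_pro_typ_true (Q : CSeq) : Q.Typ (fun _ _ => True) := by
  refine tendsto_const_nhds.congr fun n => ?_
  rw [ent_pr_true]

/-- the empty lists are homogeneous -/
theorem nm_pro_homog_nil (S : NmSeq π C0 κ) : S.cq.Homog (S.ats []) (S.ats []) (S.HC (S.ats []) (S.ats [])) := by
  have h0 : S.cq.Homog (S.ats []) (S.ats []) 0 := by
    refine ⟨?_, fun η hη => ?_⟩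
    · refine tendsto_const_nhds.congr fun n => ?_
      show (0 : ℝ) = ((S.D n).P 1).entC (S.ats [] n) (S.ats [] n) / _
      rw [ent_entC_eq_zero ((S.D n).P 1) (S.ats [] n) (S.ats [] n) (fun _ _ _ _ _ => rfl), zero_div]
    · refine tendsto_const_nhds.congr fun n => ?_
      show (0 : ℝ) = ((S.D n).P 1).pr (fun ω => η < |((S.D n).P 1).surC (S.ats [] n) (S.ats [] n) ω / _ - 0|)
      refine (ent_pr_eq_zero _ fun ω _ => ?_).symm
      have h1 : ((S.D n).P 1).surC (S.ats [] n) (S.ats [] n) ω = 0 := by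
        unfold FLaw.surC FLaw.fib FLaw.pair
        simp [ent_pr_true, NmSeq.ats, SfDoc.ats]
      rw [h1]
      simp
      exact hη.le
  rw [(nm_pro_hom_of_homog S _ _ 0 h0).2]
  exact h0

/-- **THE MASTER STATEMENT**: a conditioned sequence, flat and power-small flat on the countable set `Ds'`, which keeps the profiles of the rational pairs of lists which were homogeneous (`Old`) -/
theorem nm_pro_master (hπ : π.Valid) (S : NmSeq π C0 κ) (hX : S.HasX) (Ds' : Set ℝ) (hc : Ds'.Countable)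
    (Old : List NmAt → List NmAt → Prop)
    (hold : ∀ L L', Old L L' → S.cq.Homog (S.ats L) (S.ats L') (S.HC (S.ats L) (S.ats L'))) :
    ∃ S' : NmSeq π C0 (fun τ => κ τ / 2), S'.HasX ∧ S'.Flat Ds' ∧ S'.FlatP (1 / 8) Ds' ∧
      ∀ L L' : List NmAt, (∀ x ∈ L, (x.Ok π Ds' ∧ x.IsQ) ∧ x ≠ NmAt.y0) → (∀ x ∈ L', x.Ok π Ds' ∧ x.IsQ) → Old L L' →
        S'.HC (S'.ats L) (S'.ats L') = S.HC (S.ats L) (S.ats L') := by
  have := uf_neBot
  obtain ⟨e, he1, he2⟩ := nm_pro_enum {x : NmAt | x.Ok π Ds' ∧ x.IsQ} (nm_pro_countable π hc)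
  obtain ⟨eo, heo⟩ : ∃ eo : ℕ → List NmAt × List NmAt, ∀ j, eo j = if Old (e j).1 (e j).2 then e j else ([], []) := ⟨_, fun _ => rfl⟩
  have hA : ∀ j, ∃ A : ℝ, S.cq.Alph (S.ats (e j).1) A := fun j => nm_pro_alph S _ fun x hx => ((he1 j).1 x hx).2
  choose A hA using hA
  have hO : ∀ j, S.cq.Homog (S.ats (eo j).1) (S.ats (eo j).2) (S.HC (S.ats (eo j).1) (S.ats (eo j).2)) := by
    intro j
    rw [heo j]
    by_cases h : Old (e j).1 (e j).2
    · rw [if_pos h]; exact hold _ _ h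
    · rw [if_neg h]; exact nm_pro_homog_nil S
  obtain ⟨E, t', h, hl, hn, ho⟩ := nm_pro_engine S hX (fun _ n => List (NmVl (S.D n).Idx)) (fun _ n => List (NmVl (S.D n).Idx))
    (fun j => S.ats (e j).1) (fun j => S.ats (e j).2) A hA (fun _ n => List (NmVl (S.D n).Idx)) (fun _ n => List (NmVl (S.D n).Idx))
    (fun j => S.ats (eo j).1) (fun j => S.ats (eo j).2) _ hO
  choose dn hdn using hn
  obtain ⟨G, t'', h'', hl'', hs, -⟩ := nm_pro_finish S hX E t' h hl _ _ _ _ dn hdn (fun _ _ _ => True) (fun _ => nm_pro_typ_true _)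
  have hfl := nm_pro_flat_of_sharp hπ (S.cnd G t'' h'' hX hl'') Ds' fun L L' hL hL' => by
    obtain ⟨j, hj⟩ := he2 L L' hL hL'
    have := hs j
    rw [hj] at this
    exact ⟨dn j, this⟩
  refine ⟨S.cnd G t'' h'' hX hl'', nm_pro_cnd_hasX S G t'' h'' hX hl'', hfl.1, hfl.2, fun L L' hL hL' hO' => ?_⟩
  obtain ⟨j, hj⟩ := he2 L L' hL hL'
  have h1 := (hs j).1
  have h2 := hdn j
  have h3 := ho j
  have e3 : eo j = (L, L') := by rw [heo j, hj, if_pos hO']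
  rw [e3] at h3
  rw [hj] at h1 h2
  have h4 : dn j = S.HC (S.ats L) (S.ats L') := tendsto_nhds_unique h2.1 h3.1
  rw [← h4]
  exact (nm_pro_hom_of_homog _ _ _ _ h1).2

/-- **Y0** existence of flat sequences, for a countable set of endpoints; also flat off power-small sets -/
theorem nm_pro_seq (π : SfPar) (hπ : π.Valid) (C0 : ℝ) (κ : ℝ → ℝ) (h : NmEntry π C0 κ) (Ds : Set ℝ) (hDs : Ds.Countable) :
    ∃ S : NmSeq π C0 (fun τ => κ τ / 2), S.HasX ∧ S.Flat Ds ∧ S.FlatP (1 / 8) Ds := by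
  obtain ⟨S0, hX0⟩ := nm_pro_seq0 π C0 κ h
  obtain ⟨S, h1, h2, h3, -⟩ := nm_pro_master hπ S0 hX0 Ds hDs (fun _ _ => False) (fun _ _ h => h.elim)
  exact ⟨S, h1, h2, h3⟩

/-- equality of the profiles at the rational lists gives equality at all lists -/
theorem nm_pro_HC_ext {κ' : ℝ → ℝ} (hπ : π.Valid) (S : NmSeq π C0 κ) (S' : NmSeq π C0 κ') (Ds : Set ℝ)
    (h4 : ∀ L L' : List NmAt, (∀ x ∈ L, (x.Ok π Ds ∧ x.IsQ) ∧ x ≠ NmAt.y0) → (∀ x ∈ L', x.Ok π Ds ∧ x.IsQ) →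
      S'.HC (S'.ats L) (S'.ats L') = S.HC (S.ats L) (S.ats L')) :
    ∀ L L' : List NmAt, (∀ x ∈ L, x ≠ NmAt.y0 ∧ x.Ok π Ds) → (∀ x ∈ L', x.Ok π Ds) → S'.HC (S'.ats L) (S'.ats L') = S.HC (S.ats L) (S.ats L') := by
  intro L L' hL hL'
  have gL : ∀ x ∈ L, x.Gk π := fun x hx => nm_pro_gk_of_ok hπ (hL x hx).2
  have gL' : ∀ x ∈ L', x.Gk π := fun x hx => nm_pro_gk_of_ok hπ (hL' x hx)
  have hCt : 0 ≤ nmCstL π L + nmCstL π L' := add_nonneg (nm_pro_cstL_nonneg gL) (nm_pro_cstL_nonneg gL')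
  have key : ∀ ν : ℝ, 0 < ν → |S'.HC (S'.ats L) (S'.ats L') - S.HC (S.ats L) (S.ats L')| ≤ 4 * (nmCstL π L + nmCstL π L') * ν := by
    intro ν hν
    obtain ⟨L₁, a1, a2, a3⟩ := nm_pro_approx_list π Ds ν hν L (fun x hx => (hL x hx).2)
    obtain ⟨L₁', b1, b2, -⟩ := nm_pro_approx_list π Ds ν hν L' hL'
    have n0 : ∀ x ∈ L, x ≠ NmAt.y0 := fun y hy => (hL y hy).1
    have c1 := nm_pro_HC_near S' ν hν.le L L₁ L' L₁' gL gL' n0 (a3 n0) a2 b2
    have c2 := nm_pro_HC_near S ν hν.le L L₁ L' L₁' gL gL' n0 (a3 n0) a2 b2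
    have c3 := h4 L₁ L₁' (fun x hx => ⟨a1 x hx, a3 n0 x hx⟩) b1
    rw [c3] at c1
    have e : S'.HC (S'.ats L) (S'.ats L') - S.HC (S.ats L) (S.ats L') =
        (S'.HC (S'.ats L) (S'.ats L') - S.HC (S.ats L₁) (S.ats L₁')) - (S.HC (S.ats L) (S.ats L') - S.HC (S.ats L₁) (S.ats L₁')) := by ring
    rw [e]
    refine (abs_sub _ _).trans ?_
    linarith
  by_contra hne
  have hpos : 0 < |S'.HC (S'.ats L) (S'.ats L') - S.HC (S.ats L) (S.ats L')| := abs_pos.2 (sub_ne_zero.2 hne)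
  have := key (|S'.HC (S'.ats L) (S'.ats L') - S.HC (S.ats L) (S.ats L')| / (8 * (nmCstL π L + nmCstL π L' + 1))) (by positivity)
  have h5 : 4 * (nmCstL π L + nmCstL π L') * (|S'.HC (S'.ats L) (S'.ats L') - S.HC (S.ats L) (S.ats L')| / (8 * (nmCstL π L + nmCstL π L' + 1))) ≤
      |S'.HC (S'.ats L) (S'.ats L') - S.HC (S.ats L) (S.ats L')| / 2 := by
    rw [mul_div_assoc', div_le_div_iff₀ (by positivity) (by norm_num)]
    nlinarith
  linarith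

/-- a flat sequence is homogeneous at the admissible lists, in the language of R255 -/
theorem nm_pro_flat_homog (S : NmSeq π C0 κ) (Ds : Set ℝ) (hF : S.Flat Ds) (L L' : List NmAt) (hL : ∀ x ∈ L, x ≠ NmAt.y0 ∧ x.Ok π Ds)
    (hL' : ∀ x ∈ L', x.Ok π Ds) : S.cq.Homog (S.ats L) (S.ats L') (S.HC (S.ats L) (S.ats L')) := by
  obtain ⟨A, hA⟩ := nm_pro_alph S L fun x hx => (hL x hx).1
  exact nm_pro_homog_of_hom S _ _ (nm_pro_ubdd _ hA) (hF L L' hL hL')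

/-- **Y0** a virtual endpoint chosen AFTER preliminary profiles -/
theorem nm_pro_reflat (hπ : π.Valid) (S : NmSeq π C0 κ) (hX : S.HasX) (Ds : Set ℝ) (hDs : Ds.Countable) (hF : S.Flat Ds) (De : ℝ) :
    ∃ S' : NmSeq π C0 (fun τ => κ τ / 2), S'.HasX ∧ S'.Flat (insert De Ds) ∧ S'.FlatP (1 / 8) (insert De Ds) ∧
      ∀ L L' : List NmAt, (∀ x ∈ L, x ≠ NmAt.y0 ∧ x.Ok π Ds) → (∀ x ∈ L', x.Ok π Ds) → S'.HC (S'.ats L) (S'.ats L') = S.HC (S.ats L) (S.ats L') := by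
  obtain ⟨S', h1, h2, h3, h4⟩ := nm_pro_master hπ S hX (insert De Ds) (hDs.insert De)
    (fun L L' => (∀ x ∈ L, x ≠ NmAt.y0 ∧ x.Ok π Ds) ∧ (∀ x ∈ L', x.Ok π Ds)) (fun L L' hO => nm_pro_flat_homog S Ds hF L L' hO.1 hO.2)
  refine ⟨S', h1, h2, h3, nm_pro_HC_ext hπ S S' Ds fun L L' hL hL' => ?_⟩
  exact h4 L L' (fun x hx => ⟨⟨nm_pro_atok_mono (Set.subset_insert _ _) (hL x hx).1.1, (hL x hx).1.2⟩, (hL x hx).2⟩)
    (fun x hx => ⟨nm_pro_atok_mono (Set.subset_insert _ _) (hL' x hx).1, (hL' x hx).2⟩)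
    ⟨fun x hx => ⟨(hL x hx).2, (hL x hx).1.1⟩, fun x hx => (hL' x hx).1⟩

theorem nm_pro_flat_eqns_cite : True := by
  have := @NmSeq.HS.eq_1
  trivial

end

end Claimed.Agent.R256
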