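import Claimed.Agent.R256.Nm.Pro.Prof
import Claimed.Agent.R256.Nm.Tra.Meas

/-!
# Row 256 (S0496), unit NM, block PRO, file 16: `nm_m_basic`      (architect helper156; prefix `nm_pro_`)

LEAF L-256-NM-PRO-MB.   `nm_pro_m_basic` = `nm_m_basic` of `Nm/Contract.lean` VERBATIM.
* `nm_pro_meas_core`: COPY `nm_meas_core` (`Nm/Tra/Meas.lean`) with the parameter in an arbitrary measurable space `A` instead of `ℝ` (`nm_meas_rat` is reusable as it is).
* `nm_pro_m_abs` (Mathlib only): `K z h = U (z.2 + h) z.1 z.2`, `K z 0 = 0` by `h0`; `hKm`: `z ↦ U (z.2 + h) z.1 z.2` is CONTINUOUS (`|U (v+h) a v - U (v'+h) a' v'| ≤ C (|a-a'| + |v-v'|) + |v - v'|` by `h3`, `h1`).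
  Second clause: compose with `v ↦ (a, v)`.   Monotone in `a`: `h2` with `x = v`, `x' = v + h` and `h0` give `U (v+h) a' v ≤ U (v+h) a v`; `limsup_le_limsup` (bounded: quotients in `[0,1]` for `h > 0`; `isBoundedUnder`/`isCoboundedUnder` as in `nm_meas_core`).
* `nm_pro_m_basic`: `nm_pro_m_abs` with `U = S.U q`, `C = q.Cr π`: `nm_pro_U_basic'`, `nm_pro_U_incr'` (`Nm/Pro/Prof.lean`); `S.m q a v` unfolds to the `limsup` (`NmSeq.m`).
-/

set_option autoImplicit false

namespace Claimed.Agent.R256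

open Claimed.Agent.R255
open Filter Topology MeasureTheory
open Classical

noncomputable section

theorem nm_pro_meas_core {A : Type} [MeasurableSpace A] (K : A → ℝ → ℝ)
    (hK1 : ∀ a h h', h ≤ h' → 0 ≤ K a h' - K a h ∧ K a h' - K a h ≤ h' - h)
    (hKm : ∀ h, Measurable fun a => K a h) :
    Measurable (fun a => limsup (fun h : ℝ => (K a h - K a 0) / h) (𝓝[>] 0)) ∧
      ∀ a, 0 ≤ limsup (fun h : ℝ => (K a h - K a 0) / h) (𝓝[>] 0) ∧ limsup (fun h : ℝ => (K a h - K a 0) / h) (𝓝[>] 0) ≤ 1 := by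
  have hq : ∀ a, ∀ᶠ h in 𝓝[>] (0:ℝ), 0 ≤ (K a h - K a 0) / h ∧ (K a h - K a 0) / h ≤ 1 := by
    intro a
    filter_upwards [self_mem_nhdsWithin] with h hpos
    have hpos' : (0:ℝ) < h := hpos
    have := hK1 a 0 h hpos'.le
    refine ⟨div_nonneg this.1 hpos'.le, ?_⟩
    rw [div_le_one hpos']
    linarith [this.2]
  have hba : ∀ a, IsBoundedUnder (· ≤ ·) (𝓝[>] (0:ℝ)) (fun h : ℝ => (K a h - K a 0) / h) :=
    fun a => ⟨1, by rw [eventually_map]; exact (hq a).mono fun h hh => hh.2⟩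
  have hbb : ∀ a, IsBoundedUnder (· ≥ ·) (𝓝[>] (0:ℝ)) (fun h : ℝ => (K a h - K a 0) / h) :=
    fun a => ⟨0, by rw [eventually_map]; exact (hq a).mono fun h hh => hh.1⟩
  refine ⟨?_, fun a => ⟨?_, ?_⟩⟩
  · have hcont : ∀ a, ContinuousOn (fun h : ℝ => (K a h - K a 0) / h) (Set.Ioi 0) := by
      intro a
      have hl : LipschitzWith 1 (K a) := by
        refine LipschitzWith.of_le_add fun x y => ?_
        rcases le_total x y with h | h
        · have := (hK1 a x y h).1
          have := dist_nonneg (x := x) (y := y)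
          linarith
        · have := (hK1 a y x h).2
          rw [Real.dist_eq, abs_of_nonneg (by linarith)]
          linarith
      refine ContinuousOn.div (hl.continuous.continuousOn.sub continuousOn_const) continuousOn_id fun h hh => ?_
      exact (ne_of_gt hh)
    have heq : (fun a => limsup (fun h : ℝ => (K a h - K a 0) / h) (𝓝[>] 0))
        = fun a => limsup (fun r : ℚ => (K a r - K a 0) / r) (comap ((↑) : ℚ → ℝ) (𝓝[>] 0)) :=
      funext fun a => nm_meas_rat (hcont a)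
    rw [heq]
    obtain ⟨s, hs⟩ := (comap ((↑) : ℚ → ℝ) (𝓝[>] 0)).exists_antitone_basis
    refine Measurable.limsup' (f := fun (r : ℚ) a => (K a r - K a 0) / r) (fun r => ?_) ⟨hs.toHasBasis, Set.to_countable _⟩ fun i => Set.to_countable _
    exact ((hKm r).sub (hKm 0)).div_const _
  · exact le_limsup_of_frequently_le ((hq a).mono fun h hh => hh.1).frequently (hba a)
  · exact limsup_le_of_le (hbb a).isCoboundedUnder_le ((hq a).mono fun h hh => hh.2)

theorem nm_pro_m_abs (U : ℝ → ℝ → ℝ → ℝ) (C : ℝ) (h0 : ∀ a v, U v a v = 0)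
    (h1 : ∀ a v x x', x ≤ x' → 0 ≤ U x' a v - U x a v ∧ U x' a v - U x a v ≤ x' - x)
    (h2 : ∀ a a' v x x', a ≤ a' → x ≤ x' → U x' a' v - U x a' v ≤ U x' a v - U x a v)
    (h3 : ∀ a a' v v' x, |U x a v - U x a' v'| ≤ C * (|a - a'| + |v - v'|)) :
    Measurable (fun z : ℝ × ℝ => limsup (fun h : ℝ => U (z.2 + h) z.1 z.2 / h) (𝓝[>] 0)) ∧
      (∀ a, Measurable (fun v : ℝ => limsup (fun h : ℝ => U (v + h) a v / h) (𝓝[>] 0))) ∧
      (∀ a v, 0 ≤ limsup (fun h : ℝ => U (v + h) a v / h) (𝓝[>] 0) ∧ limsup (fun h : ℝ => U (v + h) a v / h) (𝓝[>] 0) ≤ 1) ∧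
      ∀ a a' v, a ≤ a' → limsup (fun h : ℝ => U (v + h) a' v / h) (𝓝[>] 0) ≤ limsup (fun h : ℝ => U (v + h) a v / h) (𝓝[>] 0) := by
  have hx : ∀ a v x x', |U x a v - U x' a v| ≤ |x - x'| := by
    intro a v x x'
    rcases le_total x x' with h | h
    · have := h1 a v x x' h
      rw [abs_sub_comm, abs_of_nonneg this.1, abs_sub_comm, abs_of_nonneg (by linarith)]
      exact this.2
    · have := h1 a v x' x h
      rw [abs_of_nonneg this.1, abs_of_nonneg (by linarith)]
      exact this.2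
  have hcont : ∀ h : ℝ, Continuous fun z : ℝ × ℝ => U (z.2 + h) z.1 z.2 := by
    intro h
    have hl : LipschitzWith (Real.toNNReal (2 * |C| + 1)) (fun z : ℝ × ℝ => U (z.2 + h) z.1 z.2) := by
      refine LipschitzWith.of_dist_le_mul fun z z' => ?_
      rw [Real.coe_toNNReal _ (by positivity), Real.dist_eq]
      have d1 : |z.1 - z'.1| ≤ dist z z' := by
        rw [← Real.dist_eq]
        exact le_max_left _ _
      have d2 : |z.2 - z'.2| ≤ dist z z' := by
        rw [← Real.dist_eq]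
        exact le_max_right _ _
      have a1 := h3 z.1 z'.1 z.2 z'.2 (z.2 + h)
      have a2 := hx z'.1 z'.2 (z.2 + h) (z'.2 + h)
      have a3 : z.2 + h - (z'.2 + h) = z.2 - z'.2 := by ring
      rw [a3] at a2
      have a4 := abs_sub_le (U (z.2 + h) z.1 z.2) (U (z.2 + h) z'.1 z'.2) (U (z'.2 + h) z'.1 z'.2)
      have a5 : C * (|z.1 - z'.1| + |z.2 - z'.2|) ≤ |C| * (dist z z' + dist z z') :=
        (mul_le_mul_of_nonneg_right (le_abs_self C) (by positivity)).trans (mul_le_mul_of_nonneg_left (by linarith) (abs_nonneg _))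
      have a6 : (2 * |C| + 1) * dist z z' = |C| * (dist z z' + dist z z') + dist z z' := by ring
      rw [a6]
      linarith
    exact hl.continuous
  have core := nm_pro_meas_core (A := ℝ × ℝ) (fun z h => U (z.2 + h) z.1 z.2)
    (fun z h h' hh => by
      have := h1 z.1 z.2 (z.2 + h) (z.2 + h') (by linarith)
      exact ⟨this.1, by linarith [this.2]⟩)
    (fun h => (hcont h).measurable)
  have e : ∀ z : ℝ × ℝ, (fun h : ℝ => (U (z.2 + h) z.1 z.2 - U (z.2 + 0) z.1 z.2) / h) = fun h : ℝ => U (z.2 + h) z.1 z.2 / h := by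
    intro z
    funext h
    rw [add_zero, h0, sub_zero]
  simp only [e] at core
  obtain ⟨c1, c2⟩ := core
  have c3 : ∀ a, Measurable (fun v : ℝ => limsup (fun h : ℝ => U (v + h) a v / h) (𝓝[>] 0)) := by
    intro a
    have hm : Measurable (fun v : ℝ => ((a, v) : ℝ × ℝ)) := measurable_const.prodMk measurable_id
    have h5 := c1.comp hm
    rw [Function.comp_def] at h5
    exact h5
  have c4 : ∀ a v, 0 ≤ limsup (fun h : ℝ => U (v + h) a v / h) (𝓝[>] 0) ∧ limsup (fun h : ℝ => U (v + h) a v / h) (𝓝[>] 0) ≤ 1 :=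
    fun a v => c2 (a, v)
  refine ⟨c1, c3, c4, ?_⟩
  intro a a' v ha
  have hq : ∀ a, ∀ᶠ h in 𝓝[>] (0:ℝ), 0 ≤ U (v + h) a v / h ∧ U (v + h) a v / h ≤ 1 := by
    intro a
    filter_upwards [self_mem_nhdsWithin] with h hpos
    have hpos' : (0:ℝ) < h := hpos
    have := h1 a v v (v + h) (by linarith)
    rw [h0, sub_zero] at this
    refine ⟨div_nonneg this.1 hpos'.le, ?_⟩
    rw [div_le_one hpos']
    linarith [this.2]
  refine limsup_le_limsup ?_ ?_ ?_
  · filter_upwards [self_mem_nhdsWithin] with h hpos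
    have hpos' : (0:ℝ) < h := hpos
    have := h2 a a' v v (v + h) ha (by linarith)
    rw [h0, h0, sub_zero, sub_zero] at this
    exact div_le_div_of_nonneg_right this hpos'.le
  · have hbb : IsBoundedUnder (· ≥ ·) (𝓝[>] (0:ℝ)) (fun h : ℝ => U (v + h) a' v / h) :=
      ⟨0, by rw [eventually_map]; exact (hq a').mono fun h hh => hh.1⟩
    exact hbb.isCoboundedUnder_le
  · exact ⟨1, by rw [eventually_map]; exact (hq a).mono fun h hh => hh.2⟩

/-- **Y1** the angular trace is measurable and lies in `[0,1]`; it decreases in `a` -/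
theorem nm_pro_m_basic {π : SfPar} {C0 : ℝ} {κ : ℝ → ℝ} (S : NmSeq π C0 κ) (hπ : π.Valid) (q : NmQ) (hq : q.Fam π) :
    Measurable (fun z : ℝ × ℝ => S.m q z.1 z.2) ∧ (∀ a, Measurable (S.m q a)) ∧ (∀ a v, 0 ≤ S.m q a v ∧ S.m q a v ≤ 1) ∧
      ∀ a a' v, a ≤ a' → S.m q a' v ≤ S.m q a v := by
  exact nm_pro_m_abs (S.U q) (q.Cr π) (fun a v => (nm_pro_U_basic' S q a v).1) (fun a v x x' h => (nm_pro_U_basic' S q a v).2 x x' h)
    (fun a a' v x x' ha h => (nm_pro_U_incr' S hπ q hq).1 a a' v v x x' ha le_rfl h) (fun a a' v v' x => (nm_pro_U_incr' S hπ q hq).2 a a' v v' x)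

end

end Claimed.Agent.R256
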