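import Claimed.Agent.R256.Nm.Pro.Kit

/-!
# Row 256 (S0496), unit NM, block PRO, file 15: `nm_tan_mean`      (architect helper156; prefix `nm_pro_`)

LEAF L-256-NM-PRO-MEAN.   Statement = `nm_tan_mean` of `Nm/Contract.lean` VERBATIM.
FINITE, for `uf`-most `n`, `P = (S.D n).P 1`, `c = nm (a,v)` (root name), `c' = ` child `nm (a + l h, v)` or width name `nm (a, v + l h)`, `C = cs`:
 (1) `|entC c' C - entC c' c| ≤ log K0` : `nm_aux_entC_tri` twice + `ent_entC_le_log_nval` for `NmRep.rep1`, `NmRep.rep2`;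
 (2) `entC c' c = ent c' + entC c c' - ent c` (`FLaw.entC` unfolds to `ent (pair ..) - ent ..`, `ent_pair_comm`), `0 ≤ entC c c' ≤ log nmK0` : `nm_nval_up` (`q.Ok π` from `nm_fam_ok`; `a ≤ a + l h` by `hl`).
LIMITS: `nm_pro_HC_tendsto (nm_pro_pa_nm ..)`, `nm_pro_Hn_tendsto (nm_pro_pa_nm ..)`, `nm_pro_lim_le` with `a = 0` (both inequalities); `S.H q a v = S.Hn (S.nm q a v)` by `rfl`.
-/

set_option autoImplicit false

namespace Claimed.Agent.R256

open Claimed.Agent.R255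
open Claimed.Agent.R255.FLaw (pair)
open Filter Topology
open Classical

noncomputable section

variable {π : SfPar} {C0 : ℝ} {κ : ℝ → ℝ} (S : NmSeq π C0 κ)

theorem nm_pro_tan_mean_aux (hπ : π.Valid) (K0 e : ℝ) (r : NmRt) (hq : r.q.Fam π) (h1 : ∀ᶠ n in uf, NmRep (S.D n) π r K0 e)
    {a' v' : ℝ} (ha : r.a ≤ a') (hv : r.v ≤ v') :
    S.HC (S.nm r.q a' v') (fun n => (S.D n).cs π r) = S.H r.q a' v' - S.H r.q r.a r.v := by
  have hA := nm_pro_pa_nm (S := S) r.q a' v'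
  have hc := nm_pro_pa_nm (S := S) r.q r.a r.v
  have s1 : |S.HC (S.nm r.q a' v') (fun n => (S.D n).cs π r) - S.HC (S.nm r.q a' v') (S.nm r.q r.a r.v)| ≤ 0 :=
    nm_pro_cond_lip hA _ _ 0 (Real.log K0)
      (h1.mono fun n hn => by
        rw [zero_mul, zero_add]
        exact ent_entC_le_log_nval _ _ _ hn.rep2)
      (h1.mono fun n hn => by
        rw [zero_mul, zero_add]
        exact ent_entC_le_log_nval _ _ _ hn.rep1)
  have s2 : S.HC (S.nm r.q a' v') (fun n => (S.D n).cs π r) = S.HC (S.nm r.q a' v') (S.nm r.q r.a r.v) := by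
    have := abs_nonpos_iff.1 s1
    linarith
  rw [s2]
  have t1 := nm_pro_HC_tendsto hA (S.nm r.q r.a r.v)
  have t2 := nm_pro_Hn_tendsto hA
  have t3 := nm_pro_Hn_tendsto hc
  have u := t2.sub t3
  simp only [← sub_div] at u
  have hfin : ∀ n, ((S.D n).P 1).entC (S.nm r.q a' v' n) (S.nm r.q r.a r.v n)
      = ((S.D n).P 1).ent (S.nm r.q a' v' n) - ((S.D n).P 1).ent (S.nm r.q r.a r.v n)
        + ((S.D n).P 1).entC (S.nm r.q r.a r.v n) (S.nm r.q a' v' n) := by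
    intro n
    unfold FLaw.entC
    rw [ent_pair_comm]
    ring
  have le1 := nm_pro_lim_le 0 (Real.log nmK0) t1 u (Eventually.of_forall fun n => by
    have h2 : ((S.D n).P 1).entC (S.nm r.q r.a r.v n) (S.nm r.q a' v' n) ≤ Real.log nmK0 :=
      ent_entC_le_log_nval _ _ _ (nm_nval_up (S.D n) π (nm_fam_ok π hπ r.q hq) (nm_pro_hs S n).1 (nm_pro_hs S n).2 ha hv)
    rw [hfin n]
    linarith)
  have le2 := nm_pro_lim_le 0 0 u t1 (Eventually.of_forall fun n => by
    have h2 := ent_entC_nonneg ((S.D n).P 1) (S.nm r.q r.a r.v n) (S.nm r.q a' v' n)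
    rw [hfin n]
    linarith)
  show _ = S.Hn _ - S.Hn _
  linarith

/-- **Y1** the increments of `𝓗` are the conditional entropies of the child and width names given `C_*` -/
theorem nm_pro_tan_mean (hπ : π.Valid) (K0 e : ℝ) (r : NmRt) (hq : r.q.Fam π) (l : ℝ) (hl : 0 ≤ l * r.h) (h1 : ∀ᶠ n in uf, NmRep (S.D n) π r K0 e) :
    S.HC (S.nm r.q (r.a + l * r.h) r.v) (fun n => (S.D n).cs π r) = S.H r.q (r.a + l * r.h) r.v - S.H r.q r.a r.v ∧
    S.HC (S.nm r.q r.a (r.v + l * r.h)) (fun n => (S.D n).cs π r) = S.H r.q r.a (r.v + l * r.h) - S.H r.q r.a r.v := by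
  exact ⟨nm_pro_tan_mean_aux S hπ K0 e r hq h1 (by linarith) le_rfl, nm_pro_tan_mean_aux S hπ K0 e r hq h1 le_rfl (by linarith)⟩

end

end Claimed.Agent.R256
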