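import Claimed.Agent.R256.Nm.Pro.Kit

/-!
# Row 256 (S0496), unit NM, block PRO, file 8: THE PROFILES (Y1), part 1      (architect helper156; prefix `nm_pro_`)

`nm_pro_H_lip`, `nm_pro_U_basic`, `nm_pro_U_incr`, `nm_pro_HM_basic`, `nm_pro_HP_HM`, `nm_pro_Rj_basic` = the exits `nm_H_lip`, ... of `Nm/Contract.lean`, VERBATIM (some also in a stronger form, suffix `'`).
-/

set_option autoImplicit false

namespace Claimed.Agent.R256

open Claimed.Agent.R255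
open Claimed.Agent.R255.FLaw (pair)
open Filter Topology
open Classical

noncomputable section

variable {π : SfPar} {C0 : ℝ} {κ : ℝ → ℝ} (S : NmSeq π C0 κ)

/-- profiles only depend on the partitions -/
theorem nm_pro_HC_congr {α α' β β' : ℕ → Type} (A : S.Obs α) (A' : S.Obs α') (W : S.Obs β) (W' : S.Obs β')
    (hW : ∀ n ω ω', W n ω = W n ω' ↔ W' n ω = W' n ω') (hA : ∀ n ω ω', A n ω = A n ω' ↔ A' n ω = A' n ω') :
    S.HC A W = S.HC A' W' := by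
  unfold NmSeq.HC
  congr 1
  funext n
  rw [ent_entC_congr ((S.D n).P 1) (A n) (A' n) (W n) (W' n) (fun ω ω' _ _ => hW n ω ω') (fun ω ω' _ _ _ => hA n ω ω')]

/-- **Y1** Lipschitz dependence -/
theorem nm_pro_H_lip (hπ : π.Valid) (q : NmQ) (hq : q.Fam π) : ∃ C : ℝ, ∀ a a' v v' : ℝ,
    |S.H q a v - S.H q a' v'| ≤ C * (|a - a'| + |v - v'|) := by
  have hq' := nm_fam_ok π hπ q hq
  refine ⟨q.Cr π, fun a a' v v' => ?_⟩
  have t1 : Tendsto _ uf (𝓝 (S.H q a v)) := nm_pro_Hn_tendsto (nm_pro_pa_nm (S := S) q a v)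
  have t2 : Tendsto _ uf (𝓝 (S.H q a' v')) := nm_pro_Hn_tendsto (nm_pro_pa_nm (S := S) q a' v')
  have key : ∀ n, |((S.D n).P 1).ent ((S.D n).nm π q a v) - ((S.D n).P 1).ent ((S.D n).nm π q a' v')| ≤
      2 * Real.log nmK0 + q.Cr π * (|a - a'| + |v - v'|) * (S.D n).lgs := fun n =>
    nm_ent_lip (S.D n) π hq' (nm_pro_hs S n).1 (nm_pro_hs S n).2 a' v' a v
  have u1 := nm_pro_lim_le (q.Cr π * (|a - a'| + |v - v'|)) (2 * Real.log nmK0) t1 t2 (Eventually.of_forall fun n => by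
    have := (abs_le.1 (key n)).2
    show ((S.D n).P 1).ent ((S.D n).nm π q a v) ≤ ((S.D n).P 1).ent ((S.D n).nm π q a' v') + _ + _
    linarith)
  have u2 := nm_pro_lim_le (q.Cr π * (|a - a'| + |v - v'|)) (2 * Real.log nmK0) t2 t1 (Eventually.of_forall fun n => by
    have := (abs_le.1 (key n)).1
    show ((S.D n).P 1).ent ((S.D n).nm π q a' v') ≤ ((S.D n).P 1).ent ((S.D n).nm π q a v) + _ + _
    linarith)
  rw [abs_le]
  constructor <;> linarith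

/-- the angular score, ALL depths -/
theorem nm_pro_U_basic' (q : NmQ) (a v : ℝ) :
    S.U q v a v = 0 ∧ ∀ x x' : ℝ, x ≤ x' → 0 ≤ S.U q x' a v - S.U q x a v ∧ S.U q x' a v - S.U q x a v ≤ x' - x := by
  refine ⟨?_, fun x x' h => nm_pro_prof (nm_pro_pb_ray (S := S)).1 (S.nm q a v) h⟩
  unfold NmSeq.U NmSeq.HC
  have : (fun n => ((S.D n).P 1).entC (S.Xc v n) (S.nm q a v n) / (S.D n).lgs) = fun _ => 0 := by
    funext n
    rw [ent_entC_eq_zero ((S.D n).P 1) (S.Xc v n) (S.nm q a v n) (fun ω ω' _ _ h => congrArg NmNm.X h), zero_div]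
  rw [this, ulim_const]

/-- **Y1** the angular score -/
theorem nm_pro_U_basic (hπ : π.Valid) (q : NmQ) (hq : q.Fam π) (a v : ℝ) :
    S.U q v a v = 0 ∧ ∀ x x' : ℝ, v ≤ x → x ≤ x' → 0 ≤ S.U q x' a v - S.U q x a v ∧ S.U q x' a v - S.U q x a v ≤ x' - x :=
  ⟨(nm_pro_U_basic' S q a v).1, fun x x' _ h => (nm_pro_U_basic' S q a v).2 x x' h⟩

/-- the increments decrease, ALL depths; Lipschitz -/
theorem nm_pro_U_incr' (hπ : π.Valid) (q : NmQ) (hq : q.Fam π) :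
    (∀ a a' v v' x x' : ℝ, a ≤ a' → v ≤ v' → x ≤ x' →
      S.U q x' a' v' - S.U q x a' v' ≤ S.U q x' a v - S.U q x a v) ∧
    ∀ a a' v v' x : ℝ, |S.U q x a v - S.U q x a' v'| ≤ q.Cr π * (|a - a'| + |v - v'|) := by
  have hq' := nm_fam_ok π hπ q hq
  refine ⟨fun a a' v v' x x' ha hv h => ?_, fun a a' v v' x => ?_⟩
  · exact nm_pro_prof_anti (nm_pro_pb_ray (S := S)).1 (S.nm q a v) (S.nm q a' v') nmK0
      (Eventually.of_forall fun n => nm_nval_up (S.D n) π hq' (nm_pro_hs S n).1 (nm_pro_hs S n).2 ha hv) h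
  · refine nm_pro_cond_lip (nm_pro_pa_Xc (S := S) x) (S.nm q a v) (S.nm q a' v') _ (2 * Real.log nmK0)
      (Eventually.of_forall fun n => ?_) (Eventually.of_forall fun n => ?_)
    · have := nm_entC_cmp (S.D n) π hq' (nm_pro_hs S n).1 (nm_pro_hs S n).2 a' v' a v
      show ((S.D n).P 1).entC ((S.D n).nm π q a v) ((S.D n).nm π q a' v') ≤ _
      linarith
    · have := nm_entC_cmp (S.D n) π hq' (nm_pro_hs S n).1 (nm_pro_hs S n).2 a v a' v'
      rw [abs_sub_comm a' a, abs_sub_comm v' v] at this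
      show ((S.D n).P 1).entC ((S.D n).nm π q a' v') ((S.D n).nm π q a v) ≤ _
      linarith

/-- **Y1** the increments decrease when either conditioning depth increases; Lipschitz in `(a, v)` -/
theorem nm_pro_U_incr (hπ : π.Valid) (q : NmQ) (hq : q.Fam π) :
    (∀ a a' v v' x x' : ℝ, a ≤ a' → v ≤ v' → v' ≤ x → x ≤ x' →
      S.U q x' a' v' - S.U q x a' v' ≤ S.U q x' a v - S.U q x a v) ∧
    ∃ C : ℝ, ∀ a a' v v' x : ℝ, |S.U q x a v - S.U q x a' v'| ≤ C * (|a - a'| + |v - v'|) :=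
  ⟨fun a a' v v' x x' ha hv _ h => (nm_pro_U_incr' S hπ q hq).1 a a' v v' x x' ha hv h, q.Cr π, (nm_pro_U_incr' S hπ q hq).2⟩

/-- **Y1** `R_j` is nondecreasing and `1`-Lipschitz -/
theorem nm_pro_Rj_basic (j : ℝ) : ∀ x x' : ℝ, x ≤ x' → 0 ≤ S.Rj j x' - S.Rj j x ∧ S.Rj j x' - S.Rj j x ≤ x' - x :=
  fun _ _ h => nm_pro_prof (nm_pro_pb_ray (S := S)).1 (S.lab j) h

/-- the real number behind a scalar query -/
def nmScal (S : NmSeq π C0 κ) (ds : NmDs) (b : Bool) : ∀ n, (S.D n).Row 1 → ℝ :=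
  fun n ω => if b then ((S.D n).raw π ds ω).P else ((S.D n).raw π ds ω).be

theorem nm_pro_pb_scal (ds : NmDs) (b : Bool) : S.PB (nmScal S ds b) := by
  cases b
  · exact (nm_pro_pbraw (S := S) ds).be
  · exact (nm_pro_pbraw (S := S) ds).P

/-- a mixed profile is a depth profile -/
theorem nm_pro_HM_eq (ds : NmDs) (b : Bool) (Sd : List NmAt) (x z : ℝ) :
    S.HM (if b then NmAt.Pc ds else NmAt.bc ds) Sd x z = S.HC (S.cel (nmScal S ds b) x) (S.ats (NmAt.tc z :: Sd)) := by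
  unfold NmSeq.HM
  refine nm_pro_HC_congr S _ _ _ _ (fun _ _ _ => Iff.rfl) fun n ω ω' => ?_
  cases b <;> simp [NmSeq.ats, SfDoc.ats, SfDoc.atq, NmSeq.cel, nmScal, SfDoc.Pc, SfDoc.bc]

/-- the time cells inside the condition -/
theorem nm_pro_tc_nval (Sd : List NmAt) (z z' : ℝ) (n : ℕ) :
    ((S.D n).P 1).NVal (fun _ => True) (S.ats (NmAt.tc z :: Sd) n) (S.ats (NmAt.tc z' :: Sd) n) (4 * Real.exp (|z - z'| * (S.D n).lgs)) := by
  have h1 := nm_pro_ls_nval ((S.D n).P 1) (nm_pro_cell_ls (nm_pro_hs S n) z z' |z - z'| le_rfl) (fun ω => (S.D n).T 1 ω)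
    (fun c : ℤ => (Sum.inr (Sum.inl c) : NmVl (S.D n).Idx)) (fun c : ℤ => (Sum.inr (Sum.inl c) : NmVl (S.D n).Idx))
    (fun a b h => by simpa using h)
  have h2 := nm_pro_nval_cons ((S.D n).P 1) h1 (dc_hx_nval_self ((S.D n).P 1) ((S.D n).ats π Sd))
  rw [mul_one] at h2
  exact h2

theorem nm_pro_tc_nest (Sd : List NmAt) {z z' : ℝ} (h : z ≤ z') (n : ℕ) :
    ((S.D n).P 1).NVal (fun _ => True) (S.ats (NmAt.tc z :: Sd) n) (S.ats (NmAt.tc z' :: Sd) n) 1 := fun ω₀ => by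
  refine ⟨{S.ats (NmAt.tc z :: Sd) n ω₀}, by simp, fun ω _ _ hA => ?_⟩
  have hA' : (Sum.inr (Sum.inl ((S.D n).tc z' ω)) : NmVl (S.D n).Idx) :: (S.D n).ats π Sd ω =
      Sum.inr (Sum.inl ((S.D n).tc z' ω₀)) :: (S.D n).ats π Sd ω₀ := hA
  rw [List.cons.injEq] at hA'
  have h1 : (S.D n).tc z' ω = (S.D n).tc z' ω₀ := by simpa using hA'.1
  have h2 : (S.D n).tc z ω = (S.D n).tc z ω₀ := nm_cell_nest (nm_pro_hs S n).1 (nm_pro_hs S n).2 h h1
  rw [Finset.mem_singleton]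
  show (Sum.inr (Sum.inl ((S.D n).tc z ω)) : NmVl (S.D n).Idx) :: (S.D n).ats π Sd ω =
      Sum.inr (Sum.inl ((S.D n).tc z ω₀)) :: (S.D n).ats π Sd ω₀
  rw [h2, hA'.2]

/-- mixed profiles, for every display -/
theorem nm_pro_HM_basic' (ds : NmDs) (b : Bool) (Sd : List NmAt) :
    (∀ z x x' : ℝ, x ≤ x' → 0 ≤ S.HM (if b then NmAt.Pc ds else NmAt.bc ds) Sd x' z - S.HM (if b then NmAt.Pc ds else NmAt.bc ds) Sd x z ∧
      S.HM (if b then NmAt.Pc ds else NmAt.bc ds) Sd x' z - S.HM (if b then NmAt.Pc ds else NmAt.bc ds) Sd x z ≤ x' - x) ∧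
    (∀ z z' x x' : ℝ, z ≤ z' → x ≤ x' → S.HM (if b then NmAt.Pc ds else NmAt.bc ds) Sd x' z' - S.HM (if b then NmAt.Pc ds else NmAt.bc ds) Sd x z' ≤
      S.HM (if b then NmAt.Pc ds else NmAt.bc ds) Sd x' z - S.HM (if b then NmAt.Pc ds else NmAt.bc ds) Sd x z) ∧
    ∀ x z z' : ℝ, |S.HM (if b then NmAt.Pc ds else NmAt.bc ds) Sd x z - S.HM (if b then NmAt.Pc ds else NmAt.bc ds) Sd x z'| ≤ |z - z'| := by
  simp only [nm_pro_HM_eq]
  refine ⟨fun z x x' h => nm_pro_prof (nm_pro_pb_scal S ds b) _ h, fun z z' x x' hz h => ?_, fun x z z' => ?_⟩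
  · exact nm_pro_prof_anti (nm_pro_pb_scal S ds b) _ _ 1 (Eventually.of_forall fun n => nm_pro_tc_nest S Sd hz n) h
  · refine nm_pro_cond_lip (nm_pro_pa_cel (nm_pro_pb_scal S ds b) x) _ _ _ (Real.log 4)
      (Eventually.of_forall fun n => ?_) (Eventually.of_forall fun n => ?_)
    · have := ent_entC_le_log_nval _ _ _ (nm_pro_tc_nval S Sd z z' n)
      rwa [Real.log_mul (by norm_num) (Real.exp_pos _).ne', Real.log_exp, add_comm] at this
    · have := ent_entC_le_log_nval _ _ _ (nm_pro_tc_nval S Sd z' z n)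
      rwa [Real.log_mul (by norm_num) (Real.exp_pos _).ne', Real.log_exp, add_comm, abs_sub_comm] at this

/-- **Y1** mixed profiles -/
theorem nm_pro_HM_basic (hπ : π.Valid) (ds : NmDs) (hds : (∃ q : NmQ, q.Fam π ∧ q.ds = ds) ∨ ds = nmDsEq π) (V : ℝ → NmAt) (hV : V = NmAt.Pc ds ∨ V = NmAt.bc ds) (Sd : List NmAt) :
    (∀ z x x' : ℝ, x ≤ x' → 0 ≤ S.HM V Sd x' z - S.HM V Sd x z ∧ S.HM V Sd x' z - S.HM V Sd x z ≤ x' - x) ∧
    (∀ z z' x x' : ℝ, z ≤ z' → x ≤ x' → S.HM V Sd x' z' - S.HM V Sd x z' ≤ S.HM V Sd x' z - S.HM V Sd x z) ∧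
    ∀ x z z' : ℝ, |S.HM V Sd x z - S.HM V Sd x z'| ≤ |z - z'| := by
  rcases hV with rfl | rfl
  · exact nm_pro_HM_basic' S ds true Sd
  · exact nm_pro_HM_basic' S ds false Sd

/-- **Y1** `HP` is the mixed profile with the static side `y_0` -/
theorem nm_pro_HP_HM (ds : NmDs) (x z : ℝ) : S.HP ds x z = S.HM (NmAt.Pc ds) [NmAt.y0] x z := by
  unfold NmSeq.HP NmSeq.HM
  refine nm_pro_HC_congr S _ _ _ _ (fun n ω ω' => ?_) fun n ω ω' => ?_
  · simp [NmSeq.ats, SfDoc.ats, SfDoc.atq, NmSeq.pr2, NmSeq.y0, NmSeq.tc, FLaw.pair]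
    tauto
  · simp [NmSeq.ats, SfDoc.ats, SfDoc.atq]

theorem nm_pro_prof_eqns_cite : True := by
  have := @nmScal.eq_1
  trivial

end

end Claimed.Agent.R256
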