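import Claimed.Agent.R256.Nm.Pro.Mono

/-!
# Row 256 (S0496), unit NM, block PRO, file 2: CONDITIONING OF THE FINAL LAW      (architect helper156; prefix `nm_pro_`)

* `nm_pro_restr` = `nm_restr` of `Nm/Contract.lean`.
* `D.cndT E` = TOTAL version of `D.cnd E h0`: rows, labels, rays, `Conn` are DEFINITIONALLY those of `D`, so every observation of `D` is an observation of `D.cndT E`;  `(D.cndT E).P 1 = (D.P 1).cnd E`.
* `nm_pro_cndT_fine` : what a conditioned configuration keeps.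
-/

set_option autoImplicit false

namespace Claimed.Agent.R256

open Claimed.Agent.R255
open Claimed.Agent.R255.FLaw (pair)
open Filter Topology
open Classical

noncomputable section

/-- the laws of the conditioned configuration are dominated -/
theorem nm_pro_cnd_le (D : SfDoc) (t : ℝ) (hs : 0 < D.s ∧ D.s < 1) (ht : 0 ≤ t) (E : D.Row 1 → Prop) (h0 : 0 < (D.P 1).pr E)
    (hE : D.s ^ t ≤ (D.P 1).pr E) (j : ℝ) (A : D.Row j → Prop) :
    ((D.cnd E h0).P j).pr A ≤ D.s ^ (-t) * (D.P j).pr A := by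
  have pos : ∀ x : ℝ, 0 < D.s ^ x := fun x => Real.rpow_pos_of_pos hs.1 x
  have hone : 1 ≤ D.s ^ (-t) := by
    have := nm_pro_anti hs (x := -t) (y := 0) (by linarith)
    rwa [Real.rpow_zero] at this
  by_cases h : j = 1
  · subst h
    have e : (D.cnd E h0).P 1 = (D.P 1).cond E h0 := dif_pos rfl
    rw [e]
    refine (sf_cond_pr_le (D.P 1) E h0 A).trans ?_
    rw [div_le_iff₀ h0]
    have hA := sf_cond_pr_nonneg (D.P 1) A
    calc (D.P 1).pr A = D.s ^ (-t) * (D.P 1).pr A * D.s ^ t := by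
          rw [mul_right_comm, ← Real.rpow_add hs.1, neg_add_cancel, Real.rpow_zero, one_mul]
      _ ≤ D.s ^ (-t) * (D.P 1).pr A * (D.P 1).pr E :=
          mul_le_mul_of_nonneg_left hE (mul_nonneg (pos _).le hA)
  · have e : (D.cnd E h0).P j = D.P j := dif_neg h
    rw [e]
    exact le_mul_of_one_le_left (sf_cond_pr_nonneg _ A) hone

/-- **`nm_restr`** (statement of `Nm/Contract.lean`) -/
theorem nm_pro_restr (π : SfPar) (C0 τ κ0 t : ℝ) (D : SfDoc) (h : D.Fine π C0 τ κ0 t) (hX : nmX π D t) (ht : t ≤ 1 / 2) (E : D.Row 1 → Prop)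
    (h0 : 0 < (D.P 1).pr E) (hE : D.s ^ t ≤ (D.P 1).pr E) : (D.cnd E h0).Fine π C0 τ (κ0 / 2) (2 * t) ∧ nmX π (D.cnd E h0) (2 * t) := by
  have hs := h.ok.core.hs
  have htp := h.pos
  have pos : ∀ x : ℝ, 0 < D.s ^ x := fun x => Real.rpow_pos_of_pos hs.1 x
  have e2 : D.s ^ (-(2 * t)) = D.s ^ (-t) * D.s ^ (-t) := by
    rw [← Real.rpow_add hs.1]; congr 1; ring
  refine ⟨⟨by linarith, sf_cond D π C0 τ κ0 t htp ht h.ok E hE h0, h.sm.trans (by linarith), fun a a0 a1 => ?_⟩, ?_, ?_⟩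
  · obtain ⟨i, hi, hia⟩ := h.mesh a a0 a1
    exact ⟨i, hi, hia.trans (by linarith)⟩
  · intro i hi j hj hi0 hij R c hc
    refine (nm_pro_cnd_le D t hs htp.le E h0 hE j _).trans ?_
    show D.s ^ (-t) * _ ≤ D.s ^ (-(2 * t)) * _
    rw [e2, mul_assoc]
    exact mul_le_mul_of_nonneg_left (hX.1 i hi j hj hi0 hij R c hc) (pos _).le
  · intro hh i hi j hj hi0 hij R Z c gs hc hg
    refine (nm_pro_cnd_le D t hs htp.le E h0 hE j _).trans ?_
    show D.s ^ (-t) * _ ≤ D.s ^ (-(2 * t)) * _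
    rw [e2, mul_assoc]
    exact mul_le_mul_of_nonneg_left (hX.2 hh i hi j hj hi0 hij R Z c gs hc hg) (pos _).le

/-- **total conditioning** of the final law -/
def SfDoc.cndT (D : SfDoc) (E : D.Row 1 → Prop) : SfDoc :=
  { D with P := fun i => if h : i = 1 then h ▸ (D.P 1).cnd E else D.P i
           mass := fun i => if i = 1 then D.mass 1 * (if 0 < (D.P 1).pr E then (D.P 1).pr E else 1) else D.mass i }

theorem nm_pro_cndT_P (D : SfDoc) (E : D.Row 1 → Prop) : (D.cndT E).P 1 = (D.P 1).cnd E := dif_pos rfl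

theorem nm_pro_cndT_eq (D : SfDoc) (E : D.Row 1 → Prop) (h0 : 0 < (D.P 1).pr E) : D.cndT E = D.cnd E h0 := by
  unfold SfDoc.cndT SfDoc.cnd
  rw [ent_cnd_eq (D.P 1) E h0, if_pos h0]

theorem nm_pro_cndT_true (D : SfDoc) : D.cndT (fun _ => True) = D := by
  have h1 : (D.P 1).pr (fun _ => True) = 1 := ent_pr_true _
  have h2 : (D.P 1).cnd (fun _ => True) = D.P 1 := by
    refine ent_law_ext _ _ fun ω => ?_
    rw [ent_cnd_p (D.P 1) _ (by rw [h1]; exact one_pos), h1]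
    simp
  have e1 : (fun i => if h : i = 1 then h ▸ (D.P 1).cnd (fun _ => True) else D.P i) = D.P := by
    funext i
    by_cases h : i = 1
    · subst h; rw [dif_pos rfl, h2]
    · rw [dif_neg h]
  have e2 : (fun i => if i = 1 then D.mass 1 * (if 0 < (D.P 1).pr (fun _ => True) then (D.P 1).pr (fun _ => True) else 1)
      else D.mass i) = D.mass := by
    funext i
    by_cases h : i = 1
    · subst h; rw [if_pos rfl, h1, if_pos one_pos, mul_one]
    · rw [if_neg h]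
  unfold SfDoc.cndT
  rw [e1, e2]

/-- when a conditioning is allowed: either nothing happens, or the event has mass `≥ s^(t'/2)` with `t ≤ t'/2 ≤ 1/2` -/
def SfDoc.CndOk (D : SfDoc) (E : D.Row 1 → Prop) (t t' : ℝ) : Prop :=
  (E = (fun _ => True) ∧ t ≤ t') ∨ (t ≤ t' / 2 ∧ t' ≤ 1 ∧ 0 < (D.P 1).pr E ∧ D.s ^ (t' / 2) ≤ (D.P 1).pr E)

theorem nm_pro_cndT_fine {π : SfPar} {C0 τ κ0 t t' : ℝ} {D : SfDoc} (h : D.Fine π C0 τ κ0 t) (hX : nmX π D t) {E : D.Row 1 → Prop}
    (hE : D.CndOk E t t') : (D.cndT E).Fine π C0 τ (κ0 / 2) t' ∧ nmX π (D.cndT E) t' := by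
  have hs := h.ok.core.hs
  rcases hE with ⟨rfl, htt⟩ | ⟨h1, h2, h3, h4⟩
  · rw [nm_pro_cndT_true]
    exact ⟨nm_pro_fine_half h htt, nm_pro_X_mono hs hX htt⟩
  · rw [nm_pro_cndT_eq D E h3]
    have := nm_pro_restr π C0 τ κ0 (t' / 2) D (nm_pro_fine_mono h h1 le_rfl) (nm_pro_X_mono hs hX h1) (by linarith) E h3 h4
    rwa [show 2 * (t' / 2) = t' by ring] at this

theorem nm_pro_restr_eqns_cite : True := by
  have := @SfDoc.cndT.eq_1; have := @SfDoc.CndOk.eq_1
  trivial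

end

end Claimed.Agent.R256
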