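import Claimed.Agent.R256.Nm.Pro.Prof
import Claimed.Agent.R256.Nm.Mem.Uf

/-!
# Row 256 (S0496), unit NM, block PRO, file 19: BELOW `p_*` THE DERIVATIVE BIN IS PREDICTED      (architect helper156; prefix `nm_pro_`)

LEAF L-256-NM-PRO-PCLA.   Tools: `Nm/Pro/Kit.lean` (`nm_pro_prof`, `nm_pro_HC_tendsto`, `nm_pro_lim_le`, `NmSeq.cel`), `Nm/Pro/Prof.lean` (`nm_pro_HP_HM`, `nm_pro_HM_eq`, `nm_pro_pb_scal`, `nmScal`), `Nm/Mem/Uf.lean` (`nm_me_ent_cell`).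
* `nm_pro_cel_zero`: `hy` gives `M ≥ 0` with `|y| ≤ s^(-M)`; take `x0 = -M`: `nm_me_ent_cell` (`K = 1`, `C = M`, `x = -M`): `ent ≤ log 7`; `ent_entC_le`; limit `nm_pro_lim_le 0 (log 7)` against the zero sequence (`tendsto_const_nhds`, `zero_div`); `0 ≤ HC`: `ge_of_tendsto'` + `ent_entC_nonneg`.
* `nm_pro_HP_zero`: `S.pst ds a = sSup {x | x ≤ 1 ∧ S.HP ds x a = 0}`.   `S.HP ds x a = S.HC (S.cel (nmScal S ds true) x) (S.ats [NmAt.tc a, NmAt.y0])` (`nm_pro_HP_HM`, `nm_pro_HM_eq S ds true [NmAt.y0] x a`, `if_pos rfl`).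
  The set is NONEMPTY by `nm_pro_cel_zero` (`x0 ≤ 0 ≤ 1`); `exists_lt_of_lt_csSup` gives `x > xs` in it; `nm_pro_prof` (monotone) and `0 ≤ HC`.
* `nm_pro_pc_typ`: `hF [NmAt.Pc ds xs] [NmAt.tc a, NmAt.y0]` is `S.Hom ..` with `S.HC .. = S.HM (NmAt.Pc ds) [NmAt.y0] xs a = S.HP ds xs a = 0`.   `pr (e < |sur / lgs - 0|) → 0`; the complement of the event of the statement is contained in it (`ent_pr_not`, `ent_pr_mono`, `lt_div_iff₀`, `le_abs_self`);
  the score of the list-coded observations IS the score of `(Pc | (y0, tc))`: `ent_surC_congr` (same partitions: `simp [NmSeq.ats, SfDoc.ats, SfDoc.atq, FLaw.pair]`, as in the proof of `nm_pro_HP_HM`).   Squeeze with `ent_pr_le_one`.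
-/

set_option autoImplicit false

namespace Claimed.Agent.R256

open Claimed.Agent.R255
open Claimed.Agent.R255.FLaw (pair)
open Filter Topology
open Classical

noncomputable section

variable {π : SfPar} {C0 : ℝ} {κ : ℝ → ℝ} (S : NmSeq π C0 κ)

/-- depth profiles are nonnegative -/
theorem nm_pro_cel_nonneg {y : ∀ n, (S.D n).Row 1 → ℝ} (hy : S.PB y) {γ : ℕ → Type} (W : S.Obs γ) (x : ℝ) :
    0 ≤ S.HC (S.cel y x) W := by
  have := uf_neBot
  exact ge_of_tendsto' (nm_pro_HC_tendsto (nm_pro_pa_cel hy x) W)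
    fun n => div_nonneg (ent_entC_nonneg _ _ _) (nm_pro_lgs_pos S n).le

/-- at a very negative depth the cells of a polynomially bounded real carry no entropy -/
theorem nm_pro_cel_zero {y : ∀ n, (S.D n).Row 1 → ℝ} (hy : S.PB y) {γ : ℕ → Type} (W : S.Obs γ) :
    ∃ x0 : ℝ, x0 ≤ 0 ∧ S.HC (S.cel y x0) W = 0 := by
  have hy' := hy
  obtain ⟨M, hM0, hM⟩ := hy'
  refine ⟨-M, by linarith, ?_⟩
  have t1 := nm_pro_HC_tendsto (nm_pro_pa_cel hy (-M)) W
  have t0 : Tendsto (fun n => (0 : ℝ) / (S.D n).lgs) uf (𝓝 0) := by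
    simp only [zero_div]
    exact tendsto_const_nhds
  have h1 : S.HC (S.cel y (-M)) W ≤ 0 + 0 := nm_pro_lim_le 0 (Real.log 7) t1 t0 (hM.mono fun n hn => by
    have a1 := nm_me_ent_cell ((S.D n).P 1) (y n) (nm_pro_hs S n).1 (nm_pro_hs S n).2 (-M) M 1 zero_le_one
      (fun ω _ => by rw [one_mul]; exact hn ω)
    have a2 := ent_entC_le ((S.D n).P 1) (fun ω => nmCell (S.D n).s (-M) (y n ω)) (W n)
    rw [neg_add_cancel, max_self, zero_mul, add_zero, show (4 * 1 + 3 : ℝ) = 7 by norm_num] at a1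
    show ((S.D n).P 1).entC (fun ω => nmCell (S.D n).s (-M) (y n ω)) (W n) ≤ 0 + 0 * (S.D n).lgs + Real.log 7
    linarith)
  have h2 := nm_pro_cel_nonneg S hy W (-M)
  linarith

/-- below `p_*` the profile of the derivative vanishes -/
theorem nm_pro_HP_zero (ds : NmDs) (a xs : ℝ) (h : xs < S.pst ds a) : S.HP ds xs a = 0 := by
  have e : ∀ x, S.HP ds x a = S.HC (S.cel (nmScal S ds true) x) (S.ats [NmAt.tc a, NmAt.y0]) := by
    intro x
    rw [nm_pro_HP_HM]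
    have := nm_pro_HM_eq S ds true [NmAt.y0] x a
    rwa [if_pos rfl] at this
  have hy := nm_pro_pb_scal S ds true
  obtain ⟨x0, hx0, hz⟩ := nm_pro_cel_zero S hy (S.ats [NmAt.tc a, NmAt.y0])
  have hne : {x : ℝ | x ≤ 1 ∧ S.HP ds x a = 0}.Nonempty := ⟨x0, by linarith, by rw [e]; exact hz⟩
  obtain ⟨x, ⟨_, hx2⟩, hlt⟩ := exists_lt_of_lt_csSup hne h
  rw [e] at hx2 ⊢
  have m1 := (nm_pro_prof hy (S.ats [NmAt.tc a, NmAt.y0]) hlt.le).1
  have m2 := nm_pro_cel_nonneg S hy (S.ats [NmAt.tc a, NmAt.y0]) xs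
  linarith

/-- below `p_*`, on a flat sequence, the score of the bin `[P]_{x_*}` given `(y_0, t_a)` is `≤ e log (1/s)` with probability `→ 1` -/
theorem nm_pro_pc_typ (Ds : Set ℝ) (hF : S.Flat Ds) (r : NmRt) (hq : r.q.Fam π) (hD : r.q.ds.De ∈ Ds) (hx : r.σ.xs < S.pst r.q.ds r.a)
    (e : ℝ) (he : 0 < e) :
    Tendsto (fun n => ((S.D n).P 1).pr (fun ω =>
      ((S.D n).P 1).surC ((S.D n).Pc π r.q.ds r.σ.xs) (pair (S.D n).y0 ((S.D n).tc r.a)) ω ≤ e * (S.D n).lgs)) uf (𝓝 1) := by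
  have hom : S.Hom (S.ats [NmAt.Pc r.q.ds r.σ.xs]) (S.ats [NmAt.tc r.a, NmAt.y0]) := by
    refine hF _ _ (fun x hx' => ?_) (fun x hx' => ?_)
    · rw [List.mem_singleton] at hx'
      subst hx'
      exact ⟨fun h => (by cases h), hD, Or.inl ⟨r.q, hq, rfl⟩⟩
    · simp only [List.mem_cons, List.not_mem_nil, or_false] at hx'
      rcases hx' with rfl | rfl <;> trivial
  have hz : S.HC (S.ats [NmAt.Pc r.q.ds r.σ.xs]) (S.ats [NmAt.tc r.a, NmAt.y0]) = 0 := by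
    have := nm_pro_HP_zero S r.q.ds r.a r.σ.xs hx
    rw [nm_pro_HP_HM] at this
    exact this
  have t := hom e he
  rw [hz] at t
  have t1 := (tendsto_const_nhds (x := (1 : ℝ)) (f := uf)).sub t
  rw [sub_zero] at t1
  refine tendsto_of_tendsto_of_tendsto_of_le_of_le t1 tendsto_const_nhds (fun n => ?_) (fun n => ent_pr_le_one _ _)
  show 1 - ((S.D n).P 1).pr _ ≤ _
  rw [← ent_pr_not]
  refine ent_pr_mono _ fun ω _ hnb => ?_
  have hl := nm_pro_lgs_pos S n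
  have es : ((S.D n).P 1).surC ((S.D n).Pc π r.q.ds r.σ.xs) (pair (S.D n).y0 ((S.D n).tc r.a)) ω
      = ((S.D n).P 1).surC (S.ats [NmAt.Pc r.q.ds r.σ.xs] n) (S.ats [NmAt.tc r.a, NmAt.y0] n) ω := by
    refine ent_surC_congr _ _ _ _ _ ω (fun ω' _ => ?_) (fun ω' _ _ => ?_)
    · simp [NmSeq.ats, SfDoc.ats, SfDoc.atq, FLaw.pair]
      tauto
    · simp [NmSeq.ats, SfDoc.ats, SfDoc.atq]
  rw [es]
  rw [not_lt, sub_zero] at hnb
  have h3 := (le_abs_self _).trans hnb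
  rwa [div_le_iff₀ hl] at h3

end

end Claimed.Agent.R256
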