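import Claimed.Agent.R256.Nm.Pro.Flat
import Claimed.Agent.R256.Nm.Pro.PclA
import Claimed.Agent.R255.Ent.Restr

/-!
# Row 256 (S0496), unit NM, block PRO, file 20: `nm_pclist`      (architect helper156; prefix `nm_pro_`)

`nm_pro_pclist` = the exit `nm_pclist` of `Nm/Grid.lean` with the hypothesis `Ds.Countable`, the conjunct `FlatP (1/8)`, and `PcAll` UNFOLDED and without its two premises (`SfDoc.PcAll` is defined above the contract).
One conditioning on typical events (`nm_pro_finish` with the trivial first stage `E = True`): inside the events `score ([P]_{x_*} | y_0, t_a) ≤ lgs / (m+1)` (typical by `nm_pro_pc_typ`), sharpening the rational lists.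
-/

set_option autoImplicit false

namespace Claimed.Agent.R256

open Claimed.Agent.R255
open Claimed.Agent.R255.FLaw (pair)
open Filter Topology
open Classical

noncomputable section

variable {π : SfPar} {C0 : ℝ} {κ : ℝ → ℝ}

theorem nm_pro_cnd_true_law {Ω : Type} [Fintype Ω] (P : FLaw Ω) : P.cnd (fun _ => True) = P := by
  have h1 : P.pr (fun _ => True) = 1 := ent_pr_true _
  refine ent_law_ext _ _ fun ω => ?_
  rw [ent_cnd_p P _ (by rw [h1]; exact one_pos), h1]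
  simp

/-- lists on the support of a law which lives where the scores of another law are small -/
theorem nm_pro_nval_supp {Ω α β : Type} [Fintype Ω] (P P' : FLaw Ω) (B : Ω → β) (A : Ω → α) (hi : ℝ)
    (h : ∀ ω, P'.p ω ≠ 0 → P.p ω ≠ 0 ∧ P.surC B A ω ≤ hi) : P'.NVal (fun _ => True) B A (Real.exp hi) := fun ω₀ => by
  obtain ⟨T, hT, hm⟩ := ent_bin_count P (fun ω => P'.p ω ≠ 0) A B (hi := hi) (fun ω _ hE => (h ω hE).2) ω₀
  exact ⟨T, hT, fun ω hω _ hA => hm ω (h ω hω).1 hω hA⟩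

instance nmRtNonempty : Nonempty NmRt := ⟨⟨⟨⟨NmCut.none, false, 0, 0, 0⟩, NmTp.quad, 0⟩, ⟨false, false, 0, 0, 0⟩, 0, 0, 0, 0, 0⟩⟩

/-- **E2(a)** exact quadratic sides, `x_* < p_*(a)` at countably many roots: one more conditioning of the final laws removes the exceptional events; flatness (also off power-small sets) and all conditional entropies are kept -/
theorem nm_pro_pclist (hπ : π.Valid) (S : NmSeq π C0 κ) (hX : S.HasX) (Ds : Set ℝ) (hDs : Ds.Countable) (hF : S.Flat Ds) (R : Set NmRt) (hRc : R.Countable)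
    (hR : ∀ r ∈ R, r.q.Fam π ∧ r.q.ds.De ∈ Ds ∧ r.σ.xs < S.pst r.q.ds r.a) :
    ∃ S' : NmSeq π C0 (fun τ => κ τ / 2), S'.HasX ∧ S'.Flat Ds ∧ S'.FlatP (1 / 8) Ds ∧
      (∀ L L' : List NmAt, (∀ x ∈ L, x ≠ NmAt.y0 ∧ x.Ok π Ds) → (∀ x ∈ L', x.Ok π Ds) → S'.HC (S'.ats L) (S'.ats L') = S.HC (S.ats L) (S.ats L')) ∧
      ∀ e : ℝ, 0 < e → ∀ r ∈ R, ∀ᶠ n in uf,
        ((S'.D n).P 1).NVal (fun _ => True) ((S'.D n).Pc π r.q.ds r.σ.xs) (pair (S'.D n).y0 ((S'.D n).tc r.a)) ((S'.D n).s ^ (-e)) := by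
  have hT : ∀ n, (S.D n).CndOk (fun _ => True) (S.t n) (S.t n) := fun n => Or.inl ⟨rfl, le_rfl⟩
  have e1 : ∀ n, ((S.cnd (fun _ _ => True) S.t hT hX S.lim).cq.S n).P = (S.D n).P 1 := fun n =>
    (nm_pro_cndT_P (S.D n) _).trans (nm_pro_cnd_true_law _)
  have tr : ∀ {α β : ℕ → Type} (Y : S.Obs α) (X : S.Obs β) (d : ℝ), S.cq.Homog Y X d →
      (S.cnd (fun _ _ => True) S.t hT hX S.lim).cq.Homog Y X d := by
    intro α β Y X d H
    refine ⟨H.1.congr fun n => ?_, fun η hη => (H.2 η hη).congr fun n => ?_⟩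
    · show _ = ((S.cnd (fun _ _ => True) S.t hT hX S.lim).cq.S n).P.entC (Y n) (X n) / _
      rw [e1 n]
      rfl
    · show _ = ((S.cnd (fun _ _ => True) S.t hT hX S.lim).cq.S n).P.pr
        (fun ω => η < |((S.cnd (fun _ _ => True) S.t hT hX S.lim).cq.S n).P.surC (Y n) (X n) ω / _ - d|)
      rw [e1 n]
      rfl
  obtain ⟨e, he1, he2⟩ := nm_pro_enum {x : NmAt | x.Ok π Ds ∧ x.IsQ} (nm_pro_countable π hDs)
  obtain ⟨f, hf⟩ := Set.countable_iff_exists_subset_range.1 hRc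
  obtain ⟨Gd, hGdd⟩ : ∃ Gd : ℕ → ∀ n, (S.D n).Row 1 → Prop, ∀ i n ω, Gd i n ω ↔ (f (Nat.unpair i).1 ∈ R →
      ((S.D n).P 1).surC ((S.D n).Pc π (f (Nat.unpair i).1).q.ds (f (Nat.unpair i).1).σ.xs)
        (pair (S.D n).y0 ((S.D n).tc (f (Nat.unpair i).1).a)) ω ≤ 1 / (((Nat.unpair i).2 : ℝ) + 1) * (S.D n).lgs) :=
    ⟨_, fun _ _ _ => Iff.rfl⟩
  have hGd : ∀ i, (S.cnd (fun _ _ => True) S.t hT hX S.lim).cq.Typ (Gd i) := by
    intro i
    have h0 : Tendsto (fun n => ((S.D n).P 1).pr (Gd i n)) uf (𝓝 1) := by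
      by_cases hr : f (Nat.unpair i).1 ∈ R
      · obtain ⟨a1, a2, a3⟩ := hR _ hr
        refine (nm_pro_pc_typ S Ds hF _ a1 a2 a3 (1 / (((Nat.unpair i).2 : ℝ) + 1)) (by positivity)).congr fun n => ?_
        refine ent_pr_congr _ fun ω _ => ?_
        rw [hGdd]
        exact ⟨fun h _ => h, fun h => h hr⟩
      · refine tendsto_const_nhds.congr fun n => ?_
        refine (ent_pr_eq_one _ fun ω _ => ?_).symm
        rw [hGdd]
        exact fun h => absurd h hr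
    refine h0.congr fun n => ?_
    show _ = ((S.cnd (fun _ _ => True) S.t hT hX S.lim).cq.S n).P.pr (Gd i n)
    rw [e1 n]
    rfl
  obtain ⟨G, t'', h'', hl'', hs, hsub⟩ := nm_pro_finish S hX (fun _ _ => True) S.t hT S.lim
    (fun _ n => List (NmVl (S.D n).Idx)) (fun _ n => List (NmVl (S.D n).Idx)) (fun j => S.ats (e j).1) (fun j => S.ats (e j).2)
    (fun j => S.HC (S.ats (e j).1) (S.ats (e j).2))
    (fun j => tr _ _ _ (nm_pro_flat_homog S Ds hF _ _ (fun x hx => ⟨((he1 j).1 x hx).2, ((he1 j).1 x hx).1.1⟩) (fun x hx => ((he1 j).2 x hx).1)))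
    Gd hGd
  have hfl := nm_pro_flat_of_sharp hπ (S.cnd G t'' h'' hX hl'') Ds fun L L' hL hL' => by
    obtain ⟨j, hj⟩ := he2 L L' hL hL'
    have := hs j
    rw [hj] at this
    exact ⟨_, this⟩
  refine ⟨S.cnd G t'' h'' hX hl'', nm_pro_cnd_hasX S G t'' h'' hX hl'', hfl.1, hfl.2, ?_, fun ε hε r hr => ?_⟩
  · refine nm_pro_HC_ext hπ S _ Ds fun L L' hL hL' => ?_
    obtain ⟨j, hj⟩ := he2 L L' hL hL'
    have h1 := (hs j).1
    rw [hj] at h1
    exact (nm_pro_hom_of_homog _ _ _ _ h1).2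
  · obtain ⟨k, hk⟩ := hf hr
    obtain ⟨m, hm⟩ := exists_nat_one_div_lt hε
    filter_upwards [hsub (Nat.pair k m)] with n hn
    have hs' := nm_pro_hs S n
    have hlg := nm_pro_lgs_pos S n
    have e3 : ((S.cnd G t'' h'' hX hl'').D n).P 1 = ((S.D n).P 1).cnd (G n) := nm_pro_cndT_P (S.D n) (G n)
    have key : (((S.D n).P 1).cnd (G n)).NVal (fun _ => True) ((S.D n).Pc π r.q.ds r.σ.xs) (pair (S.D n).y0 ((S.D n).tc r.a))
        (Real.exp (1 / ((m : ℝ) + 1) * (S.D n).lgs)) := by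
      refine nm_pro_nval_supp ((S.D n).P 1) _ _ _ _ fun ω hω => ⟨?_, ?_⟩
      · exact (ts_cnd_supp _ _ ω (lt_of_le_of_ne ((((S.D n).P 1).cnd (G n)).nonneg ω) (Ne.symm hω))).ne'
      · have h2 := (hGdd _ _ _).1 (hn ω (by rw [e3]; exact hω))
        simp only [Nat.unpair_pair, hk] at h2
        exact h2 hr
    have hle : Real.exp (1 / ((m : ℝ) + 1) * (S.D n).lgs) ≤ (S.D n).s ^ (-ε) := by
      rw [nm_pro_rpow_exp hs']
      exact Real.exp_le_exp.2 (mul_le_mul_of_nonneg_right hm.le hlg.le)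
    have key2 := dc_hx_nval_mono _ key hle
    rw [← e3] at key2
    exact key2

end

end Claimed.Agent.R256
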