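import Claimed.Agent.R256.Nm.Pro.Cq
import Claimed.Agent.R255.Cl.Dich.MSel

/-!
# Row 256 (S0496), unit NM, block PRO, file 4: POLYNOMIAL ALPHABETS      (architect helper156; prefix `nm_pro_`)

`S.PB y` : the real observations `y n` are bounded by a fixed negative power of the scale, `uf`-eventually, on ALL rows.   Closed under `+, -, *`, constants, `nmRep`.
`dc_msc_PA S.cq Y` (R255) : the alphabet of `Y n` has at most `C s^(-A)` elements.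
EXITS: `nm_pro_pa_nm`, `nm_pro_pa_cellq`, `nm_pro_alph` (lists of atomic queries without the particle), `nm_pro_ubdd`, `nm_pro_ubdd_ent` (normalised (conditional) entropies are bounded).
-/

set_option autoImplicit false

namespace Claimed.Agent.R256

open Claimed.Agent.R255
open Claimed.Agent.R255.FLaw (pair)
open Filter Topology
open Classical

noncomputable section

/-- the cells of depth `b` of the numbers bounded by `s^(-M)` -/
theorem nm_pro_cell_fin {s : ℝ} (hs : 0 < s ∧ s < 1) (b M : ℝ) (hM : 0 ≤ M) :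
    ∃ F : Finset ℤ, (F.card : ℝ) ≤ 7 * s ^ (-(M + |b|)) ∧ ∀ y : ℝ, |y| ≤ s ^ (-M) → nmCell s b y ∈ F := by
  obtain ⟨W, hW⟩ : ∃ W : ℝ, W = (2 : ℝ) ^ nmLev s b := ⟨_, rfl⟩
  have hW0 : 0 < W := by rw [hW]; positivity
  have hsb : 0 < s ^ b := Real.rpow_pos_of_pos hs.1 _
  have hWle : W ≤ 2 * s ^ (-b) := by
    have h1 := nm_wd_gt hs.1 hs.2 b
    unfold nmWd at h1
    rw [← hW] at h1
    rw [Real.rpow_neg hs.1.le, ← div_eq_mul_inv, le_div_iff₀ hsb]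
    have : s ^ b * W < 2 := by
      calc s ^ b * W < 2 * W⁻¹ * W := mul_lt_mul_of_pos_right h1 hW0
        _ = 2 := by field_simp
    linarith
  obtain ⟨R, hR⟩ : ∃ R : ℝ, R = s ^ (-M) * W := ⟨_, rfl⟩
  have hpM : 0 < s ^ (-M) := Real.rpow_pos_of_pos hs.1 _
  have hR0 : 0 ≤ R := by rw [hR]; positivity
  have hone : 1 ≤ s ^ (-(M + |b|)) := by
    have := nm_pro_anti hs (x := -(M + |b|)) (y := 0) (by have := abs_nonneg b; linarith)
    rwa [Real.rpow_zero] at this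
  have hRle : R ≤ 2 * s ^ (-(M + |b|)) := by
    have h1 : s ^ (-M) * s ^ (-b) ≤ s ^ (-(M + |b|)) := by
      rw [← Real.rpow_add hs.1]
      exact nm_pro_anti hs (by have := le_abs_self b; linarith)
    calc R = s ^ (-M) * W := hR
      _ ≤ s ^ (-M) * (2 * s ^ (-b)) := mul_le_mul_of_nonneg_left hWle hpM.le
      _ = 2 * (s ^ (-M) * s ^ (-b)) := by ring
      _ ≤ _ := by linarith
  refine ⟨Finset.Icc (-(⌈R⌉₊ : ℤ)) (⌈R⌉₊ : ℤ), ?_, fun y hy => ?_⟩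
  · rw [Int.card_Icc]
    have e : ((⌈R⌉₊ : ℤ) + 1 - -(⌈R⌉₊ : ℤ)).toNat = 2 * ⌈R⌉₊ + 1 := by omega
    rw [e]
    push_cast
    have h3 : (⌈R⌉₊ : ℝ) ≤ R + 1 := (Nat.ceil_lt_add_one hR0).le
    linarith
  · obtain ⟨a1, a2⟩ := abs_le.1 hy
    have h3 : R ≤ (⌈R⌉₊ : ℝ) := Nat.le_ceil _
    rw [Finset.mem_Icc]
    unfold nmCell
    rw [← hW]
    constructor
    · rw [Int.le_floor]
      push_cast
      nlinarith
    · have h5 : ((⌊y * W⌋ : ℤ) : ℝ) ≤ ((⌈R⌉₊ : ℤ) : ℝ) := by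
        push_cast
        have := Int.floor_le (y * W)
        nlinarith
      exact_mod_cast h5

variable {π : SfPar} {C0 : ℝ} {κ : ℝ → ℝ} (S : NmSeq π C0 κ)

/-- polynomially bounded real observations -/
def NmSeq.PB (y : ∀ n, (S.D n).Row 1 → ℝ) : Prop :=
  ∃ M : ℝ, 0 ≤ M ∧ ∀ᶠ n in uf, ∀ ω, |y n ω| ≤ (S.D n).s ^ (-M)

variable {S}

theorem nm_pro_s_small (S : NmSeq π C0 κ) (c : ℝ) (hc : 0 < c) : ∀ᶠ n in uf, (S.D n).s < c :=
  S.nm_pro_s_lim.eventually (gt_mem_nhds hc)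

theorem nm_pro_pb_const (c : ℝ) : S.PB (fun _ _ => c) := by
  refine ⟨1, zero_le_one, ?_⟩
  filter_upwards [nm_pro_s_small S (1 / (|c| + 1)) (by positivity)] with n hn ω
  have h0 := (nm_pro_hs S n).1
  rw [Real.rpow_neg_one]
  have : |c| + 1 < ((S.D n).s)⁻¹ := by
    rw [lt_inv_comm₀ (by positivity) h0, ← one_div]
    exact hn
  linarith

theorem nm_pro_pb_add {y y' : ∀ n, (S.D n).Row 1 → ℝ} (h : S.PB y) (h' : S.PB y') : S.PB (fun n ω => y n ω + y' n ω) := by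
  obtain ⟨M, hM, H⟩ := h
  obtain ⟨M', hM', H'⟩ := h'
  refine ⟨max M M' + 1, by positivity, ?_⟩
  filter_upwards [H, H', nm_pro_s_small S (1 / 2) (by norm_num)] with n hn hn' hs ω
  have h0 := nm_pro_hs S n
  have hp : 0 < (S.D n).s ^ (-(max M M')) := Real.rpow_pos_of_pos h0.1 _
  have e : (S.D n).s ^ (-(max M M' + 1)) = ((S.D n).s)⁻¹ * (S.D n).s ^ (-(max M M')) := by
    rw [show -(max M M' + 1) = -1 + -(max M M') by ring, Real.rpow_add h0.1, Real.rpow_neg_one]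
  have h2 : 2 < ((S.D n).s)⁻¹ := by
    rw [lt_inv_comm₀ (by norm_num) h0.1, ← one_div]
    exact hs
  have a1 : (S.D n).s ^ (-M) ≤ (S.D n).s ^ (-(max M M')) := nm_pro_anti h0 (neg_le_neg (le_max_left _ _))
  have a2 : (S.D n).s ^ (-M') ≤ (S.D n).s ^ (-(max M M')) := nm_pro_anti h0 (neg_le_neg (le_max_right _ _))
  rw [e]
  have := abs_add_le (y n ω) (y' n ω)
  nlinarith [hn ω, hn' ω]

theorem nm_pro_pb_neg {y : ∀ n, (S.D n).Row 1 → ℝ} (h : S.PB y) : S.PB (fun n ω => - y n ω) := by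
  obtain ⟨M, hM, H⟩ := h
  exact ⟨M, hM, H.mono fun n hn ω => by rw [abs_neg]; exact hn ω⟩

theorem nm_pro_pb_sub {y y' : ∀ n, (S.D n).Row 1 → ℝ} (h : S.PB y) (h' : S.PB y') : S.PB (fun n ω => y n ω - y' n ω) := by
  simpa only [sub_eq_add_neg] using nm_pro_pb_add h (nm_pro_pb_neg h')

theorem nm_pro_pb_mul {y y' : ∀ n, (S.D n).Row 1 → ℝ} (h : S.PB y) (h' : S.PB y') : S.PB (fun n ω => y n ω * y' n ω) := by
  obtain ⟨M, hM, H⟩ := h
  obtain ⟨M', hM', H'⟩ := h'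
  refine ⟨M + M', by positivity, ?_⟩
  filter_upwards [H, H'] with n hn hn' ω
  have h0 := nm_pro_hs S n
  rw [abs_mul, neg_add, Real.rpow_add h0.1]
  exact mul_le_mul (hn ω) (hn' ω) (abs_nonneg _) (Real.rpow_pos_of_pos h0.1 _).le

theorem nm_pro_pb_pow {y : ∀ n, (S.D n).Row 1 → ℝ} (h : S.PB y) (k : ℕ) : S.PB (fun n ω => y n ω ^ k) := by
  induction k with
  | zero => simpa using nm_pro_pb_const (S := S) 1
  | succ k ih => simpa only [pow_succ] using nm_pro_pb_mul ih h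

theorem nm_pro_pb_le {y : ∀ n, (S.D n).Row 1 → ℝ} (M : ℝ) (h : ∀ n ω, |y n ω| ≤ (S.D n).s ^ (-M)) : S.PB y := by
  refine ⟨|M|, abs_nonneg _, Eventually.of_forall fun n ω => (h n ω).trans ?_⟩
  exact nm_pro_anti (nm_pro_hs S n) (neg_le_neg (le_abs_self M))

theorem nm_pro_pb_rep (b : ℝ) {y : ∀ n, (S.D n).Row 1 → ℝ} (h : S.PB y) : S.PB (fun n ω => nmRep (S.D n).s b (y n ω)) := by
  have h1 : S.PB (fun n ω => y n ω - nmRep (S.D n).s b (y n ω)) :=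
    nm_pro_pb_le (-b) fun n ω => by
      rw [neg_neg]
      exact nm_rep_abs (nm_pro_hs S n).1 (nm_pro_hs S n).2 b _
  simpa only [sub_sub_cancel] using nm_pro_pb_sub h h1

/-- the cells of a polynomially bounded observation -/
theorem nm_pro_pa_cell (b : ℝ) {y : ∀ n, (S.D n).Row 1 → ℝ} (h : S.PB y) :
    dc_msc_PA S.cq (α := fun _ => ℤ) (fun n ω => nmCell (S.D n).s b (y n ω)) := by
  obtain ⟨M, hM, H⟩ := h
  refine ⟨7, M + |b|, by norm_num, H.mono fun n hn => ?_⟩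
  obtain ⟨F, hF, hm⟩ := nm_pro_cell_fin (nm_pro_hs S n) b M hM
  exact ⟨F, hF, fun ω _ => hm _ (hn ω)⟩

/-! ## the basic bounded observations -/

theorem nm_pro_core (S : NmSeq π C0 κ) (n : ℕ) : (S.D n).Core π C0 (S.t n) := (S.fine n 1 one_pos).ok.core

theorem nm_pro_gt_mem {D : SfDoc} (h1 : (1 : ℝ) ∈ D.G) (i : ℝ) : D.gt i ∈ D.G := by
  have hne : D.G.Nonempty := ⟨1, h1⟩
  unfold SfDoc.gt
  rw [dif_pos hne]
  exact (D.G.exists_min_image (fun j => |j - i|) hne).choose_spec.1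

theorem nm_pro_size_le (Q : SfTest) : |Q.x| ≤ Q.size ∧ |Q.b| ≤ Q.size ∧ |Q.al| ≤ Q.size ∧ |Q.be| ≤ Q.size ∧ |Q.K| ≤ Q.size := by
  unfold SfTest.size
  refine ⟨?_, ?_, ?_, ?_, ?_⟩ <;> simp only [le_max_iff, le_refl, true_or, or_true]

theorem nm_pro_rsize_le (z : SfRay) : |z.X| ≤ z.size ∧ |z.B| ≤ z.size ∧ |z.Y| ≤ z.size ∧ |z.N| ≤ z.size ∧ |z.D| ≤ z.size := by
  unfold SfRay.size
  refine ⟨?_, ?_, ?_, ?_, ?_⟩ <;> simp only [le_max_iff, le_refl, true_or, or_true]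

/-- the label met at a depth is polynomially bounded, its time lies in `[0,1]` -/
theorem nm_pro_lab_bd {D : SfDoc} {t : ℝ} (hc : D.Core π C0 t) (i : ℝ) (ω : D.Row 1) :
    (D.labAt i ω).size ≤ D.s ^ (-C0) ∧ |(D.labAt i ω).T| ≤ 1 := by
  have hpos : 0 < D.s ^ (-C0) := Real.rpow_pos_of_pos hc.hs.1 _
  have key : ∀ j ∈ D.G, ∀ ρ : D.Row j, (D.lab j ρ).size ≤ D.s ^ (-C0) ∧ |(D.lab j ρ).T| ≤ 1 := by
    intro j hj ρ
    refine ⟨(hc.bdd j hj ρ).2, ?_⟩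
    obtain ⟨-, -, -, h4, h5⟩ := hc.own j hj ρ
    have hl : 0 < D.len j := lt_of_lt_of_le (Real.rpow_pos_of_pos hc.hs.1 _) (hc.hlen.2 j hj).1
    unfold SfDoc.T at h4 h5
    rw [abs_of_nonneg h4]
    linarith
  unfold SfDoc.labAt
  split_ifs with h1 h2
  · exact key 1 hc.gate.1 ω
  · exact key _ (nm_pro_gt_mem hc.gate.1 i) _
  · constructor
    · simp [sfZero, SfTest.size, hpos.le]
    · simp [sfZero]

theorem nm_pro_pb_ray : S.PB (fun n ω => ((S.D n).ray 1 ω).X) ∧ S.PB (fun n ω => ((S.D n).ray 1 ω).B) ∧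
    S.PB (fun n ω => ((S.D n).ray 1 ω).Y) ∧ S.PB (fun n ω => ((S.D n).ray 1 ω).N) ∧ S.PB (fun n ω => ((S.D n).ray 1 ω).D) := by
  have h : ∀ n ω, ((S.D n).ray 1 ω).size ≤ (S.D n).s ^ (-C0) := fun n ω =>
    ((nm_pro_core S n).bdd 1 (nm_pro_core S n).gate.1 ω).1
  exact ⟨nm_pro_pb_le C0 fun n ω => (nm_pro_rsize_le _).1.trans (h n ω),
    nm_pro_pb_le C0 fun n ω => (nm_pro_rsize_le _).2.1.trans (h n ω),
    nm_pro_pb_le C0 fun n ω => (nm_pro_rsize_le _).2.2.1.trans (h n ω),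
    nm_pro_pb_le C0 fun n ω => (nm_pro_rsize_le _).2.2.2.1.trans (h n ω),
    nm_pro_pb_le C0 fun n ω => (nm_pro_rsize_le _).2.2.2.2.trans (h n ω)⟩

theorem nm_pro_pb_lab (i : ℝ) : S.PB (fun n ω => ((S.D n).labAt i ω).T) ∧ S.PB (fun n ω => ((S.D n).labAt i ω).x) ∧
    S.PB (fun n ω => ((S.D n).labAt i ω).b) ∧ S.PB (fun n ω => ((S.D n).labAt i ω).al) ∧
    S.PB (fun n ω => ((S.D n).labAt i ω).be) ∧ S.PB (fun n ω => ((S.D n).labAt i ω).K) := by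
  have h : ∀ n ω, ((S.D n).labAt i ω).size ≤ (S.D n).s ^ (-C0) := fun n ω => (nm_pro_lab_bd (nm_pro_core S n) i ω).1
  refine ⟨nm_pro_pb_le 0 fun n ω => ?_,
    nm_pro_pb_le C0 fun n ω => (nm_pro_size_le _).1.trans (h n ω),
    nm_pro_pb_le C0 fun n ω => (nm_pro_size_le _).2.1.trans (h n ω),
    nm_pro_pb_le C0 fun n ω => (nm_pro_size_le _).2.2.1.trans (h n ω),
    nm_pro_pb_le C0 fun n ω => (nm_pro_size_le _).2.2.2.1.trans (h n ω),
    nm_pro_pb_le C0 fun n ω => (nm_pro_size_le _).2.2.2.2.trans (h n ω)⟩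
  rw [neg_zero, Real.rpow_zero]
  exact (nm_pro_lab_bd (nm_pro_core S n) i ω).2

theorem nm_pro_pb_T : S.PB (fun n ω => (S.D n).T 1 ω) := by
  have := (nm_pro_pb_lab (S := S) 1).1
  refine this.imp fun M hM => ⟨hM.1, hM.2.mono fun n hn ω => ?_⟩
  have e : (S.D n).labAt 1 ω = (S.D n).lab 1 ω := if_pos rfl
  have h2 : |((S.D n).labAt 1 ω).T| ≤ (S.D n).s ^ (-M) := hn ω
  rw [e] at h2
  exact h2

/-! ## raw data and names -/

/-- a sequence of raw data with polynomially bounded entries -/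
structure NmSeq.PBraw (S : NmSeq π C0 κ) (x : ∀ n, (S.D n).Row 1 → NmRaw) : Prop where
  T : S.PB (fun n ω => (x n ω).T)
  Te : S.PB (fun n ω => (x n ω).Te)
  X : S.PB (fun n ω => (x n ω).z.X)
  B : S.PB (fun n ω => (x n ω).z.B)
  Y : S.PB (fun n ω => (x n ω).z.Y)
  N : S.PB (fun n ω => (x n ω).z.N)
  D : S.PB (fun n ω => (x n ω).z.D)
  P : S.PB (fun n ω => (x n ω).P)
  be : S.PB (fun n ω => (x n ω).be)
  K : S.PB (fun n ω => (x n ω).K)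
  kb : dc_msc_PA S.cq (α := fun _ => ℤ) (fun n ω => (x n ω).kb)

theorem nm_pro_pb_kbar (ds : NmDs) : S.PB (fun n ω => (S.D n).kbar π ds ω) := by
  unfold SfDoc.kbar
  by_cases h : ds.glob = true
  · simp only [h, if_true]
    exact nm_pro_pb_rep _ (nm_pro_pb_lab ds.De).2.2.2.2.2
  · simp only [h]
    exact nm_pro_pb_const 0

theorem nm_pro_pbraw (ds : NmDs) : S.PBraw (fun n ω => (S.D n).raw π ds ω) := by
  obtain ⟨rX, rB, rY, rN, rD⟩ := nm_pro_pb_ray (S := S)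
  obtain ⟨lT, lx, lb, lal, lbe, lK⟩ := nm_pro_pb_lab (S := S) ds.De
  have kb := nm_pro_pb_kbar (S := S) ds
  have two := nm_pro_pb_const (S := S) 2
  have hPc : S.PB (fun n ω => ((S.D n).labAt ds.De ω).Pc) :=
    nm_pro_pb_sub (nm_pro_pb_add lal (nm_pro_pb_mul (nm_pro_pb_mul two lbe) lx)) (nm_pro_pb_mul (nm_pro_pb_mul two lK) lb)
  have hPd : S.PB (fun n ω => ((S.D n).labAt ds.De ω).Pd ((S.D n).ray 1 ω)) :=
    nm_pro_pb_sub (nm_pro_pb_add lal (nm_pro_pb_mul (nm_pro_pb_mul two lbe) rX))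
      (nm_pro_pb_mul (nm_pro_pb_mul two lK) (nm_pro_pb_add rB (nm_pro_pb_mul lT rX)))
  refine ⟨nm_pro_pb_T, lT, rX, rB, rY,
    nm_pro_pb_sub rN (nm_pro_pb_mul kb (nm_pro_pb_sub rY (nm_pro_pb_mul (nm_pro_pb_mul two rX) rB))),
    nm_pro_pb_add rD (nm_pro_pb_mul kb (nm_pro_pb_pow rB 2)), ?_,
    nm_pro_pb_sub lbe (nm_pro_pb_mul kb lT), nm_pro_pb_sub lK kb, ?_⟩
  · have h2 := nm_pro_pb_mul (nm_pro_pb_mul two kb) rB
    cases hc : ds.cut with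
    | slope => simpa only [SfDoc.raw, hc] using nm_pro_pb_add hPd h2
    | const => simpa only [SfDoc.raw, hc] using nm_pro_pb_add hPd h2
    | none => simpa only [SfDoc.raw, hc] using nm_pro_pb_add hPc h2
  · by_cases h : ds.glob = true
    · simp only [SfDoc.raw, h, if_true]
      exact nm_pro_pa_cell _ lK
    · simp only [SfDoc.raw, h]
      exact dc_msc_pa_const S.cq (0 : ℤ)

section name

variable {x : ∀ n, (S.D n).Row 1 → NmRaw} (hx : S.PBraw x) (q : NmQ) (a v : ℝ)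
include hx

theorem nm_pro_pb_ta : S.PB (fun n ω => (x n ω).ta (S.D n).s a) := nm_pro_pb_rep a hx.T

theorem nm_pro_pb_Rraw : S.PB (fun n ω => (x n ω).Rraw (S.D n).s q a) := by
  cases hc : q.ds.cut with
  | slope => simpa only [NmRaw.Rraw, hc] using nm_pro_pb_add hx.be (nm_pro_pb_mul (nm_pro_pb_sub (nm_pro_pb_ta hx a) hx.Te) hx.K)
  | const => simpa only [NmRaw.Rraw, hc] using hx.be
  | none => simpa only [NmRaw.Rraw, hc] using nm_pro_pb_const (S := S) 0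

theorem nm_pro_pb_kraw : S.PB (fun n ω => (x n ω).kraw q) := by
  cases hc : q.ds.cut with
  | slope => simpa only [NmRaw.kraw, hc] using hx.K
  | const => simpa only [NmRaw.kraw, hc] using nm_pro_pb_const (S := S) 0
  | none => simpa only [NmRaw.kraw, hc] using nm_pro_pb_const (S := S) 0

theorem nm_pro_pb_Ra : S.PB (fun n ω => (x n ω).Ra (S.D n).s q a) := nm_pro_pb_rep _ (nm_pro_pb_Rraw hx q a)

theorem nm_pro_pb_ka : S.PB (fun n ω => (x n ω).ka (S.D n).s q a) := nm_pro_pb_rep _ (nm_pro_pb_kraw hx q)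

theorem nm_pro_pb_Bt : S.PB (fun n ω => (x n ω).z.Bt ((x n ω).ta (S.D n).s a)) :=
  nm_pro_pb_add hx.B (nm_pro_pb_mul (nm_pro_pb_ta hx a) hx.X)

theorem nm_pro_pb_Yt : S.PB (fun n ω => (x n ω).z.Yt ((x n ω).ta (S.D n).s a)) :=
  nm_pro_pb_add hx.Y (nm_pro_pb_mul (nm_pro_pb_ta hx a) (nm_pro_pb_pow hx.X 2))

theorem nm_pro_pb_Dt : S.PB (fun n ω => (x n ω).z.Dt ((x n ω).ta (S.D n).s a)) :=
  nm_pro_pb_add hx.D (nm_pro_pb_mul (nm_pro_pb_ta hx a) hx.N)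

theorem nm_pro_pb_Lraw : S.PB (fun n ω => (x n ω).Lraw (S.D n).s q a) :=
  nm_pro_pb_add (nm_pro_pb_sub hx.P (nm_pro_pb_mul (nm_pro_pb_mul (nm_pro_pb_const 2) (nm_pro_pb_Ra hx q a)) hx.X))
    (nm_pro_pb_mul (nm_pro_pb_mul (nm_pro_pb_const 2) (nm_pro_pb_ka hx q a)) (nm_pro_pb_Bt hx a))

theorem nm_pro_pb_La : S.PB (fun n ω => (x n ω).La (S.D n).s π q a v) := nm_pro_pb_rep _ (nm_pro_pb_Lraw hx q a)

theorem nm_pro_pb_Nres : S.PB (fun n ω => (x n ω).Nres (S.D n).s π q a v) :=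
  nm_pro_pb_sub (nm_pro_pb_sub (nm_pro_pb_sub hx.N (nm_pro_pb_mul (nm_pro_pb_La hx q a v) hx.X))
    (nm_pro_pb_mul (nm_pro_pb_Ra hx q a) (nm_pro_pb_pow hx.X 2)))
    (nm_pro_pb_mul (nm_pro_pb_ka hx q a) (nm_pro_pb_sub (nm_pro_pb_Yt hx a)
      (nm_pro_pb_mul (nm_pro_pb_mul (nm_pro_pb_const 2) hx.X) (nm_pro_pb_Bt hx a))))

theorem nm_pro_pb_Dres : S.PB (fun n ω => (x n ω).Dres (S.D n).s π q a v) :=
  nm_pro_pb_add (nm_pro_pb_sub (nm_pro_pb_sub (nm_pro_pb_Dt hx a) (nm_pro_pb_mul (nm_pro_pb_La hx q a v) (nm_pro_pb_Bt hx a)))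
    (nm_pro_pb_mul (nm_pro_pb_Ra hx q a) (nm_pro_pb_Yt hx a)))
    (nm_pro_pb_mul (nm_pro_pb_ka hx q a) (nm_pro_pb_pow (nm_pro_pb_Bt hx a) 2))

/-- **the names have polynomial alphabets** -/
theorem nm_pro_pa_name : dc_msc_PA S.cq (α := fun _ => NmNm) (fun n ω => (x n ω).name (S.D n).s π q a v) := by
  have h1 := dc_msc_pa_map2 S.cq (fun _ (a b : ℤ) => (a, b)) hx.kb (nm_pro_pa_cell a hx.T)
  have h2 := dc_msc_pa_map2 S.cq (fun _ (a b : ℤ) => (a, b)) (nm_pro_pa_cell (q.ds.b a) (nm_pro_pb_Rraw hx q a))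
    (nm_pro_pa_cell (q.ds.b a - a) (nm_pro_pb_kraw hx q))
  have h3 := dc_msc_pa_map2 S.cq (fun _ (a b : ℤ) => (a, b)) (nm_pro_pa_cell (q.l π a v) (nm_pro_pb_Lraw hx q a))
    (nm_pro_pa_cell v hx.X)
  have h4 := dc_msc_pa_map2 S.cq (fun _ (a b : ℤ) => (a, b)) (nm_pro_pa_cell (a + v) (nm_pro_pb_Bt hx a))
    (nm_pro_pa_cell (a + 2 * v) (nm_pro_pb_sub (nm_pro_pb_Yt hx a)
      (nm_pro_pb_mul (nm_pro_pb_mul (nm_pro_pb_const 2) (nm_pro_pb_rep v hx.X)) (nm_pro_pb_Bt hx a))))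
  have h5 := dc_msc_pa_map2 S.cq (fun _ (a b : ℤ) => (a, b)) (nm_pro_pa_cell (q.w π a v - q.g) (nm_pro_pb_Nres hx q a v))
    (nm_pro_pa_cell (a + q.w π a v - q.g) (nm_pro_pb_Dres hx q a v))
  have h12 := dc_msc_pa_map2 S.cq (fun _ (a b : ℤ × ℤ) => (a, b)) h1 h2
  have h34 := dc_msc_pa_map2 S.cq (fun _ (a b : ℤ × ℤ) => (a, b)) h3 h4
  have h1234 := dc_msc_pa_map2 S.cq (fun _ (a b : (ℤ × ℤ) × (ℤ × ℤ)) => (a, b)) h12 h34
  exact dc_msc_pa_map2 S.cq (fun _ (a : ((ℤ × ℤ) × (ℤ × ℤ)) × ((ℤ × ℤ) × (ℤ × ℤ))) (b : ℤ × ℤ) =>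
    (⟨a.1.1.1, a.1.1.2, a.1.2.1, a.1.2.2, a.2.1.1, a.2.1.2, a.2.2.1, a.2.2.2, b.1, b.2⟩ : NmNm)) h1234 h5

end name

/-! ## atomic queries, lists -/

theorem nm_pro_pa_map1 {α β : ℕ → Type} {Y : S.Obs α} (f : ∀ n, α n → β n) (h : dc_msc_PA S.cq Y) :
    dc_msc_PA S.cq (α := β) (fun n ω => f n (Y n ω)) :=
  dc_msc_pa_map2 S.cq (fun n a (_ : Unit) => f n a) h (dc_msc_pa_const S.cq ())

theorem nm_pro_pa_nm (q : NmQ) (a v : ℝ) : dc_msc_PA S.cq (S.nm q a v) := nm_pro_pa_name (nm_pro_pbraw q.ds) q a v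

theorem nm_pro_pa_Xc (x : ℝ) : dc_msc_PA S.cq (S.Xc x) := nm_pro_pa_cell x nm_pro_pb_ray.1

theorem nm_pro_pa_tc (z : ℝ) : dc_msc_PA S.cq (S.tc z) := nm_pro_pa_cell z nm_pro_pb_T

theorem nm_pro_pa_Pc (ds : NmDs) (x : ℝ) : dc_msc_PA S.cq (α := fun _ => ℤ) (fun n => (S.D n).Pc π ds x) :=
  nm_pro_pa_cell x (nm_pro_pbraw ds).P

theorem nm_pro_pa_bc (ds : NmDs) (x : ℝ) : dc_msc_PA S.cq (α := fun _ => ℤ) (fun n => (S.D n).bc π ds x) :=
  nm_pro_pa_cell x (nm_pro_pbraw ds).be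

theorem nm_pro_pa_atq (x : NmAt) (hx : x ≠ NmAt.y0) :
    dc_msc_PA S.cq (α := fun n => NmVl (S.D n).Idx) (fun n => (S.D n).atq π x) := by
  cases x with
  | nm q a v => exact nm_pro_pa_map1 (fun _ c => Sum.inl c) (nm_pro_pa_nm q a v)
  | Xc x => exact nm_pro_pa_map1 (fun _ c => Sum.inr (Sum.inl c)) (nm_pro_pa_Xc x)
  | tc z => exact nm_pro_pa_map1 (fun _ c => Sum.inr (Sum.inl c)) (nm_pro_pa_tc z)
  | Pc ds x => exact nm_pro_pa_map1 (fun _ c => Sum.inr (Sum.inl c)) (nm_pro_pa_Pc ds x)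
  | bc ds x => exact nm_pro_pa_map1 (fun _ c => Sum.inr (Sum.inl c)) (nm_pro_pa_bc ds x)
  | y0 => exact absurd rfl hx

theorem nm_pro_pa_ats (L : List NmAt) (hL : ∀ x ∈ L, x ≠ NmAt.y0) : dc_msc_PA S.cq (S.ats L) := by
  induction L with
  | nil => exact ⟨1, 0, zero_le_one, Eventually.of_forall fun n => ⟨{[]}, by simp, fun ω _ => by simp [NmSeq.ats, SfDoc.ats]⟩⟩
  | cons x L ih =>
    exact dc_msc_pa_map2 S.cq (fun _ a l => a :: l) (nm_pro_pa_atq x (hL x List.mem_cons_self))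
      (ih fun y hy => hL y (List.mem_cons_of_mem _ hy))

/-- **lists of atomic queries without the particle have polynomial alphabets** -/
theorem nm_pro_alph (S : NmSeq π C0 κ) (L : List NmAt) (hL : ∀ x ∈ L, x ≠ NmAt.y0) : ∃ A : ℝ, S.cq.Alph (S.ats L) A :=
  dc_msc_pa_alph S.cq (nm_pro_pa_ats L hL)

/-! ## bounded normalised entropies -/

theorem nm_pro_ent_le {α : ℕ → Type} {Y : S.Obs α} {A : ℝ} (h : S.cq.Alph Y A) :
    ∀ᶠ n in uf, ((S.D n).P 1).ent (Y n) ≤ A * (S.D n).lgs := by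
  filter_upwards [h] with n hn
  obtain ⟨F, hF, hm⟩ := hn
  have hpos : ∀ ω, ((S.D n).P 1).p ω ≠ 0 → 0 < ((S.D n).P 1).p ω := fun ω h => lt_of_le_of_ne (((S.D n).P 1).nonneg ω) (Ne.symm h)
  obtain ⟨ω₁, hω₁⟩ := ent_exists_supp ((S.D n).P 1)
  have hc : (0 : ℝ) < F.card := by
    have : 0 < F.card := Finset.card_pos.2 ⟨_, hm ω₁ (hpos ω₁ hω₁)⟩
    exact_mod_cast this
  refine (ent_le_log_card ((S.D n).P 1) (Y n) F fun ω hω => hm ω (hpos ω hω)).trans ((Real.log_le_log hc hF).trans (le_of_eq ?_))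
  show Real.log ((S.D n).s ^ (-A)) = A * lg (S.D n).s
  unfold lg
  rw [Real.log_rpow (nm_pro_hs S n).1, one_div, Real.log_inv]
  ring

theorem nm_pro_ubdd_ent {α : ℕ → Type} {Y : S.Obs α} {A : ℝ} (h : S.cq.Alph Y A) :
    UBdd (fun n => ((S.D n).P 1).ent (Y n) / (S.D n).lgs) := by
  refine UBdd.of_le 0 A ?_
  filter_upwards [nm_pro_ent_le h] with n hn
  have hl := nm_pro_lgs_pos S n
  exact ⟨div_nonneg (ent_nonneg _ _) hl.le, (div_le_iff₀ hl).2 hn⟩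

theorem nm_pro_ubdd {α β : ℕ → Type} {Y : S.Obs α} (X : S.Obs β) {A : ℝ} (h : S.cq.Alph Y A) : UBdd (S.cq.seqHC Y X) := by
  refine UBdd.of_le 0 A ?_
  filter_upwards [nm_pro_ent_le h] with n hn
  have hl := nm_pro_lgs_pos S n
  exact ⟨div_nonneg (ent_entC_nonneg _ _ _) hl.le, (div_le_iff₀ hl).2 ((ent_entC_le _ _ _).trans hn)⟩

theorem nm_pro_alph_eqns_cite : True := by
  have := @NmSeq.PB.eq_1
  trivial

end

end Claimed.Agent.R256
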