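import Claimed.Agent.R256.Nm.Pro.Alph

/-!
# Row 256 (S0496), unit NM, block PRO, file 5: MUTUAL LISTS OF CLOSE QUERIES      (architect helper156; prefix `nm_pro_`)

`nmLs f g N` : deterministic lists (the value of `f` lists the value of `g` with `≤ N` candidates); composition, passage to `FLaw.NVal`.
* `nm_pro_cell_ls` : cells of one real number at two depths;  `nm_pro_ls_g` : change of the enlargement `g` of a name;  `nm_pro_ls_nm` : names at two close parameters `(g, a, v)` (X1 = `nm_refine_cmp`).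
* `NmAt.Close ν x x'`, `NmAt.cst π x`, `NmAt.Gk π x`;  `nm_pro_amb_at`, `nm_pro_amb_list`, `nm_pro_amb` : `dc_hx_Amb` (R255) of two close conditional queries with `N = exp (C (ν log (1/s) + 1))`.
-/

set_option autoImplicit false

namespace Claimed.Agent.R256

open Claimed.Agent.R255
open Claimed.Agent.R255.FLaw (pair)
open Filter Topology
open Classical

noncomputable section

/-! ## deterministic lists -/

/-- the value of `f` lists the value of `g` with at most `N` candidates -/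
def nmLs {X α β : Type} (f : X → α) (g : X → β) (N : ℝ) : Prop :=
  ∀ c : α, ∃ S : Finset β, (S.card : ℝ) ≤ N ∧ ∀ x, f x = c → g x ∈ S

theorem nm_pro_ls_trans {X α β γ : Type} {f : X → α} {g : X → β} {h : X → γ} {N M : ℝ} (hM : 0 ≤ M) (h1 : nmLs f g N) (h2 : nmLs g h M) :
    nmLs f h (N * M) := by
  intro c
  obtain ⟨S, hS, hS'⟩ := h1 c
  choose T hT hT' using h2
  refine ⟨S.biUnion T, ?_, fun x hx => Finset.mem_biUnion.2 ⟨g x, hS' x hx, hT' _ x rfl⟩⟩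
  have h3 : ((S.biUnion T).card : ℝ) ≤ ∑ b ∈ S, ((T b).card : ℝ) := by exact_mod_cast Finset.card_biUnion_le
  refine h3.trans ((Finset.sum_le_sum fun b _ => hT b).trans ?_)
  rw [Finset.sum_const, nsmul_eq_mul]
  exact mul_le_mul_of_nonneg_right hS hM

theorem nm_pro_ls_mono {X α β : Type} {f : X → α} {g : X → β} {N N' : ℝ} (h : nmLs f g N) (hN : N ≤ N') : nmLs f g N' := fun c => by
  obtain ⟨S, hS, hS'⟩ := h c
  exact ⟨S, hS.trans hN, hS'⟩

/-- lists give `NVal` on every law -/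
theorem nm_pro_ls_nval {Ω X α β α' β' : Type} [Fintype Ω] (P : FLaw Ω) {f : X → α} {g : X → β} {N : ℝ} (h : nmLs f g N) (r : Ω → X)
    (φ : β → β') (ψ : α → α') (hψ : Function.Injective ψ) :
    P.NVal (fun _ => True) (fun ω => φ (g (r ω))) (fun ω => ψ (f (r ω))) N := fun ω₀ => by
  obtain ⟨S, hS, hS'⟩ := h (f (r ω₀))
  refine ⟨S.image φ, ?_, fun ω _ _ hA => Finset.mem_image_of_mem _ (hS' _ (hψ hA))⟩
  have : ((S.image φ).card : ℝ) ≤ S.card := by exact_mod_cast Finset.card_image_le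
  exact this.trans hS

/-! ## cells at two depths -/

theorem nm_pro_lev {s : ℝ} (hs : 0 < s ∧ s < 1) (b b' ν : ℝ) (hν : |b - b'| ≤ ν) :
    (2 : ℝ) ^ (nmLev s b) / 2 ^ (nmLev s b') ≤ 2 * Real.exp (ν * lg s) := by
  have hL : 0 < Real.logb 2 (1 / s) := nm_aux_logb_pos hs.1 hs.2
  have hk : ((nmLev s b : ℤ) : ℝ) ≤ b * Real.logb 2 (1 / s) + 1 := (Int.ceil_lt_add_one _).le
  have hk' : b' * Real.logb 2 (1 / s) ≤ ((nmLev s b' : ℤ) : ℝ) := Int.le_ceil _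
  have hd : b * Real.logb 2 (1 / s) - b' * Real.logb 2 (1 / s) ≤ ν * Real.logb 2 (1 / s) := by
    have := (abs_le.1 hν).2
    nlinarith
  have e1 : (2 : ℝ) ^ (nmLev s b) / 2 ^ (nmLev s b') = (2 : ℝ) ^ (((nmLev s b : ℤ) : ℝ) - ((nmLev s b' : ℤ) : ℝ)) := by
    rw [Real.rpow_sub (by norm_num), Real.rpow_intCast, Real.rpow_intCast]
  rw [e1]
  have e2 : (2 : ℝ) ^ (ν * Real.logb 2 (1 / s) + 1) = 2 * Real.exp (ν * lg s) := by
    rw [Real.rpow_add (by norm_num), Real.rpow_one, mul_comm, Real.rpow_def_of_pos (by norm_num)]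
    congr 2
    unfold lg Real.logb
    have : Real.log 2 ≠ 0 := (Real.log_pos (by norm_num)).ne'
    field_simp
  rw [← e2]
  exact Real.rpow_le_rpow_of_exponent_le (by norm_num) (by linarith)

/-- the cells of depth `b` inside a cell of depth `b'` -/
theorem nm_pro_cell_ls {s : ℝ} (hs : 0 < s ∧ s < 1) (b b' ν : ℝ) (hν : |b - b'| ≤ ν) :
    nmLs (nmCell s b') (nmCell s b) (4 * Real.exp (ν * lg s)) := by
  intro j'
  obtain ⟨r, hr⟩ : ∃ r : ℝ, r = (2 : ℝ) ^ (nmLev s b) / 2 ^ (nmLev s b') := ⟨_, rfl⟩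
  have hr0 : 0 < r := by rw [hr]; positivity
  have hr1 : r ≤ 2 * Real.exp (ν * lg s) := by rw [hr]; exact nm_pro_lev hs b b' ν hν
  have hν0 : 0 ≤ ν := (abs_nonneg _).trans hν
  have hl : 0 < lg s := by unfold lg; exact Real.log_pos ((one_lt_div hs.1).2 hs.2)
  have hexp : 1 ≤ Real.exp (ν * lg s) := Real.one_le_exp (by positivity)
  refine ⟨Finset.Icc ⌊(j' : ℝ) * r⌋ (⌈((j' : ℝ) + 1) * r⌉ - 1), ?_, fun c hc => ?_⟩
  · rw [Int.card_Icc]
    have h2 : ((⌈((j' : ℝ) + 1) * r⌉ - 1 + 1 - ⌊(j' : ℝ) * r⌋ : ℤ) : ℝ) ≤ r + 2 := by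
      push_cast
      have a1 := Int.ceil_lt_add_one (((j' : ℝ) + 1) * r)
      have a2 := Int.sub_one_lt_floor ((j' : ℝ) * r)
      linarith
    have h3 : (((⌈((j' : ℝ) + 1) * r⌉ - 1 + 1 - ⌊(j' : ℝ) * r⌋ : ℤ).toNat : ℕ) : ℝ) ≤ r + 2 := by
      rcases le_total 0 (⌈((j' : ℝ) + 1) * r⌉ - 1 + 1 - ⌊(j' : ℝ) * r⌋ : ℤ) with h | h
      · have : (((⌈((j' : ℝ) + 1) * r⌉ - 1 + 1 - ⌊(j' : ℝ) * r⌋ : ℤ).toNat : ℕ) : ℝ) =
            ((⌈((j' : ℝ) + 1) * r⌉ - 1 + 1 - ⌊(j' : ℝ) * r⌋ : ℤ) : ℝ) := by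
          exact_mod_cast congrArg (fun z : ℤ => (z : ℝ)) (Int.toNat_of_nonneg h)
        rw [this]; exact h2
      · rw [Int.toNat_of_nonpos h]; simp; linarith
    linarith
  · unfold nmCell at hc ⊢
    have b1 : (j' : ℝ) ≤ c * 2 ^ (nmLev s b') := by rw [← hc]; exact Int.floor_le _
    have b2 : c * 2 ^ (nmLev s b') < (j' : ℝ) + 1 := by rw [← hc]; exact Int.lt_floor_add_one _
    have e : c * 2 ^ (nmLev s b) = c * 2 ^ (nmLev s b') * r := by rw [hr]; field_simp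
    rw [Finset.mem_Icc, e]
    constructor
    · exact Int.floor_le_floor (mul_le_mul_of_nonneg_right b1 hr0.le)
    · have b3 : c * 2 ^ (nmLev s b') * r < ((j' : ℝ) + 1) * r := mul_lt_mul_of_pos_right b2 hr0
      have b4 : ((⌊c * 2 ^ (nmLev s b') * r⌋ : ℤ) : ℝ) < ((⌈((j' : ℝ) + 1) * r⌉ : ℤ) : ℝ) :=
        lt_of_le_of_lt (Int.floor_le _) (b3.trans_le (Int.le_ceil _))
      have b5 : ⌊c * 2 ^ (nmLev s b') * r⌋ < ⌈((j' : ℝ) + 1) * r⌉ := by exact_mod_cast b4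
      omega

/-! ## names at two parameters -/

/-- change of the enlargement -/
theorem nm_pro_ls_g {s : ℝ} (hs : 0 < s ∧ s < 1) (π : SfPar) (ds : NmDs) (tp : NmTp) (g g' ν a v : ℝ) (hν : |g - g'| ≤ ν) :
    nmLs (fun x : NmRaw => x.name s π ⟨ds, tp, g⟩ a v) (fun x : NmRaw => x.name s π ⟨ds, tp, g'⟩ a v) (16 * Real.exp (2 * (ν * lg s))) := by
  intro c
  have hw : (⟨ds, tp, g'⟩ : NmQ).w π a v = (⟨ds, tp, g⟩ : NmQ).w π a v := rfl
  obtain ⟨F1, hF1, hF1'⟩ := nm_pro_cell_ls hs ((⟨ds, tp, g⟩ : NmQ).w π a v - g') ((⟨ds, tp, g⟩ : NmQ).w π a v - g) ν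
    (by rw [show (⟨ds, tp, g⟩ : NmQ).w π a v - g' - ((⟨ds, tp, g⟩ : NmQ).w π a v - g) = g - g' by ring]; exact hν) c.N
  obtain ⟨F2, hF2, hF2'⟩ := nm_pro_cell_ls hs (a + (⟨ds, tp, g⟩ : NmQ).w π a v - g') (a + (⟨ds, tp, g⟩ : NmQ).w π a v - g) ν
    (by rw [show a + (⟨ds, tp, g⟩ : NmQ).w π a v - g' - (a + (⟨ds, tp, g⟩ : NmQ).w π a v - g) = g - g' by ring]; exact hν) c.D
  refine ⟨(F1 ×ˢ F2).image (fun p => ({ c with N := p.1, D := p.2 } : NmNm)), ?_, fun x hx => ?_⟩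
  · have c1 : (((F1 ×ˢ F2).image (fun p : ℤ × ℤ => ({ c with N := p.1, D := p.2 } : NmNm))).card : ℝ) ≤ (F1.card : ℝ) * F2.card := by
      have := Finset.card_image_le (s := F1 ×ˢ F2) (f := fun p : ℤ × ℤ => ({ c with N := p.1, D := p.2 } : NmNm))
      rw [Finset.card_product] at this
      exact_mod_cast this
    have c2 : (F1.card : ℝ) * F2.card ≤ (4 * Real.exp (ν * lg s)) * (4 * Real.exp (ν * lg s)) :=
      mul_le_mul hF1 hF2 (Nat.cast_nonneg _) (by positivity)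
    have c3 : (4 * Real.exp (ν * lg s)) * (4 * Real.exp (ν * lg s)) = 16 * Real.exp (2 * (ν * lg s)) := by
      rw [two_mul, Real.exp_add]; ring
    linarith
  · subst hx
    refine Finset.mem_image.2 ⟨(nmCell s ((⟨ds, tp, g⟩ : NmQ).w π a v - g') (x.Nres s π ⟨ds, tp, g⟩ a v),
      nmCell s (a + (⟨ds, tp, g⟩ : NmQ).w π a v - g') (x.Dres s π ⟨ds, tp, g⟩ a v)),
      Finset.mem_product.2 ⟨hF1' _ rfl, hF2' _ rfl⟩, rfl⟩

theorem nm_pro_lg_pos {s : ℝ} (hs : 0 < s ∧ s < 1) : 0 < lg s := by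
  unfold lg; exact Real.log_pos ((one_lt_div hs.1).2 hs.2)

theorem nm_pro_rpow_exp {s : ℝ} (hs : 0 < s ∧ s < 1) (y : ℝ) : s ^ (-y) = Real.exp (y * lg s) := by
  rw [Real.rpow_def_of_pos hs.1]
  congr 1
  unfold lg
  rw [one_div, Real.log_inv]
  ring

/-- the constant of the lists of an atomic query -/
def NmAt.cst (π : SfPar) : NmAt → ℝ
  | NmAt.nm q _ _ => 2 * q.Cr π + 2 + 2 * Real.log nmK0 + Real.log 16
  | _ => 2

/-- the hypothesis of NM-GEO on an atomic query -/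
def NmAt.Gk (π : SfPar) : NmAt → Prop
  | NmAt.nm q _ _ => q.Ok π
  | _ => True

/-- two atomic queries of the same kind with all real parameters within `ν` -/
def NmAt.Close (ν : ℝ) : NmAt → NmAt → Prop
  | NmAt.nm q a v, NmAt.nm q' a' v' => q'.ds = q.ds ∧ q'.tp = q.tp ∧ |q.g - q'.g| ≤ ν ∧ |a - a'| ≤ ν ∧ |v - v'| ≤ ν
  | NmAt.Xc x, NmAt.Xc x' => |x - x'| ≤ ν
  | NmAt.tc x, NmAt.tc x' => |x - x'| ≤ ν
  | NmAt.Pc ds x, NmAt.Pc ds' x' => ds' = ds ∧ |x - x'| ≤ ν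
  | NmAt.bc ds x, NmAt.bc ds' x' => ds' = ds ∧ |x - x'| ≤ ν
  | NmAt.y0, NmAt.y0 => True
  | _, _ => False

theorem nm_pro_K0_log : 0 ≤ Real.log nmK0 := Real.log_nonneg (by unfold nmK0; norm_num)

theorem nm_pro_Cr_nonneg {q : NmQ} {π : SfPar} (hq : q.Ok π) : 0 ≤ q.Cr π := by
  unfold NmQ.Cr
  have := hq.1
  positivity

/-- names at two close parameters -/
theorem nm_pro_ls_nm {s : ℝ} (hs : 0 < s ∧ s < 1) {π : SfPar} (ds : NmDs) (tp : NmTp) (g g' : ℝ) (hq : (⟨ds, tp, g⟩ : NmQ).Ok π)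
    (ν a v a' v' : ℝ) (hν : 0 ≤ ν) (hg : |g - g'| ≤ ν) (ha : |a - a'| ≤ ν) (hv : |v - v'| ≤ ν) :
    nmLs (fun x : NmRaw => x.name s π ⟨ds, tp, g⟩ a v) (fun x : NmRaw => x.name s π ⟨ds, tp, g'⟩ a' v')
        (Real.exp ((NmAt.nm ⟨ds, tp, g⟩ a v).cst π * (ν * lg s + 1))) ∧
      nmLs (fun x : NmRaw => x.name s π ⟨ds, tp, g'⟩ a' v') (fun x : NmRaw => x.name s π ⟨ds, tp, g⟩ a v)
        (Real.exp ((NmAt.nm ⟨ds, tp, g⟩ a v).cst π * (ν * lg s + 1))) := by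
  have hl := nm_pro_lg_pos hs
  have hCr := nm_pro_Cr_nonneg hq
  have hK := nm_pro_K0_log
  have hK0 : 0 < nmK0 := by unfold nmK0; norm_num
  have h16 : 0 ≤ Real.log 16 := Real.log_nonneg (by norm_num)
  have hνl : 0 ≤ ν * lg s := by positivity
  -- the two elementary lists
  have key : ∀ a₁ v₁ a₂ v₂ : ℝ, |a₂ - a₁| ≤ ν → |v₂ - v₁| ≤ ν →
      nmLs (fun x : NmRaw => x.name s π ⟨ds, tp, g⟩ a₁ v₁) (fun x : NmRaw => x.name s π ⟨ds, tp, g⟩ a₂ v₂)
        (nmK0 ^ 2 * Real.exp ((⟨ds, tp, g⟩ : NmQ).Cr π * (2 * ν) * lg s)) := by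
    intro a₁ v₁ a₂ v₂ h1 h2 c
    obtain ⟨S, hS, hS'⟩ := nm_refine_cmp hs.1 hs.2 hq a₁ v₁ a₂ v₂ c
    refine ⟨S, hS.trans ?_, hS'⟩
    rw [nm_pro_rpow_exp hs]
    refine mul_le_mul_of_nonneg_left (Real.exp_le_exp.2 ?_) (by positivity)
    refine mul_le_mul_of_nonneg_right (mul_le_mul_of_nonneg_left (by linarith) hCr) hl.le
  have hbound : nmK0 ^ 2 * Real.exp ((⟨ds, tp, g⟩ : NmQ).Cr π * (2 * ν) * lg s) * (16 * Real.exp (2 * (ν * lg s))) ≤
      Real.exp ((NmAt.nm ⟨ds, tp, g⟩ a v).cst π * (ν * lg s + 1)) := by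
    have e1 : nmK0 ^ 2 = Real.exp (2 * Real.log nmK0) := by
      rw [mul_comm, Real.exp_mul, Real.exp_log hK0]; norm_num
    have e2 : (16 : ℝ) = Real.exp (Real.log 16) := (Real.exp_log (by norm_num)).symm
    rw [e1]
    nth_rewrite 1 [e2]
    rw [← Real.exp_add, ← Real.exp_add, ← Real.exp_add]
    apply Real.exp_le_exp.2
    show _ ≤ (2 * (⟨ds, tp, g⟩ : NmQ).Cr π + 2 + 2 * Real.log nmK0 + Real.log 16) * (ν * lg s + 1)
    nlinarith [mul_nonneg hK hνl, mul_nonneg h16 hνl]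
  constructor
  · refine nm_pro_ls_mono (nm_pro_ls_trans (by positivity) (key a v a' v' (by rwa [abs_sub_comm]) (by rwa [abs_sub_comm]))
      (nm_pro_ls_g hs π ds tp g g' ν a' v' hg)) hbound
  · have h1 := nm_pro_ls_trans (by positivity) (nm_pro_ls_g hs π ds tp g' g ν a' v' (by rwa [abs_sub_comm])) (key a' v' a v ha hv)
    refine nm_pro_ls_mono h1 ?_
    rw [mul_comm]
    exact hbound

theorem nm_pro_cst_nonneg {π : SfPar} {x : NmAt} (hx : x.Gk π) : 0 ≤ x.cst π := by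
  cases x with
  | nm q a v =>
    have h1 := nm_pro_Cr_nonneg (q := q) (π := π) hx
    have h2 := nm_pro_K0_log
    have h3 : 0 ≤ Real.log 16 := Real.log_nonneg (by norm_num)
    show 0 ≤ 2 * q.Cr π + 2 + 2 * Real.log nmK0 + Real.log 16
    linarith
  | _ => show (0 : ℝ) ≤ 2; norm_num

theorem nm_pro_four_le (y : ℝ) (hy : 0 ≤ y) : 4 * Real.exp y ≤ Real.exp (2 * (y + 1)) := by
  have h1 : (4 : ℝ) ≤ Real.exp 2 := by
    have h1 := Real.exp_one_gt_d9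
    have h2 : Real.exp 2 = Real.exp 1 ^ 2 := by rw [← Real.exp_nat_mul]; norm_num
    rw [h2]
    nlinarith
  have e : Real.exp (2 * (y + 1)) = Real.exp 2 * Real.exp (2 * y) := by rw [← Real.exp_add]; congr 1; ring
  rw [e]
  exact mul_le_mul h1 (Real.exp_le_exp.2 (by linarith)) (Real.exp_pos _).le (Real.exp_pos _).le

/-- **mutual lists of two close atomic queries** -/
theorem nm_pro_amb_at (D : SfDoc) (hs : 0 < D.s ∧ D.s < 1) (π : SfPar) (x x' : NmAt) (hx : x.Gk π) (ν : ℝ) (hν : 0 ≤ ν)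
    (hc : x.Close ν x') :
    (D.P 1).NVal (fun _ => True) (D.atq π x) (D.atq π x') (Real.exp (x.cst π * (ν * D.lgs + 1))) ∧
    (D.P 1).NVal (fun _ => True) (D.atq π x') (D.atq π x) (Real.exp (x.cst π * (ν * D.lgs + 1))) := by
  have hl : 0 < D.lgs := nm_pro_lg_pos hs
  have hνl : 0 ≤ ν * D.lgs := by positivity
  have inj : Function.Injective (fun c : ℤ => (Sum.inr (Sum.inl c) : NmVl D.Idx)) := fun a b h => by
    simpa using h
  have cell : ∀ (r : D.Row 1 → ℝ) (b b' : ℝ), |b - b'| ≤ ν →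
      (D.P 1).NVal (fun _ => True) (fun ω => (Sum.inr (Sum.inl (nmCell D.s b (r ω))) : NmVl D.Idx))
        (fun ω => (Sum.inr (Sum.inl (nmCell D.s b' (r ω))) : NmVl D.Idx)) (Real.exp (2 * (ν * D.lgs + 1))) := by
    intro r b b' h
    exact dc_hx_nval_mono _ (nm_pro_ls_nval (D.P 1) (nm_pro_cell_ls hs b b' ν h) r
      (fun c : ℤ => (Sum.inr (Sum.inl c) : NmVl D.Idx)) (fun c : ℤ => (Sum.inr (Sum.inl c) : NmVl D.Idx)) inj) (nm_pro_four_le _ hνl)
  cases x with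
  | nm q a v =>
    cases x' with
    | nm q' a' v' =>
      obtain ⟨ds, tp, g⟩ := q
      obtain ⟨ds', tp', g'⟩ := q'
      obtain ⟨h1, h2, h3, h4, h5⟩ := hc
      simp only at h1 h2 h3
      subst h1 h2
      have h := nm_pro_ls_nm hs ds' tp' g g' hx ν a v a' v' hν h3 h4 h5
      exact ⟨nm_pro_ls_nval (D.P 1) h.2 (D.raw π ds') Sum.inl Sum.inl Sum.inl_injective,
        nm_pro_ls_nval (D.P 1) h.1 (D.raw π ds') Sum.inl Sum.inl Sum.inl_injective⟩
    | _ => exact hc.elim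
  | Xc b =>
    cases x' with
    | Xc b' => exact ⟨cell _ b b' hc, cell _ b' b (by rw [abs_sub_comm]; exact hc)⟩
    | _ => exact hc.elim
  | tc b =>
    cases x' with
    | tc b' => exact ⟨cell _ b b' hc, cell _ b' b (by rw [abs_sub_comm]; exact hc)⟩
    | _ => exact hc.elim
  | Pc ds b =>
    cases x' with
    | Pc ds' b' =>
      obtain ⟨h1, h2⟩ := hc
      subst h1
      exact ⟨cell _ b b' h2, cell _ b' b (by rw [abs_sub_comm]; exact h2)⟩
    | _ => exact hc.elim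
  | bc ds b =>
    cases x' with
    | bc ds' b' =>
      obtain ⟨h1, h2⟩ := hc
      subst h1
      exact ⟨cell _ b b' h2, cell _ b' b (by rw [abs_sub_comm]; exact h2)⟩
    | _ => exact hc.elim
  | y0 =>
    cases x' with
    | y0 =>
      have h1 : (1 : ℝ) ≤ Real.exp (2 * (ν * D.lgs + 1)) := Real.one_le_exp (by positivity)
      exact ⟨dc_hx_nval_mono _ (dc_hx_nval_self _ _) h1, dc_hx_nval_mono _ (dc_hx_nval_self _ _) h1⟩
    | _ => exact hc.elim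

/-! ## lists -/

/-- the constant of a list -/
def nmCstL (π : SfPar) (L : List NmAt) : ℝ := (L.map (NmAt.cst π)).sum

theorem nm_pro_cstL_nonneg {π : SfPar} {L : List NmAt} (hL : ∀ x ∈ L, x.Gk π) : 0 ≤ nmCstL π L := by
  unfold nmCstL
  refine List.sum_nonneg fun y hy => ?_
  obtain ⟨x, hx, rfl⟩ := List.mem_map.1 hy
  exact nm_pro_cst_nonneg (hL x hx)

theorem nm_pro_nval_cons {Ω α β : Type} [Fintype Ω] (P : FLaw Ω) {A : Ω → α} {A' : Ω → β} {B : Ω → List α} {B' : Ω → List β} {N N' : ℝ}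
    (h : P.NVal (fun _ => True) A A' N) (h' : P.NVal (fun _ => True) B B' N') :
    P.NVal (fun _ => True) (fun ω => A ω :: B ω) (fun ω => A' ω :: B' ω) (N * N') := fun ω₀ => by
  obtain ⟨S1, hS1, hS1'⟩ := h ω₀
  obtain ⟨S2, hS2, hS2'⟩ := h' ω₀
  refine ⟨(S1 ×ˢ S2).image (fun p => p.1 :: p.2), ?_, fun ω hω _ hA => ?_⟩
  · have c1 : (((S1 ×ˢ S2).image (fun p : α × List α => p.1 :: p.2)).card : ℝ) ≤ (S1.card : ℝ) * S2.card := by
      have := Finset.card_image_le (s := S1 ×ˢ S2) (f := fun p : α × List α => p.1 :: p.2)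
      rw [Finset.card_product] at this
      exact_mod_cast this
    exact c1.trans (mul_le_mul hS1 hS2 (Nat.cast_nonneg _) ((Nat.cast_nonneg _).trans hS1))
  · have hA' : A' ω :: B' ω = A' ω₀ :: B' ω₀ := hA
    rw [List.cons.injEq] at hA'
    exact Finset.mem_image.2 ⟨(A ω, B ω), Finset.mem_product.2 ⟨hS1' ω hω trivial hA'.1, hS2' ω hω trivial hA'.2⟩, rfl⟩

/-- **mutual lists of two close lists of atomic queries** -/
theorem nm_pro_amb_list (D : SfDoc) (hs : 0 < D.s ∧ D.s < 1) (π : SfPar) (ν : ℝ) (hν : 0 ≤ ν) (L L' : List NmAt)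
    (hL : ∀ x ∈ L, x.Gk π) (h : List.Forall₂ (NmAt.Close ν) L L') :
    (D.P 1).NVal (fun _ => True) (D.ats π L) (D.ats π L') (Real.exp (nmCstL π L * (ν * D.lgs + 1))) ∧
    (D.P 1).NVal (fun _ => True) (D.ats π L') (D.ats π L) (Real.exp (nmCstL π L * (ν * D.lgs + 1))) := by
  induction h with
  | nil =>
    have : (D.P 1).NVal (fun _ => True) (D.ats π []) (D.ats π []) (Real.exp (nmCstL π [] * (ν * D.lgs + 1))) := fun ω₀ =>
      ⟨{[]}, by simp [nmCstL], fun ω _ _ _ => by simp [SfDoc.ats]⟩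
    exact ⟨this, this⟩
  | @cons x x' L L' hx _ ih =>
    have h1 := nm_pro_amb_at D hs π x x' (hL x List.mem_cons_self) ν hν hx
    have h2 := ih fun y hy => hL y (List.mem_cons_of_mem _ hy)
    have e : Real.exp (nmCstL π (x :: L) * (ν * D.lgs + 1)) =
        Real.exp (x.cst π * (ν * D.lgs + 1)) * Real.exp (nmCstL π L * (ν * D.lgs + 1)) := by
      rw [← Real.exp_add]
      congr 1
      simp only [nmCstL, List.map_cons, List.sum_cons]
      ring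
    rw [e]
    exact ⟨nm_pro_nval_cons _ h1.1 h2.1, nm_pro_nval_cons _ h1.2 h2.2⟩

/-- **mutual ambiguity of two close conditional queries** -/
theorem nm_pro_amb (D : SfDoc) (hs : 0 < D.s ∧ D.s < 1) (π : SfPar) (ν : ℝ) (hν : 0 ≤ ν) (L L₁ M M₁ : List NmAt)
    (hL : ∀ x ∈ L, x.Gk π) (hM : ∀ x ∈ M, x.Gk π) (h : List.Forall₂ (NmAt.Close ν) L L₁) (h' : List.Forall₂ (NmAt.Close ν) M M₁) :
    dc_hx_Amb (D.P 1) (D.ats π L) (D.ats π M) (D.ats π L₁) (D.ats π M₁) (Real.exp ((nmCstL π L + nmCstL π M) * (ν * D.lgs + 1))) := by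
  have hl : 0 < D.lgs := nm_pro_lg_pos hs
  have hy : 0 ≤ ν * D.lgs + 1 := by positivity
  have h1 := nm_pro_amb_list D hs π ν hν L L₁ hL h
  have h2 := nm_pro_amb_list D hs π ν hν M M₁ hM h'
  have e : Real.exp ((nmCstL π L + nmCstL π M) * (ν * D.lgs + 1)) =
      Real.exp (nmCstL π L * (ν * D.lgs + 1)) * Real.exp (nmCstL π M * (ν * D.lgs + 1)) := by
    rw [← Real.exp_add]; congr 1; ring
  have hle : Real.exp (nmCstL π M * (ν * D.lgs + 1)) ≤ Real.exp ((nmCstL π L + nmCstL π M) * (ν * D.lgs + 1)) :=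
    Real.exp_le_exp.2 (mul_le_mul_of_nonneg_right (by linarith [nm_pro_cstL_nonneg hL]) hy)
  refine ⟨?_, ?_, dc_hx_nval_mono _ h2.1 hle, dc_hx_nval_mono _ h2.2 hle⟩
  · rw [e]; exact dc_hx_nval_pair _ h1.1 h2.1
  · rw [e]; exact dc_hx_nval_pair _ h1.2 h2.2

theorem nm_pro_amb_eqns_cite : True := by
  have := @nmLs.eq_1; have := @NmAt.cst.eq_1; have := @NmAt.Gk.eq_1; have := @NmAt.Close.eq_1; have := @nmCstL.eq_1
  trivial

end

end Claimed.Agent.R256
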