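import Claimed.Agent.R256.Nm.Pro.Restr
import Claimed.Agent.R255.Cl.ToolsSeq
import Claimed.Agent.R255.Cl.Dich.MExt.Hom

/-!
# Row 256 (S0496), unit NM, block PRO, file 3: THE BRIDGE TO THE SEQUENCE LANGUAGE OF ROW 255      (architect helper156; prefix `nm_pro_`)

`S.cq : CSeq` = the final laws of a sequence of fine configurations as a sequence of (trivial) classical systems of R255: same spaces (DEFINITIONALLY), same laws, `ε n = s_n`, `lg (ε n) = (S.D n).lgs`.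
So `ts_master_tag`, `ts_homog_typ`, `ts_typ_inter`, `ts_pick` (`R255/Cl/ToolsSeq.lean`), `dc_hx_seq`, `dc_hx_entC`, ... (`R255/Cl/Dich/MExt/Hom.lean`), `dc_msc_pa_*` (`R255/Cl/Dich/MSel.lean`) apply verbatim.
* `S.cnd E t' h` = the sequence conditioned on the events `E n` (`h : ∀ n, (S.D n).CndOk (E n) (S.t n) (t' n)`, `t' → 0`).
-/

set_option autoImplicit false

namespace Claimed.Agent.R256

open Claimed.Agent.R255
open Claimed.Agent.R255.FLaw (pair)
open Filter Topology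
open Classical

noncomputable section

/-- the final law as a trivial classical system -/
def SfDoc.csys (D : SfDoc) : CSys where
  Ω := D.Row 1
  fin := D.fin 1
  P := D.P 1
  ι := Unit
  T := fun _ => ()
  V := fun _ => (0, 0)
  A := fun _ => (0, 0)
  c := fun _ => 0

namespace NmSeq

variable {π : SfPar} {C0 : ℝ} {κ : ℝ → ℝ} (S : NmSeq π C0 κ)

theorem nm_pro_s_lim : Tendsto (fun n => (S.D n).s) uf (𝓝 0) :=
  squeeze_zero (fun n => (nm_pro_hs S n).1.le) (fun n => (S.fine n 1 one_pos).sm) S.lim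

/-- the sequence of the final laws -/
def cq : CSeq where
  ε := fun n => (S.D n).s
  S := fun n => (S.D n).csys
  pos := nm_pro_hs S
  lim := S.nm_pro_s_lim
  B := 0
  bdd := Eventually.of_forall fun n ω _ => by simp [SfDoc.csys]

/-- the conditioned sequence -/
def cnd (E : ∀ n, (S.D n).Row 1 → Prop) (t' : ℕ → ℝ) (h : ∀ n, (S.D n).CndOk (E n) (S.t n) (t' n)) (hX : S.HasX)
    (hl : Tendsto t' uf (𝓝 0)) : NmSeq π C0 (fun τ => κ τ / 2) where
  D := fun n => (S.D n).cndT (E n)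
  t := t'
  fine := fun n τ hτ => (nm_pro_cndT_fine (S.fine n τ hτ) (hX n) (h n)).1
  lim := hl

end NmSeq

section bridge

variable {π : SfPar} {C0 : ℝ} {κ : ℝ → ℝ} (S : NmSeq π C0 κ)

theorem nm_pro_cnd_homog (E : ∀ n, (S.D n).Row 1 → Prop) (t' : ℕ → ℝ) (h : ∀ n, (S.D n).CndOk (E n) (S.t n) (t' n)) (hX : S.HasX)
    (hl : Tendsto t' uf (𝓝 0)) {α β : ℕ → Type} (Y : S.Obs α) (X : S.Obs β) (d : ℝ)
    (H : (S.cq.condOn E).Homog Y X d) : (S.cnd E t' h hX hl).cq.Homog Y X d := by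
  have e : ∀ n, ((S.cnd E t' h hX hl).cq.S n).P = ((S.cq.condOn E).S n).P := fun n => nm_pro_cndT_P (S.D n) (E n)
  refine ⟨?_, fun η hη => ?_⟩
  · refine H.1.congr fun n => ?_
    show ((S.cq.condOn E).S n).P.entC (Y n) (X n) / _ = ((S.cnd E t' h hX hl).cq.S n).P.entC (Y n) (X n) / _
    rw [e n]
    rfl
  · refine (H.2 η hη).congr fun n => ?_
    show ((S.cq.condOn E).S n).P.pr (fun ω => η < |((S.cq.condOn E).S n).P.surC (Y n) (X n) ω / _ - d|) =
      ((S.cnd E t' h hX hl).cq.S n).P.pr (fun ω => η < |((S.cnd E t' h hX hl).cq.S n).P.surC (Y n) (X n) ω / _ - d|)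
    rw [e n]
    rfl

theorem nm_pro_hom_of_homog {α β : ℕ → Type} (Y : S.Obs α) (X : S.Obs β) (d : ℝ) (H : S.cq.Homog Y X d) :
    S.Hom Y X ∧ S.HC Y X = d := by
  have e : S.HC Y X = d := ulim_eq_of_tendsto _ _ H.1
  refine ⟨fun η hη => ?_, e⟩
  rw [e]
  exact H.2 η hη

theorem nm_pro_homog_of_hom {α β : ℕ → Type} (Y : S.Obs α) (X : S.Obs β) (hb : UBdd (S.cq.seqHC Y X)) (H : S.Hom Y X) :
    S.cq.Homog Y X (S.HC Y X) := ⟨ulim_tendsto _ hb, H⟩

theorem nm_pro_cnd_hasX (E : ∀ n, (S.D n).Row 1 → Prop) (t' : ℕ → ℝ) (h : ∀ n, (S.D n).CndOk (E n) (S.t n) (t' n)) (hX : S.HasX)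
    (hl : Tendsto t' uf (𝓝 0)) : (S.cnd E t' h hX hl).HasX :=
  fun n => (nm_pro_cndT_fine (S.fine n 1 one_pos) (hX n) (h n)).2

theorem nm_pro_lgs_pos (n : ℕ) : 0 < (S.D n).lgs := dc_hx_lg_pos S.cq n

theorem nm_pro_lgs_atTop : Tendsto (fun n => (S.D n).lgs) uf atTop := dc_hx_lg_atTop S.cq

/-- homogeneity only depends on the events `uf`-almost everywhere -/
theorem nm_pro_condOn_congr (Q : CSeq) (E E0 : ∀ n, (Q.S n).Ω → Prop) (hE : ∀ᶠ n in uf, E n = E0 n) {α β : ℕ → Type}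
    (Y : Q.Obs α) (X : Q.Obs β) (d : ℝ) (H : (Q.condOn E0).Homog Y X d) : (Q.condOn E).Homog Y X d := by
  refine ⟨H.1.congr' ?_, fun η hη => (H.2 η hη).congr' ?_⟩
  · filter_upwards [hE] with n hn
    show ((Q.S n).condOn (E0 n)).P.entC (Y n) (X n) / _ = ((Q.S n).condOn (E n)).P.entC (Y n) (X n) / _
    rw [hn]
    rfl
  · filter_upwards [hE] with n hn
    show ((Q.S n).condOn (E0 n)).P.pr (fun ω => η < |((Q.S n).condOn (E0 n)).P.surC (Y n) (X n) ω / _ - d|) =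
      ((Q.S n).condOn (E n)).P.pr (fun ω => η < |((Q.S n).condOn (E n)).P.surC (Y n) (X n) ω / _ - d|)
    rw [hn]
    rfl

/-- `s^x ≤ p` as soon as `- log p / log (1/s) ≤ x` -/
theorem nm_pro_pow_le {s p x : ℝ} (hs : 0 < s ∧ s < 1) (hp : 0 < p) (hx : - Real.log p / lg s ≤ x) : s ^ x ≤ p := by
  have hl : 0 < lg s := by unfold lg; exact Real.log_pos ((one_lt_div hs.1).2 hs.2)
  have e : lg s = - Real.log s := by unfold lg; rw [one_div, Real.log_inv]
  rw [div_le_iff₀ hl] at hx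
  rw [Real.rpow_def_of_pos hs.1, ← Real.exp_log hp]
  apply Real.exp_le_exp.2
  rw [e] at hx
  nlinarith

/-- **THE ENGINE**: one conditioning of the final laws which makes a countable list of pairs (children with polynomial alphabets) homogeneous and keeps a countable list of homogeneous pairs, with the same exponents -/
theorem nm_pro_engine (hX : S.HasX)
    (α β : ℕ → ℕ → Type) (Y : ∀ j, S.Obs (α j)) (X : ∀ j, S.Obs (β j)) (A : ℕ → ℝ) (hY : ∀ j, S.cq.Alph (Y j) (A j))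
    (α' β' : ℕ → ℕ → Type) (Y' : ∀ j, S.Obs (α' j)) (X' : ∀ j, S.Obs (β' j)) (d : ℕ → ℝ)
    (h' : ∀ j, S.cq.Homog (Y' j) (X' j) (d j)) :
    ∃ (E : ∀ n, (S.D n).Row 1 → Prop) (t' : ℕ → ℝ) (h : ∀ n, (S.D n).CndOk (E n) (S.t n) (t' n)) (hl : Tendsto t' uf (𝓝 0)),
      (∀ j, ∃ d, (S.cnd E t' h hX hl).cq.Homog (Y j) (X j) d) ∧ (∀ j, (S.cnd E t' h hX hl).cq.Homog (Y' j) (X' j) (d j)) := by
  obtain ⟨ζ, Z, Gd, hZ, hGd, hm⟩ := ts_master_tag (1 / 2) (by norm_num) (by norm_num) S.cq 0 le_rfl α β Y X A hY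
  obtain ⟨Gd1, hGd1, hs⟩ := ts_homog_typ S.cq Z hZ α' β' Y' X' d h'
  obtain ⟨Gd', hGd', hall⟩ := ts_typ_inter (fun n => (S.cq.S n).P)
    (fun i => match i with
      | 0 => Gd
      | _ => Gd1)
    (fun i => match i with
      | 0 => hGd
      | _ + 1 => hGd1)
  obtain ⟨ω₀, hω⟩ := ts_pick (fun n => (S.cq.S n).P) Gd' (fun _ _ => True) hGd' 1 one_pos
    (Eventually.of_forall fun n => by rw [ent_pr_true])
  have hsel := hall ω₀ (hω.mono fun n h => h.1)
  obtain ⟨hlog, hH, -⟩ := hm ω₀ (hsel 0)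
  have hH' := hs ω₀ (hsel 1)
  -- the events
  let E0 : ∀ n, (S.D n).Row 1 → Prop := fun n ω => Z n ω = Z n (ω₀ n)
  let t0 : ℕ → ℝ := fun n => 2 * max (S.t n) (- Real.log (((S.D n).P 1).pr (E0 n)) / (S.D n).lgs)
  let good : ℕ → Prop := fun n => 0 < ((S.D n).P 1).pr (E0 n) ∧ t0 n ≤ 1
  have ht0 : Tendsto t0 uf (𝓝 0) := by
    have h1 : Tendsto (fun n => - Real.log (((S.D n).P 1).pr (E0 n)) / (S.D n).lgs) uf (𝓝 0) := by
      have := hlog.neg
      rw [neg_zero] at this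
      refine this.congr fun n => ?_
      rw [neg_div]
      rfl
    have h2 := (S.lim.max h1).const_mul 2
    rw [max_self, mul_zero] at h2
    exact h2
  have hgood : ∀ᶠ n in uf, good n := by
    filter_upwards [hω, ht0.eventually (gt_mem_nhds one_pos)] with n hn h1
    exact ⟨ent_fib_pos _ (Z n) hn.2.2.ne', h1.le⟩
  refine ⟨fun n => if good n then E0 n else fun _ => True, fun n => if good n then t0 n else S.t n, fun n => ?_, ?_, ?_, ?_⟩
  · by_cases hg : good n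
    · simp only [if_pos hg]
      refine Or.inr ⟨?_, hg.2, hg.1, nm_pro_pow_le (nm_pro_hs S n) hg.1 ?_⟩
      · show S.t n ≤ 2 * max _ _ / 2
        rw [mul_div_cancel_left₀ _ (two_ne_zero)]
        exact le_max_left _ _
      · show _ ≤ 2 * max _ _ / 2
        rw [mul_div_cancel_left₀ _ (two_ne_zero)]
        exact le_max_right _ _
    · simp only [if_neg hg]
      exact Or.inl ⟨rfl, le_rfl⟩
  · refine ht0.congr' ?_
    filter_upwards [hgood] with n hn
    rw [if_pos hn]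
  · intro j
    obtain ⟨dj, hdj⟩ := hH j
    refine ⟨dj, nm_pro_cnd_homog S _ _ _ hX _ _ _ _ (nm_pro_condOn_congr S.cq _ E0 ?_ _ _ _ hdj)⟩
    filter_upwards [hgood] with n hn
    rw [if_pos hn]
  · intro j
    refine nm_pro_cnd_homog S _ _ _ hX _ _ _ _ (nm_pro_condOn_congr S.cq _ E0 ?_ _ _ _ (hH' j))
    filter_upwards [hgood] with n hn
    rw [if_pos hn]

end bridge

theorem nm_pro_cq_eqns_cite : True := by
  have := @SfDoc.csys.eq_1; have := @NmSeq.cq.eq_1; have := @NmSeq.cnd.eq_1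
  trivial

end

end Claimed.Agent.R256
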