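import Claimed.Agent.R256.Nm.Pro.Cq

/-!
# Row 256 (S0496), unit NM, block PRO, file 9: RESTRICTION OF A LAW AND SCORES (01 Lemma fw-restriction)      (architect helper156; prefix `nm_pro_`)

LEAF L-256-NM-PRO-FW.   Finite probability only (`R255/Ent/Basic.lean`).
`R = P.cnd F`.   For every observation `Z`, on the support of `R`:   `R.fib Z ω ≤ P.fib Z ω / P.pr F`   (`ent_cnd_pr`, `ent_pr_mono`; or `ent_dom_fib (ent_cnd_dom P F hF)`), and
`R.pr (R.fib Z ω < θ * P.fib Z ω) ≤ θ`   (`nm_pro_fw_low`: Markov `ent_markov` for `f ω = P.fib Z ω / R.fib Z ω`, whose `R`-mean is `∑_z P(Z = z) ≤ 1`: `ent_ev_comp` with `S = univ.image Z`, `ent_aux_sum_pr_le`; compare the proof of `ent_aux_nval_ev`).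
So off `R`-probability `2 θ` both `log R.fib X - log P.fib X` and `log R.fib (Y,X) - log P.fib (Y,X)` lie in `[log θ, - log P(F)]`; `ent_surC_eq_sub` (support of `R` ⊆ support of `P`: `ent_cnd_supp`).
-/

set_option autoImplicit false

namespace Claimed.Agent.R256

open Claimed.Agent.R255
open Claimed.Agent.R255.FLaw (pair)
open Filter Topology
open Classical

noncomputable section

/-- likelihood comparison: exceptionally small probabilities are rare -/
theorem nm_pro_fw_low {Ω α : Type} [Fintype Ω] (P R : FLaw Ω) (Z : Ω → α) (θ : ℝ) (hθ : 0 < θ) :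
    R.pr (fun ω => R.fib Z ω < θ * P.fib Z ω) ≤ θ := by
  obtain ⟨S, hS⟩ : ∃ S : Finset α, S = (Finset.univ.image Z).filter (fun z => R.pr (fun ω => Z ω = z) < θ * P.pr (fun ω => Z ω = z)) := ⟨_, rfl⟩
  have h1 := ent_pr_sum_values R (fun ω => R.fib Z ω < θ * P.fib Z ω) Z S (fun ω _ hω => by
    rw [hS]
    exact Finset.mem_filter.2 ⟨Finset.mem_image_of_mem _ (Finset.mem_univ _), hω⟩)
  rw [h1]
  calc ∑ x ∈ S, R.pr (fun ω => R.fib Z ω < θ * P.fib Z ω ∧ Z ω = x)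
      ≤ ∑ x ∈ S, θ * P.pr (fun ω => Z ω = x) := by
        refine Finset.sum_le_sum fun x hx => ?_
        rw [hS] at hx
        exact le_trans (ent_pr_mono R fun ω _ h => h.2) (Finset.mem_filter.1 hx).2.le
    _ = θ * ∑ x ∈ S, P.pr (fun ω => Z ω = x) := by rw [Finset.mul_sum]
    _ ≤ θ * 1 := mul_le_mul_of_nonneg_left (ent_aux_sum_pr_le P Z S) hθ.le
    _ = θ := mul_one θ

/-- the logarithmic likelihood ratio of an observation lies in `[log θ, - log P(F)]` off the bad event -/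
theorem nm_pro_fw_win {Ω α : Type} [Fintype Ω] (P : FLaw Ω) (F : Ω → Prop) (hF : 0 < P.pr F) (Z : Ω → α) (θ : ℝ) (hθ : 0 < θ) {ω : Ω}
    (hω : (P.cnd F).p ω ≠ 0) (hb : ¬ (P.cnd F).fib Z ω < θ * P.fib Z ω) :
    Real.log θ ≤ Real.log ((P.cnd F).fib Z ω) - Real.log (P.fib Z ω) ∧ Real.log ((P.cnd F).fib Z ω) - Real.log (P.fib Z ω) ≤ - Real.log (P.pr F) := by
  have hωP : P.p ω ≠ 0 := ((ent_cnd_supp P F hF).1 hω).2
  have h1 : 0 < P.fib Z ω := ent_fib_pos P Z hωP
  have h2 : 0 < (P.cnd F).fib Z ω := ent_fib_pos _ Z hω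
  rw [not_lt] at hb
  constructor
  · have := Real.log_le_log (mul_pos hθ h1) hb
    rw [Real.log_mul hθ.ne' h1.ne'] at this
    linarith
  · have h3 := ent_dom_fib (ent_cnd_dom P F hF) Z ω
    have := Real.log_le_log h2 h3
    rw [Real.log_mul (one_div_pos.2 hF).ne' h1.ne', one_div, Real.log_inv] at this
    linarith

/-- **01 Lemma fw-restriction**: a restriction to an event `F` changes a conditional score by at most `log (1/θ) + log (1/P(F))` off probability `2 θ` -/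
theorem nm_pro_fw {Ω α β : Type} [Fintype Ω] (P : FLaw Ω) (F : Ω → Prop) (hF : 0 < P.pr F) (Y : Ω → α) (X : Ω → β) (θ : ℝ) (hθ : 0 < θ) :
    (P.cnd F).pr (fun ω => - Real.log θ - Real.log (P.pr F) < |(P.cnd F).surC Y X ω - P.surC Y X ω|) ≤ 2 * θ := by
  have h1 := nm_pro_fw_low P (P.cnd F) X θ hθ
  have h2 := nm_pro_fw_low P (P.cnd F) (pair Y X) θ hθ
  have h3 := ent_pr_or_le (P.cnd F) (fun ω => (P.cnd F).fib X ω < θ * P.fib X ω) (fun ω => (P.cnd F).fib (pair Y X) ω < θ * P.fib (pair Y X) ω)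
  refine le_trans (ent_pr_mono (P.cnd F) fun ω hω hlt => ?_) (h3.trans (by linarith))
  by_contra hcon
  push Not at hcon
  obtain ⟨b1, b2⟩ := hcon
  have hωP : P.p ω ≠ 0 := ((ent_cnd_supp P F hF).1 hω).2
  obtain ⟨u1, u2⟩ := nm_pro_fw_win P F hF X θ hθ hω (not_lt.2 b1)
  obtain ⟨v1, v2⟩ := nm_pro_fw_win P F hF (pair Y X) θ hθ hω (not_lt.2 b2)
  rw [ent_surC_eq_sub _ Y X hω, ent_surC_eq_sub P Y X hωP] at hlt
  have : |Real.log ((P.cnd F).fib X ω) - Real.log ((P.cnd F).fib (pair Y X) ω) - (Real.log (P.fib X ω) - Real.log (P.fib (pair Y X) ω))|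
      ≤ - Real.log θ - Real.log (P.pr F) := by
    rw [abs_le]
    constructor <;> linarith
  linarith

/-- **sharp power-small homogeneity** -/
def nmSharp (Q : CSeq) {α β : ℕ → Type} (Y : Q.Obs α) (X : Q.Obs β) (d : ℝ) : Prop :=
  ∀ τ η : ℝ, 0 < τ → 0 < η → ∀ᶠ n in uf,
    (Q.S n).P.pr (fun ω => τ + η < |(Q.S n).P.surC (Y n) (X n) ω / lg (Q.ε n) - d|) ≤ 2 * (Q.ε n) ^ τ

theorem nm_pro_fw_eqns_cite : True := by
  have := @nmSharp.eq_1
  trivial

end

end Claimed.Agent.R256
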