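import Claimed.Agent.R256.Nm.Pro.Amb

/-!
# Row 256 (S0496), unit NM, block PRO, file 7: KIT FOR THE PROFILES (Y1)      (architect helper156; prefix `nm_pro_`)

Limits of normalised entropies along a sequence; the depth profile of the dyadic cells of a real observation.
HOW TO PROVE AN (IN)EQUALITY BETWEEN PROFILES: (1) prove the finite inequality for every `n` with an additive constant `c` (`R255/Ent/Basic.lean`, `Nm/Geo/Main.lean`); (2) divide by `lgs > 0`;
(3) pass to the limit with `nm_pro_HC_tendsto`, `nm_pro_Hn_tendsto`, `nm_pro_div_lgs` and `le_of_tendsto_of_tendsto'` (`uf_neBot`).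
-/

set_option autoImplicit false

namespace Claimed.Agent.R256

open Claimed.Agent.R255
open Claimed.Agent.R255.FLaw (pair)
open Filter Topology
open Classical

noncomputable section

variable {π : SfPar} {C0 : ℝ} {κ : ℝ → ℝ} (S : NmSeq π C0 κ)

/-- constants disappear -/
theorem nm_pro_div_lgs (c : ℝ) : Tendsto (fun n => c / (S.D n).lgs) uf (𝓝 0) :=
  (nm_pro_lgs_atTop S).const_div_atTop c

variable {S}

/-- the normalised conditional entropies of a child with a polynomial alphabet converge to the profile -/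
theorem nm_pro_HC_tendsto {α β : ℕ → Type} {Y : S.Obs α} (hY : dc_msc_PA S.cq Y) (X : S.Obs β) :
    Tendsto (fun n => ((S.D n).P 1).entC (Y n) (X n) / (S.D n).lgs) uf (𝓝 (S.HC Y X)) := by
  obtain ⟨A, hA⟩ := dc_msc_pa_alph S.cq hY
  exact ulim_tendsto _ (nm_pro_ubdd X hA)

theorem nm_pro_Hn_tendsto {α : ℕ → Type} {Y : S.Obs α} (hY : dc_msc_PA S.cq Y) :
    Tendsto (fun n => ((S.D n).P 1).ent (Y n) / (S.D n).lgs) uf (𝓝 (S.Hn Y)) := by
  obtain ⟨A, hA⟩ := dc_msc_pa_alph S.cq hY
  exact ulim_tendsto _ (nm_pro_ubdd_ent hA)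

/-- the basic comparison: `x_n ≤ y_n + a lgs + c` for `uf`-most `n` -/
theorem nm_pro_lim_le {x y : ℕ → ℝ} {X Y : ℝ} (a c : ℝ) (hx : Tendsto (fun n => x n / (S.D n).lgs) uf (𝓝 X))
    (hy : Tendsto (fun n => y n / (S.D n).lgs) uf (𝓝 Y)) (h : ∀ᶠ n in uf, x n ≤ y n + a * (S.D n).lgs + c) : X ≤ Y + a := by
  have := uf_neBot
  have h1 : Tendsto (fun n => y n / (S.D n).lgs + a + c / (S.D n).lgs) uf (𝓝 (Y + a + 0)) :=
    (hy.add_const a).add (nm_pro_div_lgs S c)
  rw [add_zero] at h1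
  refine le_of_tendsto_of_tendsto hx h1 ?_
  filter_upwards [h] with n hn
  have hl := nm_pro_lgs_pos S n
  rw [div_le_iff₀ hl]
  have e : (y n / (S.D n).lgs + a + c / (S.D n).lgs) * (S.D n).lgs = y n + a * (S.D n).lgs + c := by
    field_simp
  rw [e]
  exact hn

/-! ## the depth profile of the cells of a real observation -/

/-- FINITE: the increment of the entropy of the cells between two depths is a conditional entropy, at most `(x' - x) log (1/s) + log 4` -/
theorem nm_pro_cell_incr {Ω γ : Type} [Fintype Ω] (P : FLaw Ω) {s : ℝ} (hs : 0 < s ∧ s < 1) (y : Ω → ℝ) (W : Ω → γ) {x x' : ℝ} (h : x ≤ x') :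
    P.entC (fun ω => nmCell s x' (y ω)) W - P.entC (fun ω => nmCell s x (y ω)) W =
        P.entC (fun ω => nmCell s x' (y ω)) (pair (fun ω => nmCell s x (y ω)) W) ∧
      P.entC (fun ω => nmCell s x' (y ω)) (pair (fun ω => nmCell s x (y ω)) W) ≤ (x' - x) * lg s + Real.log 4 := by
  have hnest : ∀ ω ω', nmCell s x' (y ω) = nmCell s x' (y ω') → nmCell s x (y ω) = nmCell s x (y ω') :=
    fun ω ω' h' => nm_cell_nest hs.1 hs.2 h h'
  constructor
  · have h1 := ent_entC_chain P (fun ω => nmCell s x (y ω)) (fun ω => nmCell s x' (y ω)) W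
    have h2 : P.entC (pair (fun ω => nmCell s x (y ω)) (fun ω => nmCell s x' (y ω))) W = P.entC (fun ω => nmCell s x' (y ω)) W := by
      refine ent_entC_congr P _ _ _ _ (fun _ _ _ _ => Iff.rfl) fun ω ω' _ _ _ => ?_
      simp only [FLaw.pair, Prod.mk.injEq]
      exact ⟨fun h3 => h3.2, fun h3 => ⟨hnest ω ω' h3, h3⟩⟩
    linarith
  · have h1 : P.entC (fun ω => nmCell s x' (y ω)) (pair (fun ω => nmCell s x (y ω)) W) ≤
        P.entC (fun ω => nmCell s x' (y ω)) (fun ω => nmCell s x (y ω)) :=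
      ent_entC_anti P _ _ _ fun ω ω' _ _ h3 => congrArg Prod.fst h3
    have h2 := ent_entC_le_log_nval P _ _ (nm_pro_ls_nval P (nm_pro_cell_ls hs x' x (x' - x) (by rw [abs_of_nonneg (by linarith)])) y
      id id Function.injective_id)
    rw [Real.log_mul (by norm_num) (Real.exp_pos _).ne', Real.log_exp] at h2
    simp only [id] at h2
    linarith

variable {S : NmSeq π C0 κ}

/-- the cells of a polynomially bounded real observation, as a sequence of observations -/
def NmSeq.cel (S : NmSeq π C0 κ) (y : ∀ n, (S.D n).Row 1 → ℝ) (x : ℝ) : S.Obs (fun _ => ℤ) := fun n ω => nmCell (S.D n).s x (y n ω)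

theorem nm_pro_pa_cel {y : ∀ n, (S.D n).Row 1 → ℝ} (hy : S.PB y) (x : ℝ) : dc_msc_PA S.cq (S.cel y x) := nm_pro_pa_cell x hy

/-- **depth profile**: nondecreasing and `1`-Lipschitz in the depth, for EVERY condition `W` and ALL real depths -/
theorem nm_pro_prof {y : ∀ n, (S.D n).Row 1 → ℝ} (hy : S.PB y) {γ : ℕ → Type} (W : S.Obs γ) {x x' : ℝ} (h : x ≤ x') :
    0 ≤ S.HC (S.cel y x') W - S.HC (S.cel y x) W ∧ S.HC (S.cel y x') W - S.HC (S.cel y x) W ≤ x' - x := by
  have t1 := nm_pro_HC_tendsto (nm_pro_pa_cel hy x) W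
  have t2 := nm_pro_HC_tendsto (nm_pro_pa_cel hy x') W
  constructor
  · have := nm_pro_lim_le 0 0 t1 t2 (Eventually.of_forall fun n => by
      have h1 := nm_pro_cell_incr ((S.D n).P 1) (nm_pro_hs S n) (y n) (W n) h
      have h2 := ent_entC_nonneg ((S.D n).P 1) (fun ω => nmCell (S.D n).s x' (y n ω)) (pair (fun ω => nmCell (S.D n).s x (y n ω)) (W n))
      have h3 := h1.1
      show ((S.D n).P 1).entC (fun ω => nmCell (S.D n).s x (y n ω)) (W n) ≤ ((S.D n).P 1).entC (fun ω => nmCell (S.D n).s x' (y n ω)) (W n) + _ + _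
      linarith)
    linarith
  · have := nm_pro_lim_le (x' - x) (Real.log 4) t2 t1 (Eventually.of_forall fun n => by
      have h1 := nm_pro_cell_incr ((S.D n).P 1) (nm_pro_hs S n) (y n) (W n) h
      have h3 := h1.1
      have h4 := h1.2
      show ((S.D n).P 1).entC (fun ω => nmCell (S.D n).s x' (y n ω)) (W n) ≤ ((S.D n).P 1).entC (fun ω => nmCell (S.D n).s x (y n ω)) (W n) + (x' - x) * lg (S.D n).s + _
      linarith)
    linarith

/-- FINITE: `H(A | B, W') ≤ H(A | B, W) + log K` if `W'` lists `W` with `K` values -/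
theorem nm_pro_cond_fin {Ω α β γ γ' : Type} [Fintype Ω] (P : FLaw Ω) (A : Ω → α) (B : Ω → β) (W : Ω → γ) (W' : Ω → γ') {K : ℝ}
    (hK : P.NVal (fun _ => True) W W' K) : P.entC A (pair B W') ≤ P.entC A (pair B W) + Real.log K := by
  have h1 := nm_aux_entC_tri P A (pair B W) (pair B W')
  have h2 : P.entC (pair B W) (pair B W') ≤ P.entC W W' := by
    have a1 := ent_entC_chain P B W (pair B W')
    have a2 : P.entC B (pair B W') = 0 := ent_entC_eq_zero P _ _ fun ω ω' _ _ h => congrArg Prod.fst h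
    have a3 : P.entC W (pair B (pair B W')) ≤ P.entC W W' :=
      ent_entC_anti P _ _ _ fun ω ω' _ _ h => congrArg (fun z => z.2.2) h
    linarith
  have h3 := ent_entC_le_log_nval P W W' hK
  linarith

/-- **the increments of a depth profile decrease under a finer condition** (`W'` lists `W` with a bounded number of values) -/
theorem nm_pro_prof_anti {y : ∀ n, (S.D n).Row 1 → ℝ} (hy : S.PB y) {γ γ' : ℕ → Type} (W : S.Obs γ) (W' : S.Obs γ') (K : ℝ)
    (hK : ∀ᶠ n in uf, ((S.D n).P 1).NVal (fun _ => True) (W n) (W' n) K) {x x' : ℝ} (h : x ≤ x') :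
    S.HC (S.cel y x') W' - S.HC (S.cel y x) W' ≤ S.HC (S.cel y x') W - S.HC (S.cel y x) W := by
  have t1 := nm_pro_HC_tendsto (nm_pro_pa_cel hy x) W
  have t2 := nm_pro_HC_tendsto (nm_pro_pa_cel hy x') W
  have t3 := nm_pro_HC_tendsto (nm_pro_pa_cel hy x) W'
  have t4 := nm_pro_HC_tendsto (nm_pro_pa_cel hy x') W'
  have u1 := t4.sub t3
  have u2 := t2.sub t1
  simp only [← sub_div] at u1 u2
  have := nm_pro_lim_le 0 (Real.log K) u1 u2 (hK.mono fun n hn => by
    have h1 := (nm_pro_cell_incr ((S.D n).P 1) (nm_pro_hs S n) (y n) (W n) h).1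
    have h2 := (nm_pro_cell_incr ((S.D n).P 1) (nm_pro_hs S n) (y n) (W' n) h).1
    have h3 := nm_pro_cond_fin ((S.D n).P 1) (fun ω => nmCell (S.D n).s x' (y n ω)) (fun ω => nmCell (S.D n).s x (y n ω)) (W n) (W' n) hn
    show ((S.D n).P 1).entC (fun ω => nmCell (S.D n).s x' (y n ω)) (W' n) - ((S.D n).P 1).entC (fun ω => nmCell (S.D n).s x (y n ω)) (W' n) ≤
      ((S.D n).P 1).entC (fun ω => nmCell (S.D n).s x' (y n ω)) (W n) - ((S.D n).P 1).entC (fun ω => nmCell (S.D n).s x (y n ω)) (W n) + _ + _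
    linarith)
  linarith

/-- **change of the condition**: `|H(A|W) - H(A|W')| ≤ a` if `W`, `W'` list each other with `≤ exp (a lgs + c)` values -/
theorem nm_pro_cond_lip {α γ γ' : ℕ → Type} {A : S.Obs α} (hA : dc_msc_PA S.cq A) (W : S.Obs γ) (W' : S.Obs γ') (a c : ℝ)
    (h1 : ∀ᶠ n in uf, ((S.D n).P 1).entC (W n) (W' n) ≤ a * (S.D n).lgs + c)
    (h2 : ∀ᶠ n in uf, ((S.D n).P 1).entC (W' n) (W n) ≤ a * (S.D n).lgs + c) : |S.HC A W - S.HC A W'| ≤ a := by
  have t1 := nm_pro_HC_tendsto hA W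
  have t2 := nm_pro_HC_tendsto hA W'
  have u1 := nm_pro_lim_le a c t1 t2 (h2.mono fun n hn => by
    have := nm_aux_entC_tri ((S.D n).P 1) (A n) (W' n) (W n)
    linarith)
  have u2 := nm_pro_lim_le a c t2 t1 (h1.mono fun n hn => by
    have := nm_aux_entC_tri ((S.D n).P 1) (A n) (W n) (W' n)
    linarith)
  rw [abs_le]
  constructor <;> linarith

theorem nm_pro_kit_eqns_cite : True := by
  have := @NmSeq.cel.eq_1
  trivial

end

end Claimed.Agent.R256
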