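import Claimed.Agent.R256.Nm.Pro.Cq

/-!
# Row 256 (S0496), unit NM, block PRO, file 10: TYPICAL EVENTS      (architect helper156; prefix `nm_pro_`)

LEAF L-256-NM-PRO-TYP.   Tools: `R255/Cl/ToolsSeq.lean` (`ts_typ_inter`, `ts_homog_typ`, `ts_pick`, `CSeq.Typ`, `CSeq.Sel`, `CSeq.part`), `uf_em`, `nm_pro_condOn_congr` (`Nm/Pro/Cq.lean`), `ent_prop_le`.
* `nm_pro_typ_sub`: `ts_typ_inter` gives `Gd'` with the SELECTION property.   Subset form: if NOT `∀ᶠ n, ∀ ω, Gd' n ω → Gd i n ω` then (`uf_em`) `∀ᶠ n, ∃ ω, Gd' n ω ∧ ¬ Gd i n ω`; choose such points `ω₀ n` (any point elsewhere: `ent_exists_supp`): a selection in `Gd'` which is not in `Gd i`: contradiction (`uf_neBot`).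
* `nm_pro_typ_homog`: tag `Z n ω := F n ω` (values in `Prop`), `Q.toH Z 0` since `ent ≤ log 2` (`ent_prop_le`, `dc_hx_lg_atTop`); `ts_homog_typ` gives a typical `Gd`; `ts_pick` (with `A = F`, `c = 1/2`) a selection `ω₀` in `Gd ∩ F`;
  for these `n` the event `Z n ω = Z n (ω₀ n)` IS `F n ω` (`propext`, `eq_iff_iff`, `iff_true`): `nm_pro_condOn_congr`.
-/

set_option autoImplicit false

namespace Claimed.Agent.R256

open Claimed.Agent.R255
open Claimed.Agent.R255.FLaw (pair)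
open Filter Topology
open Classical

noncomputable section

/-- countably many typical sequences of events CONTAIN one typical sequence -/
theorem nm_pro_typ_sub (Q : CSeq) (Gd : ℕ → ∀ n, (Q.S n).Ω → Prop) (h : ∀ i, Q.Typ (Gd i)) :
    ∃ F : ∀ n, (Q.S n).Ω → Prop, Q.Typ F ∧ ∀ i, ∀ᶠ n in uf, ∀ ω, F n ω → Gd i n ω := by
  obtain ⟨Gd', h1, h2⟩ := ts_typ_inter (fun n => (Q.S n).P) Gd h
  refine ⟨Gd', h1, fun i => ?_⟩
  rcases uf_em (fun n => ∀ ω, Gd' n ω → Gd i n ω) with h3 | h3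
  · exact h3
  · exfalso
    have hne : ∀ n, Nonempty (Q.S n).Ω := fun n => ⟨(ent_exists_supp (Q.S n).P).choose⟩
    have h4 : ∀ᶠ n in uf, ∃ ω, Gd' n ω ∧ ¬ Gd i n ω := by
      filter_upwards [h3] with n hn
      push Not at hn
      exact hn
    obtain ⟨ω₀, hω₀⟩ : ∃ ω₀ : ∀ n, (Q.S n).Ω, ω₀ = fun n => if hn : ∃ ω, Gd' n ω ∧ ¬ Gd i n ω then hn.choose else (hne n).some := ⟨_, rfl⟩
    have h5 : ∀ᶠ n in uf, Gd' n (ω₀ n) ∧ ¬ Gd i n (ω₀ n) := by
      filter_upwards [h4] with n hn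
      rw [hω₀]
      simp only [dif_pos hn]
      exact hn.choose_spec
    have h6 := h2 ω₀ (h5.mono fun n hn => hn.1) i
    have := uf_neBot
    obtain ⟨n, hn1, hn2⟩ := (h5.and h6).exists
    exact hn1.2 hn2

/-- a sequence of events, as a tag, has entropy exponent `0` -/
theorem nm_pro_typ_tag (Q : CSeq) (F : ∀ n, (Q.S n).Ω → Prop) : Q.toH (α := fun _ => Prop) (fun n ω => F n ω) 0 := by
  have h1 : Tendsto (fun n => Real.log 2 / lg (Q.ε n)) uf (𝓝 0) := (dc_hx_lg_atTop Q).const_div_atTop _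
  refine squeeze_zero (fun n => ?_) (fun n => ?_) h1
  · exact div_nonneg (ent_nonneg _ _) (dc_hx_lg_pos Q n).le
  · exact div_le_div_of_nonneg_right (ent_prop_le _ _) (dc_hx_lg_pos Q n).le

/-- homogeneity survives the conditioning on a typical sequence of events, with the same exponents -/
theorem nm_pro_typ_homog (Q : CSeq) (F : ∀ n, (Q.S n).Ω → Prop) (hF : Q.Typ F) (α β : ℕ → ℕ → Type)
    (Y : ∀ j, Q.Obs (α j)) (X : ∀ j, Q.Obs (β j)) (d : ℕ → ℝ) (h : ∀ j, Q.Homog (Y j) (X j) (d j)) :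
    ∀ j, (Q.condOn F).Homog (Y j) (X j) (d j) := by
  intro j
  obtain ⟨Gd, hGd, hsel⟩ := ts_homog_typ Q (ζ := fun _ => Prop) (fun n ω => F n ω) (nm_pro_typ_tag Q F) α β Y X d h
  have hA : ∀ᶠ n in uf, (1 / 2 : ℝ) ≤ (Q.S n).P.pr (F n) := by
    have : ∀ᶠ n in uf, (1 / 2 : ℝ) < (Q.S n).P.pr (F n) := hF.eventually (lt_mem_nhds (by norm_num))
    exact this.mono fun n hn => hn.le
  obtain ⟨ω₀, hω₀⟩ := ts_pick (fun n => (Q.S n).P) Gd F hGd (1 / 2) (by norm_num) hA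
  have H := hsel ω₀ (hω₀.mono fun n hn => hn.1) j
  refine nm_pro_condOn_congr Q F (fun n ω => F n ω = F n (ω₀ n)) ?_ (Y j) (X j) (d j) H
  filter_upwards [hω₀] with n hn
  funext ω
  simp [hn.2.1]

end

end Claimed.Agent.R256
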