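import Claimed.Agent.R256.Nm.Pro.Fw
import Claimed.Agent.R256.Nm.Pro.Typ

/-!
# Row 256 (S0496), unit NM, block PRO, file 11: SHARPENING      (architect helper156; prefix `nm_pro_`)

LEAF L-256-NM-PRO-SHP.   Black boxes: `nm_pro_fw` (`Fw.lean`), `nm_pro_typ_sub`, `nm_pro_typ_homog` (`Typ.lean`).
PROOF.  The events `H k n = {ω | |sur (Y j | X j) ω / lg - d j| ≤ 1 / (m + 1)}`, `(j, m) = Nat.unpair k`, are typical (`(h j).2 (1/(m+1))` and `ent_pr_not`).   `nm_pro_typ_sub` for `Gd` gives `F1`, for `H` gives `F2`, and for the sequence `F1, F2, F2, ...` gives `F`.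
Homogeneity: `nm_pro_typ_homog`.   Sharpness, `j, τ, η` fixed: `m` with `1/(m+1) ≤ η/2`; for `uf`-most `n`: `F n ⊆ H (Nat.pair j m) n`, `1/2 ≤ P(F n)`, `log 2 / lg ≤ η/2` (`dc_hx_lg_atTop`).
`((Q.condOn F).S n).P = (Q.S n).P.cnd (F n)` by `rfl`.   `nm_pro_fw` with `θ = ε^τ` (`- log θ = τ lg`): off probability `2 ε^τ`, `|sur_R - sur_P| ≤ τ lg + log 2`; on the support of `R` (`ent_cnd_supp`) `F n ω` holds; `ent_pr_mono`.
-/

set_option autoImplicit false

namespace Claimed.Agent.R256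

open Claimed.Agent.R255
open Claimed.Agent.R255.FLaw (pair)
open Filter Topology
open Classical

noncomputable section

/-- **sharpening**: one conditioning on a typical sequence of events, inside countably many prescribed typical sequences, makes a countable list of homogeneous pairs sharply homogeneous -/
theorem nm_pro_sharpen (Q : CSeq) (α β : ℕ → ℕ → Type) (Y : ∀ j, Q.Obs (α j)) (X : ∀ j, Q.Obs (β j)) (d : ℕ → ℝ)
    (h : ∀ j, Q.Homog (Y j) (X j) (d j)) (Gd : ℕ → ∀ n, (Q.S n).Ω → Prop) (hGd : ∀ i, Q.Typ (Gd i)) :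
    ∃ F : ∀ n, (Q.S n).Ω → Prop, Q.Typ F ∧ (∀ i, ∀ᶠ n in uf, ∀ ω, F n ω → Gd i n ω) ∧
      ∀ j, (Q.condOn F).Homog (Y j) (X j) (d j) ∧ nmSharp (Q.condOn F) (Y j) (X j) (d j) := by
  let H : ℕ → ∀ n, (Q.S n).Ω → Prop := fun k n ω =>
    |(Q.S n).P.surC (Y k.unpair.1 n) (X k.unpair.1 n) ω / lg (Q.ε n) - d k.unpair.1| ≤ 1 / ((k.unpair.2 : ℝ) + 1)
  have hH : ∀ k, Q.Typ (H k) := fun k => by
    have h1 := (h k.unpair.1).2 (1 / ((k.unpair.2 : ℝ) + 1)) (by positivity)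
    have h2 := h1.const_sub 1
    rw [sub_zero] at h2
    refine h2.congr fun n => ?_
    have e := ent_pr_not (Q.S n).P (H k n)
    have e2 : (Q.S n).P.pr (fun ω => ¬ H k n ω) = (Q.S n).P.pr (fun ω => 1 / ((k.unpair.2 : ℝ) + 1)
        < |(Q.S n).P.surC (Y k.unpair.1 n) (X k.unpair.1 n) ω / lg (Q.ε n) - d k.unpair.1|) :=
      ent_pr_congr _ fun ω _ => not_le
    rw [← e2, e]
    ring
  let K : ℕ → ∀ n, (Q.S n).Ω → Prop := fun k => if k % 2 = 0 then Gd (k / 2) else H (k / 2)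
  have hK : ∀ k, Q.Typ (K k) := fun k => by
    by_cases hk : k % 2 = 0
    · simp only [K, if_pos hk]; exact hGd _
    · simp only [K, if_neg hk]; exact hH _
  have hK0 : ∀ i, K (2 * i) = Gd i := fun i => by
    have h1 : (2 * i) % 2 = 0 := by omega
    have h2 : (2 * i) / 2 = i := by omega
    simp only [K, if_pos h1, h2]
  have hK1 : ∀ i, K (2 * i + 1) = H i := fun i => by
    have h1 : ¬ (2 * i + 1) % 2 = 0 := by omega
    have h2 : (2 * i + 1) / 2 = i := by omega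
    simp only [K, if_neg h1, h2]
  obtain ⟨F, hF, hsub⟩ := nm_pro_typ_sub Q K hK
  refine ⟨F, hF, fun i => ?_, fun j => ⟨nm_pro_typ_homog Q F hF α β Y X d h j, fun τ η hτ hη => ?_⟩⟩
  · have := hsub (2 * i)
    rwa [hK0] at this
  · obtain ⟨m, hm⟩ := exists_nat_one_div_lt (show (0 : ℝ) < η / 2 by positivity)
    have s1 := hsub (2 * Nat.pair j m + 1)
    rw [hK1] at s1
    have s2 : ∀ᶠ n in uf, 1 / 2 < (Q.S n).P.pr (F n) := hF.eventually (lt_mem_nhds (by norm_num))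
    have s3 : ∀ᶠ n in uf, 2 * Real.log 2 / η ≤ lg (Q.ε n) := (dc_hx_lg_atTop Q).eventually (eventually_ge_atTop _)
    filter_upwards [s1, s2, s3] with n a1 a2 a3
    have hl := dc_hx_lg_pos Q n
    have hε := (Q.pos n).1
    have hF0 : 0 < (Q.S n).P.pr (F n) := lt_trans (by norm_num) a2
    have fw := nm_pro_fw (Q.S n).P (F n) hF0 (Y j n) (X j n) ((Q.ε n) ^ τ) (Real.rpow_pos_of_pos hε _)
    show ((Q.S n).P.cnd (F n)).pr (fun ω => τ + η < |((Q.S n).P.cnd (F n)).surC (Y j n) (X j n) ω / lg (Q.ε n) - d j|) ≤ 2 * (Q.ε n) ^ τ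
    refine le_trans (ent_pr_mono _ fun ω hω hbad => ?_) fw
    by_contra hc
    push Not at hc
    have hFω := ((ent_cnd_supp (Q.S n).P (F n) hF0).1 hω).1
    have hHω : |(Q.S n).P.surC (Y j n) (X j n) ω / lg (Q.ε n) - d j| ≤ 1 / ((m : ℝ) + 1) := by
      have gen : ∀ (k j' m' : ℕ), k.unpair = (j', m') → H k n ω →
          |(Q.S n).P.surC (Y j' n) (X j' n) ω / lg (Q.ε n) - d j'| ≤ 1 / ((m' : ℝ) + 1) := by
        intro k j' m' hk hh
        have h1 : k.unpair.1 = j' := by rw [hk]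
        have h2 : k.unpair.2 = m' := by rw [hk]
        subst h1 h2
        exact hh
      exact gen _ j m (Nat.unpair_pair j m) (a1 ω hFω)
    have l1 : - Real.log ((Q.ε n) ^ τ) = τ * lg (Q.ε n) := by
      rw [Real.log_rpow hε]
      unfold lg
      rw [one_div, Real.log_inv]
      ring
    have l2 : - Real.log ((Q.S n).P.pr (F n)) ≤ Real.log 2 := by
      have := Real.log_le_log (by norm_num : (0 : ℝ) < 1 / 2) a2.le
      rw [one_div, Real.log_inv] at this
      linarith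
    have l3 : Real.log 2 ≤ η / 2 * lg (Q.ε n) := by
      rw [div_le_iff₀ hη] at a3
      linarith
    have c3 : |((Q.S n).P.cnd (F n)).surC (Y j n) (X j n) ω / lg (Q.ε n) - (Q.S n).P.surC (Y j n) (X j n) ω / lg (Q.ε n)| ≤ τ + η / 2 := by
      rw [← sub_div, abs_div, abs_of_pos hl, div_le_iff₀ hl]
      nlinarith
    have e' : ((Q.S n).P.cnd (F n)).surC (Y j n) (X j n) ω / lg (Q.ε n) - d j =
        (((Q.S n).P.cnd (F n)).surC (Y j n) (X j n) ω / lg (Q.ε n) - (Q.S n).P.surC (Y j n) (X j n) ω / lg (Q.ε n)) +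
          ((Q.S n).P.surC (Y j n) (X j n) ω / lg (Q.ε n) - d j) := by ring
    rw [e'] at hbad
    have := abs_add_le (((Q.S n).P.cnd (F n)).surC (Y j n) (X j n) ω / lg (Q.ε n) - (Q.S n).P.surC (Y j n) (X j n) ω / lg (Q.ε n))
      ((Q.S n).P.surC (Y j n) (X j n) ω / lg (Q.ε n) - d j)
    linarith

end

end Claimed.Agent.R256
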